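import Vale.Agent.P011.Even.Pnc

/-!
Representation of an element by the ternary form `⟨a, c, -a c⟩`.
-/

open NumberField IsDedekindDomain

namespace Vale.Agent.P011.Two2

open Vale.Agent.P011.Arith Vale.Agent.P011.Arith.Sch Vale.Agent.P011.Even

variable {F : Type} [Field F] [NumberField F]

omit [NumberField F] in
theorem norm_ne_zero_of {a : F} (ha : ¬ IsSquare a) {x y : F} (h : ¬ (x = 0 ∧ y = 0)) :
    x ^ 2 - a * y ^ 2 ≠ 0 := by
  intro h0
  apply h
  by_cases hy : y = 0
  · subst hy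
    refine ⟨?_, rfl⟩
    have : x ^ 2 = 0 := by linear_combination h0
    exact pow_eq_zero_iff two_ne_zero |>.mp this
  · exact absurd ⟨x / y, by field_simp; linear_combination -h0⟩ ha

/-- The ternary form represents the elements which are not squares at the places where it is
anisotropic. -/
theorem ternary {a : Fˣ} (ha : ¬ IsSquare (a : F)) (c e : Fˣ)
    (hfin : ∀ w : HeightOneSpectrum (𝓞 F), c ∉ NF a ⊔ LS (w.valuation F) →
      e ∉ LS (w.valuation F))
    (hreal : ∀ ψ : F →+* ℝ, ψ a < 0 → ψ c < 0 → ψ e < 0) :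
    ∃ y p q : F, (e : F) = a * y ^ 2 + c * (p ^ 2 - a * q ^ 2) ∧ p ^ 2 - a * q ^ 2 ≠ 0 := by
  -- the case of a norm
  have hsplit : c ∈ NF a → ∃ y p q : F, (e : F) = a * y ^ 2 + c * (p ^ 2 - a * q ^ 2) ∧
      p ^ 2 - a * q ^ 2 ≠ 0 := by
    rintro ⟨x, x', hx⟩
    have ha0 := a.ne_zero
    obtain ⟨u, hu⟩ : ∃ u, u = (((e : F) - 1) / a - 1) / 2 := ⟨_, rfl⟩
    have hn : (1 : F) ^ 2 - a * u ^ 2 ≠ 0 := norm_ne_zero_of ha (by simp)
    have hcn : x ^ 2 - a * x' ^ 2 ≠ 0 := by rw [← hx]; exact c.ne_zero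
    refine ⟨u + 1, (1 * x - a * u * x') / (x ^ 2 - a * x' ^ 2),
      (u * x - 1 * x') / (x ^ 2 - a * x' ^ 2), ?_, ?_⟩
    · have h1 : (c : F) * (((1 * x - a * u * x') / (x ^ 2 - a * x' ^ 2)) ^ 2 -
          a * ((u * x - 1 * x') / (x ^ 2 - a * x' ^ 2)) ^ 2) = 1 - a * u ^ 2 := by
        rw [hx]
        field_simp
        ring
      rw [h1, hu]
      field_simp
      ring
    · have h1 : ((1 * x - a * u * x') / (x ^ 2 - a * x' ^ 2)) ^ 2 -
          a * ((u * x - 1 * x') / (x ^ 2 - a * x' ^ 2)) ^ 2 =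
          (1 ^ 2 - a * u ^ 2) / (x ^ 2 - a * x' ^ 2) := by
        field_simp
        ring
      rw [h1]
      exact div_ne_zero hn hcn
  by_cases hcN : c ∈ NF a
  · exact hsplit hcN
  -- `e` is not a square
  have hensq : ¬ IsSquare (e : F) := by
    intro hsq
    apply hcN
    refine hasse_norm a c ?_
    rintro (v | φ)
    · change c ∈ NF a ⊔ LS (v.valuation F)
      by_contra hv
      exact hfin v hv (Sq_le_LS _ (mem_Sq_iff.mpr hsq))
    · change c ∈ NF a ⊔ LSR φ
      by_contra hv
      have h1 : φ a < 0 := by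
        by_contra ha'
        have ha2 : 0 < φ a := lt_of_le_of_ne (not_lt.mp ha')
          ((_root_.map_ne_zero φ).mpr a.ne_zero).symm
        apply hv
        by_cases hc' : 0 < φ c
        · exact Subgroup.mem_sup_right (mem_LSR.mpr hc')
        · have hb2 : φ c < 0 := lt_of_le_of_ne (not_lt.mp hc')
            ((_root_.map_ne_zero φ).mpr c.ne_zero)
          have h1 : c / (-a) ∈ LSR φ := by
            rw [mem_LSR, Units.val_div_eq_div_val, map_div₀, Units.val_neg, map_neg]
            exact div_pos_of_neg_of_neg hb2 (by linarith)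
          have h2 : c = -a * (c / (-a)) := by
            rw [mul_div_cancel]
          rw [h2]
          exact Subgroup.mul_mem_sup (Sch.neg_mem_NF _) h1
      have h2 : φ c < 0 := by
        by_contra hc'
        have hc2 : 0 < φ c := lt_of_le_of_ne (not_lt.mp hc')
          ((_root_.map_ne_zero φ).mpr c.ne_zero).symm
        exact hv (Subgroup.mem_sup_right (mem_LSR.mpr hc2))
      have h3 := hreal φ h1 h2
      obtain ⟨t, ht⟩ := hsq
      rw [ht, map_mul] at h3
      nlinarith [mul_self_nonneg (φ t)]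
  obtain ⟨E, _, _, _, hE, θ, hθ⟩ := exists_quad e hensq
  have hθ' : ∀ x : F, algebraMap F E x ≠ θ := by
    rintro r rfl
    apply hensq
    refine ⟨r, (algebraMap F E).injective ?_⟩
    rw [← hθ, map_mul, pow_two]
  set ι : Fˣ →* Eˣ := Units.map (algebraMap F E : F →* E) with hι
  have hιv : ∀ u : Fˣ, ((ι u : Eˣ) : E) = algebraMap F E u := fun _ => rfl
  have key : ι c ∈ NF (ι a) := by
    refine hasse_norm (ι a) (ι c) ?_
    rintro (w | ψ)
    · change ι c ∈ NF (ι a) ⊔ LS (w.valuation E)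
      obtain ⟨v, hv⟩ := Sch.exists_below (F := F) w
      by_cases hvS : c ∈ NF a ⊔ LS (v.valuation F)
      · exact Sch.sup_map hv hvS
      · rcases local_split v a c e (hfin v hvS) with h1 | ⟨y, n, l, hn, hl, h1⟩
        · exact absurd h1 hvS
        · have h2 : ι (c * n * l) ∈ NF (ι a) := by
            refine ⟨θ, algebraMap F E y, ?_⟩
            rw [hιv, hθ, hιv]
            have h3 : ((c * n * l : Fˣ) : F) = (e : F) - a * y ^ 2 := by
              rw [h1]; push_cast; ring
            rw [h3]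
            simp
          have h3 : ι c = ι (c * n * l) * (ι n)⁻¹ * (ι l)⁻¹ := by
            rw [map_mul, map_mul, mul_right_comm (ι c * ι n) (ι l) (ι n)⁻¹,
              mul_inv_cancel_right, mul_inv_cancel_right]
          rw [h3]
          exact mul_mem (mul_mem (Subgroup.mem_sup_left h2)
            (inv_mem (Subgroup.mem_sup_left (NF_map hn))))
            (inv_mem (Subgroup.mem_sup_right (LS_map hv hl)))
    · change ι c ∈ NF (ι a) ⊔ LSR ψ
      set φ : F →+* ℝ := ψ.comp (algebraMap F E) with hφ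
      have hval : ∀ u : Fˣ, ψ (ι u) = φ u := fun _ => rfl
      have heφ : 0 ≤ φ e := by
        have : φ e = ψ θ ^ 2 := by
          rw [← map_pow, hθ]
          rfl
        rw [this]
        positivity
      by_cases hb : 0 < φ c
      · exact Subgroup.mem_sup_right (by rw [mem_LSR, hval]; exact hb)
      · have hb' : φ c < 0 := lt_of_le_of_ne (not_lt.mp hb)
          ((_root_.map_ne_zero φ).mpr c.ne_zero)
        have ha' : 0 < φ a := by
          by_contra ha3
          have ha' : φ a < 0 := lt_of_le_of_ne (not_lt.mp ha3)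
            ((_root_.map_ne_zero φ).mpr a.ne_zero)
          have h1 := hreal φ ha' hb'
          linarith
        have h1 : ι c / (-ι a) ∈ LSR ψ := by
          rw [mem_LSR, Units.val_div_eq_div_val, map_div₀, Units.val_neg, map_neg, hval, hval]
          exact div_pos_of_neg_of_neg hb' (by linarith)
        have h2 : ι c = -ι a * (ι c / (-ι a)) := by
          rw [mul_div_cancel]
        rw [h2]
        exact Subgroup.mul_mem_sup (Sch.neg_mem_NF _) h1
  obtain ⟨X, Y, hXY⟩ := key
  obtain ⟨x1, x2, y1, y2, h1, h2⟩ :=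
    Sch.descend (a := (a : F)) (b := (c : F)) hθ hE hθ' hXY
  by_cases hn : x2 = 0 ∧ y2 = 0
  · refine absurd ⟨x1, y1, ?_⟩ hcN
    rw [h1, hn.1, hn.2]
    ring
  have hn' := norm_ne_zero_of ha hn
  refine ⟨(y1 * x2 - x1 * y2) / (x2 ^ 2 - a * y2 ^ 2), x2 / (x2 ^ 2 - a * y2 ^ 2),
    y2 / (x2 ^ 2 - a * y2 ^ 2), ?_, ?_⟩
  · field_simp
    rw [h1]
    linear_combination (-(x1 * x2) + a * y1 * y2) * h2
  · have h3 : (x2 / (x2 ^ 2 - a * y2 ^ 2)) ^ 2 - a * (y2 / (x2 ^ 2 - a * y2 ^ 2)) ^ 2 =
        1 / (x2 ^ 2 - a * y2 ^ 2) := by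
      field_simp
    rw [h3]
    exact one_div_ne_zero hn'

end Vale.Agent.P011.Two2
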