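import Vale.Agent.P011.Even.Split

/-!
The conditions on the element `z = m⁻¹ r` of the two steps.
-/

open Polynomial NumberField IsDedekindDomain Module

namespace Vale.Agent.P011.Two2

open Vale.Agent.P011.Arith Vale.Agent.P011.Even

/-- The conditions at the finite places of `V` and at the real places: the minimal
polynomial of `z` has degree `n`, it is totally split there, and at every `v ∈ V` one of the
values of `θ⁻¹ + 4⁻¹` is not a square. -/
def Nice (k : Type) {D : Type} [Field k] [NumberField k] [DivisionRing D] [Algebra k D]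
    (d : kˣ) (n : ℕ) (V : Set (HeightOneSpectrum (𝓞 k))) (z : D) : Prop :=
  LinearIndependent k (fun i : Fin n => z ^ (i : ℕ)) ∧
  (∀ v ∈ V, ∀ (E : Type) [Field E] [NumberField E] [Algebra k E] (θ : E), finrank k E = n →
    (minpoly k θ).natDegree = n → aeval z (minpoly k θ) = 0 →
    TotSplit E v ∧ ∃ w : HeightOneSpectrum (𝓞 E), Ab w v ∧
      ∀ c : Eˣ, (c : E) = θ⁻¹ + 4⁻¹ → c ∉ LS (w.valuation E)) ∧
  ∀ φ : k →+* ℝ, φ d < 0 → ∀ q : k[X], q.Monic → q.natDegree = n → aeval z q = 0 →
    ∃ ρ : Fin n → ℝ, Function.Injective ρ ∧ q.map φ = ∏ i, (X - C (ρ i))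

end Vale.Agent.P011.Two2
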