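import Vale.Agent.P011.Two2.Omega
import Vale.Agent.P011.Two.Dense

/-!
The completion at a nonsplit finite place.
-/

open Filter NumberField IsDedekindDomain TensorProduct Topology Matrix

set_option linter.unusedSectionVars false

namespace Vale.Agent.P011.Two2

open Vale.Agent.P011.Arith Vale.Agent.P011.Even
open Vale.Agent.P011.Two (Cv cof cof_tmul cof_ext sg sg_tmul sg_mul sg_sg exists_Cv plAbv_norm
  model_theta)

/-- The completion at a place, with a matrix model. -/
structure PData {k K D : Type} [Field k] [NumberField k] [Field K] [DivisionRing D] [StarRing D]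
    [Algebra k D] [Algebra K D] {N : ℕ} (B : Module.Basis (Fin N) k D) (p : Pl k) (s : K)
    (n : ℕ) where
  C : CData D
  M : CMod k s C n
  near : ∀ {x y : ℕ → D} {X : C.E}, C.cv x X →
    Tendsto (fun j => nm B p (y j - x j)) atTop (𝓝 0) → C.cv y X
  surj : ∀ X, ∃ x, C.cv x X
  size : ∀ {x : ℕ → D} {X : D}, C.cv x (C.φ X) → Tendsto (fun j => nm B p (x j - X)) atTop (𝓝 0)

variable {k K D : Type} [Field k] [NumberField k] [Field K] [StarRing K]
  [DivisionRing D] [StarRing D] [Algebra k K] [Algebra k D] [Algebra K D] [IsScalarTower k K D]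
  {d : kˣ} {s : K} {N : ℕ}

theorem nontrivial_fin (B : Module.Basis (Fin N) k D) (v : HeightOneSpectrum (𝓞 k)) :
    Nontrivial (v.adicCompletion k ⊗[k] D) := by
  refine ⟨⟨1, 0, fun h => ?_⟩⟩
  have h1 : ∀ i, B.repr (1 : D) i = 0 := by
    intro i
    apply (algebraMap k (v.adicCompletion k)).injective
    rw [← cof_tmul, ← Algebra.TensorProduct.one_def, h, map_zero, cof, map_zero]
    rfl
  have h2 : (1 : D) = 0 := B.repr.injective (by
    rw [map_zero]
    exact Finsupp.ext h1)
  exact one_ne_zero h2

/-- The completion at a finite place. -/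
noncomputable def cfin (hS : Setting k K D d s) (B : Module.Basis (Fin N) k D)
    (v : HeightOneSpectrum (𝓞 k)) : CData D :=
  have := nontrivial_fin B v
  { E := v.adicCompletion k ⊗[k] D
    φ := (Algebra.TensorProduct.includeRight : D →ₐ[k] v.adicCompletion k ⊗[k] D).toRingHom
    σ := sg hS v
    σ_mul := sg_mul hS v
    σ_sub := fun x y => map_sub _ x y
    σ_σ := sg_sg hS v
    σ_φ := fun x => sg_tmul hS v 1 x
    cv := Cv B v
    const := Cv.const B v
    add := Cv.add
    sub := Cv.sub
    mul := Cv.mul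
    star' := Cv.star
    inv := Cv.inv
    ne := fun hx hX => hx.ne (y := 0) (by rwa [TensorProduct.tmul_zero])
    congr := fun hx h i => (hx i).congr' (h.mono fun j hj => by rw [hj])
    unique := Cv.unique B v }

theorem cfin_φ (hS : Setting k K D d s) (B : Module.Basis (Fin N) k D)
    (v : HeightOneSpectrum (𝓞 k)) (x : D) :
    (cfin hS B v).φ x = ((1 : v.adicCompletion k) ⊗ₜ[k] x : v.adicCompletion k ⊗[k] D) := rfl

theorem Cv.near {B : Module.Basis (Fin N) k D} {v : HeightOneSpectrum (𝓞 k)} {x y : ℕ → D}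
    {X : v.adicCompletion k ⊗[k] D} (hx : Cv B v x X)
    (h : Tendsto (fun j => nm B (.inl v) (y j - x j)) atTop (𝓝 0)) : Cv B v y X := by
  intro i
  have h1 : Tendsto (fun j => algebraMap k (v.adicCompletion k) (B.repr (y j - x j) i)) atTop
      (𝓝 0) := by
    rw [tendsto_zero_iff_norm_tendsto_zero]
    refine squeeze_zero (fun _ => norm_nonneg _) (fun j => ?_) h
    rw [← plAbv_norm]
    exact Finset.single_le_sum (f := fun i => plAbv (.inl v : Pl k) (B.repr (y j - x j) i))
      (fun _ _ => AbsoluteValue.nonneg _ _) (Finset.mem_univ i)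
  have h2 := (hx i).add h1
  rw [add_zero] at h2
  refine h2.congr fun j => ?_
  rw [map_sub, Finsupp.sub_apply, map_sub, add_sub_cancel]

/-- The data at a nonsplit finite place. -/
theorem exists_pfin (hS : Setting k K D d s) {n : ℕ} (hn : 0 < n)
    (hdeg : Module.finrank K D = n ^ 2) (B : Module.Basis (Fin N) k D)
    (v : HeightOneSpectrum (𝓞 k)) (hv : d ∉ LS (v.valuation k)) :
    ∃ P : PData B (.inl v) s n, P.C = cfin hS B v := by
  obtain ⟨L, _, _, _, ρ, G, hfix, hL2, hGu, hGs, hG⟩ := exists_local_model hS hdeg v hv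
  obtain ⟨θ, hθ, -, -, -⟩ := model_theta (hS := hS) hn hGu hG
  have : CharZero L := charZero_of_injective_algebraMap
    (algebraMap (v.adicCompletion k) L).injective
  refine ⟨⟨cfin hS B v, ⟨L, (algebraMap (v.adicCompletion k) L).comp
    (algebraMap k (v.adicCompletion k)), θ, ρ.toRingEquiv, ?_, ?_⟩, ?_, ?_, ?_⟩, rfl⟩
  · intro x
    change ρ ((1 : v.adicCompletion k) ⊗ₜ[k] algebraMap k D x) = _
    have h2 : (1 : v.adicCompletion k) ⊗ₜ[k] algebraMap k D x =
        algebraMap (v.adicCompletion k) _ (algebraMap k (v.adicCompletion k) x) := by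
      rw [Algebra.TensorProduct.algebraMap_apply, Algebra.algebraMap_eq_smul_one x,
        TensorProduct.tmul_smul, TensorProduct.smul_tmul', Algebra.smul_def, mul_one]
      rfl
    rw [h2, AlgEquiv.commutes]
    rfl
  · exact hθ
  · exact fun hx h => Cv.near hx h
  · exact fun X => exists_Cv B v X
  · exact fun hx => Two.Cv.size hx

end Vale.Agent.P011.Two2
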