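import Vale.Agent.P011.Even.LocFin
import Vale.Agent.P011.Even.R1
import Vale.Agent.P011.Two2.PFin

/-!
Rank one hermitian forms over the completion at a nonsplit finite place.
-/

open NumberField IsDedekindDomain TensorProduct Polynomial

set_option linter.unusedSectionVars false

namespace Vale.Agent.P011.Two2

open Vale.Agent.P011.Arith Vale.Agent.P011.Even

/-- Elements with the same discriminant class are isometric over the completion. -/
theorem tensor_fin {k K D : Type} [Field k] [NumberField k] [Field K] [StarRing K]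
    [DivisionRing D] [StarRing D] [Algebra k K] [Algebra k D] [Algebra K D] [IsScalarTower k K D]
    {d : kˣ} {s : K} (hS : Setting k K D d s) {n : ℕ} {Ω : Type} [Field Ω] [Algebra K Ω] (f : D →ₐ[K] Matrix (Fin n) (Fin n) Ω)
    (hn : Module.finrank K D = n ^ 2)
    (v : HeightOneSpectrum (𝓞 k)) (hv : d ∉ Arith.LS (v.valuation k)) {e e' : D}
    (he : star e = e) (he' : star e' = e') {ν ν' : kˣ}
    (hν : (f e).det = algebraMap K Ω (algebraMap k K ν))
    (hν' : (f e').det = algebraMap K Ω (algebraMap k K ν'))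
    (hN : ν * ν' ∈ Arith.NF d ⊔ Arith.LS (v.valuation k)) :
    ∃ T : v.adicCompletion k ⊗[k] D,
      hS.sig.baseChange (v.adicCompletion k) T * (1 ⊗ₜ e) * T = 1 ⊗ₜ e' := by
  have := hS.fin
  have := hS.cen
  have : CharZero K := charZero_of_injective_algebraMap (algebraMap k K).injective
  have hn0 : 0 < n := by
    rcases Nat.eq_zero_or_pos n with h0 | h0
    · rw [h0] at hn
      exact absurd hn (Module.finrank_pos (R := K) (M := D)).ne'
    · exact h0
  have hfk := hS.fin_k
  have hd : ¬ IsSquare (algebraMap k (v.adicCompletion k) (d : k)) := fun h0 =>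
    hv ((isSquare_iff v d).mp h0)
  let _ := nnf v
  have := isUltra v
  let F := v.adicCompletion k
  have hσ : ∀ x, hS.sig x = star x := fun x => rfl
  have hss : star (algebraMap K D s) = -algebraMap K D s := by
    rw [hS.star_alg, hS.star_s, map_neg]
  have SK := LocSimple.secondKind_tensor (F := F) hS.sq hS.span hd hS.sig hσ hss
  have : IsSimpleRing (F ⊗[k] D) := LocSimple.simple_tensor hS.sq hS.span hd
  let dF : F := algebraMap k F (d : k)
  have := fact_of_not_square hd
  let L := QuadraticAlgebra F dF 0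
  let sL : L := ⟨0, 1⟩
  have hsL : sL ^ 2 = algebraMap F L dF := omega_sq' dF
  have hL2 : Module.finrank F L = 2 := QuadraticAlgebra.finrank_eq_two _ _
  obtain ⟨m, ρ, hρ⟩ := SK.split (indexTwo v) L sL hL2 hsL
  -- the degree
  have hmn : m = n := by
    have h1 := ρ.toLinearEquiv.finrank_eq
    have h2 : Module.finrank k D = 2 * n ^ 2 := by
      have := hS.rank
      have h3 := Module.finrank_mul_finrank k K D
      rw [hS.rank, hn] at h3
      exact h3.symm
    rw [Module.finrank_baseChange, h2, Module.finrank_matrix, Fintype.card_fin, hL2] at h1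
    have h4 : m ^ 2 = n ^ 2 := by
      have : m ^ 2 = m * m := pow_two m
      omega
    exact Nat.pow_left_injective two_ne_zero h4
  subst hmn
  -- the embedding of the quadratic extension
  have hsL' : sL ^ 2 = algebraMap k L (d : k) := by
    rw [hsL, IsScalarTower.algebraMap_apply k F L]
  obtain ⟨j, hj⟩ := exists_hom hS.ns hS.sq hS.span hsL'
  let _ : Algebra K L := j.toRingHom.toAlgebra
  have hjk : ∀ a : k, algebraMap K L (algebraMap k K a) = algebraMap F L (algebraMap k F a) := by
    intro a
    change j (algebraMap k K a) = _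
    rw [AlgHom.commutes, IsScalarTower.algebraMap_apply k F L]
  have hone : ∀ a : k, ρ ((1 : F) ⊗ₜ[k] algebraMap k D a) =
      algebraMap F (Matrix (Fin m) (Fin m) L) (algebraMap k F a) := by
    intro a
    rw [← AlgEquiv.commutes ρ, Algebra.TensorProduct.algebraMap_apply,
      Algebra.algebraMap_eq_smul_one a, TensorProduct.tmul_smul, TensorProduct.smul_tmul',
      ← Algebra.algebraMap_eq_smul_one a]
    rfl
  let g : D →ₐ[K] Matrix (Fin m) (Fin m) L :=
    { toFun := fun x => ρ ((1 : F) ⊗ₜ[k] x)
      map_one' := by rw [← Algebra.TensorProduct.one_def, map_one]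
      map_mul' := fun x y => by
        rw [← map_mul, Algebra.TensorProduct.tmul_mul_tmul, one_mul]
      map_zero' := by rw [TensorProduct.tmul_zero, map_zero]
      map_add' := fun x y => by rw [TensorProduct.tmul_add, map_add]
      commutes' := fun c => by
        obtain ⟨a, b, rfl⟩ := hS.span c
        have h1 : (1 : F) ⊗ₜ[k] (algebraMap K D (algebraMap k K a + algebraMap k K b * s)) =
            (1 : F) ⊗ₜ[k] algebraMap k D a + ((1 : F) ⊗ₜ[k] algebraMap k D b) *
              ((1 : F) ⊗ₜ[k] algebraMap K D s) := by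
          rw [Algebra.TensorProduct.tmul_mul_tmul, one_mul, ← TensorProduct.tmul_add, map_add,
            map_mul, ← IsScalarTower.algebraMap_apply, ← IsScalarTower.algebraMap_apply]
        rw [h1, map_add, map_mul, hone, hone, hρ]
        change _ = Matrix.scalar (Fin m) (algebraMap K L (algebraMap k K a + algebraMap k K b * s))
        rw [map_add, map_mul, hjk, hjk]
        change _ = Matrix.scalar (Fin m) (algebraMap F L (algebraMap k F a) +
          algebraMap F L (algebraMap k F b) * j s)
        rw [hj, map_add, map_mul]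
        rfl }
  have hg : ∀ x, g x = ρ ((1 : F) ⊗ₜ[k] x) := fun x => rfl
  have hge : (g e).det = algebraMap F L (algebraMap k F (ν : k)) := by
    rw [det_compare hn0 hn f g e hν, hjk]
  have hge' : (g e').det = algebraMap F L (algebraMap k F (ν' : k)) := by
    rw [det_compare hn0 hn f g e' hν', hjk]
  have SK' := SK.transport ρ
  rw [hρ] at SK'
  have hτg : ∀ x : D, star x = x →
      (ρ.toLinearMap ∘ₗ hS.sig.baseChange F ∘ₗ ρ.symm.toLinearMap) (g x) = g x := by
    intro x hx
    rw [hg]
    simp only [LinearMap.comp_apply, AlgEquiv.toLinearMap_apply, AlgEquiv.symm_apply_apply,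
      LinearMap.baseChange_tmul, hσ, hx]
  obtain ⟨t, ht⟩ := local_isometry (indexTwo v) fix_qa hL2 hd hsL star_omega span_qa SK' (hτg e he)
    (hτg e' he') (ν := iu v ν) (ν' := iu v ν') hge hge' (by
      rw [← map_mul]
      exact (mem_LN_iff v d (ν * ν')).mpr hN)
  refine ⟨ρ.symm t, ρ.injective ?_⟩
  rw [map_mul, map_mul, AlgEquiv.apply_symm_apply]
  exact ht

variable {k K D : Type} [Field k] [NumberField k] [Field K] [StarRing K]
  [DivisionRing D] [StarRing D] [Algebra k K] [Algebra k D] [Algebra K D] [IsScalarTower k K D]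
  {d : kˣ} {s : K} {N : ℕ}

/-- The reduced norm of a nonzero symmetric element is in the ground field. -/
theorem exists_nrd_unit (hS : Setting k K D d s) {n : ℕ} (hn : 0 < n)
    (hdeg : Module.finrank K D = n ^ 2) {Ω : Type} [Field Ω] [Algebra K Ω]
    (f : D →ₐ[K] Matrix (Fin n) (Fin n) Ω) {e : D} (he : star e = e) (h0 : e ≠ 0) :
    ∃ ν : kˣ, (f e).det = algebraMap K Ω (algebraMap k K ν) := by
  have := hS.fin
  have := hS.cen
  have : CharZero K := charZero_of_injective_algebraMap (algebraMap k K).injective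
  obtain ⟨ν, hν⟩ := exists_nrd hn hdeg f e
  obtain ⟨μ, rfl⟩ := (hS.fix ν).mp (star_nrd hn hdeg hS.star_alg f he hν)
  have hμ : μ ≠ 0 := by
    rintro rfl
    rw [map_zero, map_zero] at hν
    have h1 : IsUnit (f e) := (isUnit_iff_ne_zero.mpr h0).map f
    exact ((Matrix.isUnit_iff_isUnit_det _).mp h1).ne_zero hν
  exact ⟨Units.mk0 μ hμ, hν⟩

/-- Rank one forms over the completion at a finite place. -/
theorem fin_iso (hS : Setting k K D d s) {n : ℕ} (hn : 0 < n)
    (hdeg : Module.finrank K D = n ^ 2) (B : Module.Basis (Fin N) k D) {Ω : Type} [Field Ω]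
    [Algebra K Ω] (f : D →ₐ[K] Matrix (Fin n) (Fin n) Ω) (v : HeightOneSpectrum (𝓞 k))
    (hv : d ∉ LS (v.valuation k)) {e e' : D} (he : star e = e) (he' : star e' = e')
    (h0 : e ≠ 0) (h0' : e' ≠ 0)
    (h : ∀ ν ν' : kˣ, (f e).det = algebraMap K Ω (algebraMap k K ν) →
      (f e').det = algebraMap K Ω (algebraMap k K ν') → ν * ν' ∈ NF d ⊔ LS (v.valuation k)) :
    ∃ T : (cfin hS B v).E,
      T * (cfin hS B v).φ e * (cfin hS B v).σ T = (cfin hS B v).φ e' := by
  obtain ⟨ν, hν⟩ := exists_nrd_unit hS hn hdeg f he h0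
  obtain ⟨ν', hν'⟩ := exists_nrd_unit hS hn hdeg f he' h0'
  obtain ⟨T, hT⟩ := tensor_fin hS f hdeg v hv he he' hν hν' (h ν ν' hν hν')
  have h2 : Two.sg hS v T * (1 ⊗ₜ e) * Two.sg hS v (Two.sg hS v T) = 1 ⊗ₜ e' := by
    rw [Two.sg_sg]
    exact hT
  exact ⟨Two.sg hS v T, h2⟩

end Vale.Agent.P011.Two2
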