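import Vale.Agent.P011.RP.Univ1
import Vale.Agent.P011.RP.Iface
import Vale.Agent.P011.Even.RealSide

/-!
Congruence at a real place is an open condition.
-/

open Module Matrix
open scoped ComplexOrder

set_option linter.unusedSectionVars false

namespace Vale.Agent.P011.Two2

open Vale.Agent.P011.RP

variable {K D : Type} [Field K] [StarRing K] [DivisionRing D] [StarRing D] [Algebra K D] {n : ℕ}

/-- Symmetric elements close to a given one are congruent to it at the real place. -/
theorem congAt_near (R : RData K D n) {e₀ : D} (h : star e₀ = e₀) (h0 : e₀ ≠ 0) :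
    ∃ δ : ℝ, 0 < δ ∧ ∀ e : D, star e = e → (∀ i j, ‖R.f (e - e₀) i j‖ < δ) → R.CongAt e₀ e := by
  classical
  have hG : (R.f e₀ * R.A).IsHermitian := Vale.Agent.P011.Even.f_herm R h
  have hu : IsUnit (R.f e₀ * R.A) := (Vale.Agent.P011.Even.f_unit R h0).mul R.unit
  obtain ⟨η, hη, hn⟩ := herm_near hG hu
  obtain ⟨C, hC0, hC⟩ : ∃ C : ℝ, 0 < C ∧ ∀ j, ∑ l, ‖R.A l j‖ ≤ C := by
    obtain ⟨F, hF⟩ : ∃ F : Fin n → ℝ, ∀ j, F j = ∑ l, ‖R.A l j‖ := ⟨_, fun _ => rfl⟩
    have hF0 : ∀ j, 0 ≤ F j := fun j => by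
      rw [hF]
      exact Finset.sum_nonneg fun _ _ => norm_nonneg _
    refine ⟨(∑ j, F j) + 1, ?_, fun j => ?_⟩
    · have := Finset.sum_nonneg fun j (_ : j ∈ Finset.univ) => hF0 j
      linarith
    · have := Finset.single_le_sum (fun j _ => hF0 j) (Finset.mem_univ j)
      rw [← hF]
      linarith
  refine ⟨η / C, div_pos hη hC0, fun e he hnear => ?_⟩
  have hherm : (R.f (e - e₀) * R.A).IsHermitian := Vale.Agent.P011.Even.f_herm R (by
    rw [star_sub, he, h])
  obtain ⟨Q, hQ, hQ'⟩ := hn (R.f (e - e₀) * R.A) hherm (fun i j => by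
    rw [Matrix.mul_apply]
    rcases isEmpty_or_nonempty (Fin n) with hne | hne
    · exact (hne.false i).elim
    calc ‖∑ l, R.f (e - e₀) i l * R.A l j‖ ≤ ∑ l, ‖R.f (e - e₀) i l‖ * ‖R.A l j‖ := by
          refine (norm_sum_le _ _).trans (Finset.sum_le_sum fun l _ => ?_)
          rw [norm_mul]
      _ < η := by
          by_cases hA : ∀ l, R.A l j = 0
          · have h1 : ∑ l, ‖R.f (e - e₀) i l‖ * ‖R.A l j‖ = 0 :=
              Finset.sum_eq_zero fun l _ => by rw [hA l, norm_zero, mul_zero]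
            rw [h1]
            exact hη
          · push Not at hA
            obtain ⟨l₀, hl₀⟩ := hA
            have h1 : ∑ l, ‖R.f (e - e₀) i l‖ * ‖R.A l j‖ < ∑ l, η / C * ‖R.A l j‖ := by
              refine Finset.sum_lt_sum (fun l _ => ?_) ⟨l₀, Finset.mem_univ _, ?_⟩
              · exact mul_le_mul_of_nonneg_right (hnear i l).le (norm_nonneg _)
              · exact mul_lt_mul_of_pos_right (hnear i l₀) (norm_pos_iff.mpr hl₀)
            refine lt_of_lt_of_le h1 ?_
            rw [← Finset.mul_sum]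
            calc η / C * ∑ l, ‖R.A l j‖ ≤ η / C * C :=
                  mul_le_mul_of_nonneg_left (hC j) (div_pos hη hC0).le
              _ = η := by field_simp)
  refine ⟨Q, hQ, ?_⟩
  rw [hQ', ← add_mul, ← map_add, add_sub_cancel]

end Vale.Agent.P011.Two2
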