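import Vale.Agent.P011.Two2.PFin
import Vale.Agent.P011.Even.RealLoc

/-!
The completion at a nonsplit real place.
-/

open Filter NumberField IsDedekindDomain Topology Matrix Module

set_option linter.unusedSectionVars false

namespace Vale.Agent.P011.Two2

open Vale.Agent.P011.Arith Vale.Agent.P011.Even
open Vale.Agent.P011.RP (RData)

section cont

variable {n : ℕ}

theorem tendsto_inv_of_mul {X : ℕ → Matrix (Fin n) (Fin n) ℂ} {Y Λ : Matrix (Fin n) (Fin n) ℂ}
    (hX : Tendsto X atTop (𝓝 Y)) (h : Y * Λ = 1) : Tendsto (fun j => (X j)⁻¹) atTop (𝓝 Λ) := by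
  have hdet : Y.det ≠ 0 := by
    intro h0
    have h1 := congrArg Matrix.det h
    rw [Matrix.det_mul, h0, zero_mul, Matrix.det_one] at h1
    exact zero_ne_one h1
  have hΛ : Λ = Y⁻¹ := (Matrix.inv_eq_right_inv h).symm
  have h1 : Tendsto (fun j => (X j).det) atTop (𝓝 Y.det) :=
    ((continuous_id.matrix_det).tendsto Y).comp hX
  have h2 : Tendsto (fun j => (X j).adjugate) atTop (𝓝 Y.adjugate) :=
    ((continuous_id.matrix_adjugate).tendsto Y).comp hX
  have h3 := (h1.inv₀ hdet).smul h2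
  have h4 : ∀ Z : Matrix (Fin n) (Fin n) ℂ, Z⁻¹ = Z.det⁻¹ • Z.adjugate := fun Z => by
    rw [Matrix.inv_def, Ring.inverse_eq_inv']
  rw [hΛ, h4 Y]
  exact h3.congr fun j => (h4 _).symm

end cont

section creal

variable {K D : Type} [Field K] [StarRing K] [DivisionRing D] [StarRing D] [Algebra K D] {n : ℕ}

theorem sigma_f (R : RData K D n) (x : D) : R.f (star x) = R.A * (R.f x)ᴴ * R.A⁻¹ := by
  have hAi : R.A * R.A⁻¹ = 1 :=
    Matrix.mul_nonsing_inv _ ((Matrix.isUnit_iff_isUnit_det _).mp R.unit)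
  rw [← R.star_f, mul_assoc, hAi, mul_one]

/-- The completion at a real place. -/
noncomputable def creal (hn : 0 < n) (R : RData K D n) : CData D :=
  have : Nonempty (Fin n) := ⟨⟨0, hn⟩⟩
  have hAi : R.A * R.A⁻¹ = 1 :=
    Matrix.mul_nonsing_inv _ ((Matrix.isUnit_iff_isUnit_det _).mp R.unit)
  have hiA : R.A⁻¹ * R.A = 1 :=
    Matrix.nonsing_inv_mul _ ((Matrix.isUnit_iff_isUnit_det _).mp R.unit)
  have hAiH : (R.A⁻¹)ᴴ = R.A⁻¹ := by rw [Matrix.conjTranspose_nonsing_inv, R.hA]
  { E := Matrix (Fin n) (Fin n) ℂ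
    φ := R.f
    σ := fun X => R.A * Xᴴ * R.A⁻¹
    σ_mul := fun x y => by
      calc R.A * (x * y)ᴴ * R.A⁻¹ = R.A * yᴴ * (R.A⁻¹ * R.A) * xᴴ * R.A⁻¹ := by
            rw [Matrix.conjTranspose_mul, hiA, mul_one]
            simp only [mul_assoc]
        _ = _ := by simp only [mul_assoc]
    σ_sub := fun x y => by rw [Matrix.conjTranspose_sub, mul_sub, sub_mul]
    σ_σ := fun x => by
      rw [Matrix.conjTranspose_mul, Matrix.conjTranspose_mul, Matrix.conjTranspose_conjTranspose,
        R.hA, hAiH]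
      calc R.A * (R.A⁻¹ * (x * R.A)) * R.A⁻¹ = (R.A * R.A⁻¹) * x * (R.A * R.A⁻¹) := by
            simp only [mul_assoc]
        _ = x := by rw [hAi, one_mul, mul_one]
    σ_φ := fun x => (sigma_f R x).symm
    cv := fun x X => Tendsto (fun j => R.f (x j)) atTop (𝓝 X)
    const := fun x => tendsto_const_nhds
    add := fun hx hy => by
      simp only [map_add]
      exact hx.add hy
    sub := fun hx hy => by
      simp only [map_sub]
      exact hx.sub hy
    mul := fun {x y X Y} hx hy => by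
      simp only [map_mul]
      exact hx.mul hy
    star' := fun {x X} hx => by
      simp only [sigma_f]
      have h1 : Continuous fun Y : Matrix (Fin n) (Fin n) ℂ => R.A * Yᴴ * R.A⁻¹ :=
        (continuous_const.matrix_mul continuous_id.matrix_conjTranspose).matrix_mul
          continuous_const
      exact (h1.tendsto X).comp hx
    inv := fun {x X Λ} hx h hne => by
      refine (tendsto_inv_of_mul hx h).congr' ?_
      filter_upwards [hne] with j hj
      apply Matrix.inv_eq_right_inv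
      rw [← map_mul, mul_inv_cancel₀ hj, map_one]
    ne := fun {x X} hx hX => by
      filter_upwards [hx.eventually_ne hX] with j hj h
      apply hj
      rw [h, map_zero]
    congr := fun hx h => hx.congr' (h.mono fun j hj => by rw [hj])
    unique := fun hx hy => tendsto_nhds_unique hx hy }

theorem creal_cv (hn : 0 < n) (R : RData K D n) (x : ℕ → D) (X : Matrix (Fin n) (Fin n) ℂ) :
    (creal hn R).cv x X ↔ Tendsto (fun j => R.f (x j)) atTop (𝓝 X) := Iff.rfl

/-- Rank one forms over the completion at a real place. -/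
theorem real_iso (hn : 0 < n) (R : RData K D n) {e e' : D} (h : R.CongAt e e') :
    ∃ T : (creal hn R).E, T * (creal hn R).φ e * (creal hn R).σ T = (creal hn R).φ e' := by
  obtain ⟨Q, -, hQ⟩ := h
  have hAi : R.A * R.A⁻¹ = 1 :=
    Matrix.mul_nonsing_inv _ ((Matrix.isUnit_iff_isUnit_det _).mp R.unit)
  refine ⟨Q, ?_⟩
  change Q * R.f e * (R.A * Qᴴ * R.A⁻¹) = R.f e'
  calc Q * R.f e * (R.A * Qᴴ * R.A⁻¹) = Q * (R.f e * R.A) * Qᴴ * R.A⁻¹ := by
        simp only [mul_assoc]
    _ = R.f e' := by rw [hQ, mul_assoc, hAi, mul_one]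

end creal

variable {k K D : Type} [Field k] [NumberField k] [Field K] [StarRing K]
  [DivisionRing D] [StarRing D] [Algebra k K] [Algebra k D] [Algebra K D] [IsScalarTower k K D]
  {d : kˣ} {s : K} {n N : ℕ}

theorem real_near (B : Module.Basis (Fin N) k D) {φ : k →+* ℝ} (R : RData K D n)
    (hR : ∀ x : k, R.s (algebraMap k K x) = (φ x : ℂ)) {x y : ℕ → D}
    {X : Matrix (Fin n) (Fin n) ℂ} (hx : Tendsto (fun j => R.f (x j)) atTop (𝓝 X))
    (h : Tendsto (fun j => nm B (.inr φ) (y j - x j)) atTop (𝓝 0)) :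
    Tendsto (fun j => R.f (y j)) atTop (𝓝 X) := by
  have h1 : Continuous (Lam B R) := LinearMap.continuous_of_finiteDimensional _
  have h3 : Tendsto (fun j => rc B φ (y j - x j)) atTop (𝓝 0) := by
    rw [tendsto_pi_nhds]
    intro i
    rw [Pi.zero_apply, tendsto_zero_iff_abs_tendsto_zero]
    refine squeeze_zero (fun _ => abs_nonneg _) (fun j => ?_) h
    exact Finset.single_le_sum (f := fun i => plAbv (.inr φ : Pl k) (B.repr (y j - x j) i))
      (fun _ _ => AbsoluteValue.nonneg _ _) (Finset.mem_univ i)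
  have h4 : Tendsto (fun j => R.f (y j - x j)) atTop (𝓝 0) := by
    have h5 := (h1.tendsto 0).comp h3
    rw [map_zero] at h5
    exact h5.congr fun j => Lam_rc B R hR _
  have h5 := hx.add h4
  rw [add_zero] at h5
  exact h5.congr fun j => by rw [map_sub, add_sub_cancel]

theorem real_surj (hS : Setting k K D d s) (hn : 0 < n)
    (hdeg : Module.finrank K D = n ^ 2) (B : Module.Basis (Fin N) k D)
    {φ : k →+* ℝ} (hφ : φ d < 0) (R : RData K D n)
    (hR : ∀ x : k, R.s (algebraMap k K x) = (φ x : ℂ)) (X : Matrix (Fin n) (Fin n) ℂ) :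
    ∃ x : ℕ → D, Tendsto (fun j => R.f (x j)) atTop (𝓝 X) := by
  have h1 : Continuous (Lam B R) := LinearMap.continuous_of_finiteDimensional _
  obtain ⟨c, hc⟩ := Lam_surj hS B hn hdeg hφ R hR X
  have hd : ∀ j : ℕ, ∀ i : Fin N, ∃ q : ℚ, |c i - q| < 1 / ((j : ℝ) + 1) := by
    intro j i
    obtain ⟨q, hq1, hq2⟩ := exists_rat_btwn (show c i - 1 / ((j : ℝ) + 1) <
      c i by linarith [show (0 : ℝ) < 1 / ((j : ℝ) + 1) by positivity])
    refine ⟨q, ?_⟩
    rw [abs_of_pos (by linarith)]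
    linarith
  choose q hq using hd
  refine ⟨fun j => ∑ i, (q j i : k) • B i, ?_⟩
  have h3 : Tendsto (fun j => rc B φ (∑ i, (q j i : k) • B i)) atTop (𝓝 c) := by
    rw [tendsto_pi_nhds]
    intro i
    rw [tendsto_iff_dist_tendsto_zero]
    refine squeeze_zero (fun _ => dist_nonneg) (fun j => ?_)
      tendsto_one_div_add_atTop_nhds_zero_nat
    have h4 : rc B φ (∑ i, (q j i : k) • B i) i = (q j i : ℝ) := by
      change φ (B.repr (∑ i, (q j i : k) • B i) i) = _
      rw [B.repr_sum_self, map_ratCast]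
    rw [h4, dist_comm, Real.dist_eq]
    exact (hq j i).le
  have h5 := (h1.tendsto _).comp h3
  rw [hc] at h5
  exact h5.congr fun j => Lam_rc B R hR _

theorem real_size (hS : Setting k K D d s) (hn : 0 < n)
    (hdeg : Module.finrank K D = n ^ 2) (B : Module.Basis (Fin N) k D)
    {φ : k →+* ℝ} (hφ : φ d < 0) (R : RData K D n)
    (hR : ∀ x : k, R.s (algebraMap k K x) = (φ x : ℂ)) {x : ℕ → D} {X : D}
    (hx : Tendsto (fun j => R.f (x j)) atTop (𝓝 (R.f X))) :
    Tendsto (fun j => nm B (.inr φ) (x j - X)) atTop (𝓝 0) := by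
  let Λ := LinearEquiv.ofBijective (Lam B R) (Lam_bij hS B hn hdeg hφ R hR)
  have hΛrc : ∀ x, Λ (rc B φ x) = R.f x := Lam_rc B R hR
  have h2 : Continuous Λ.symm := LinearMap.continuous_of_finiteDimensional Λ.symm.toLinearMap
  have h3 : Tendsto (fun j => R.f (x j) - R.f X) atTop (𝓝 0) := by
    have h5 := hx.sub_const (R.f X)
    rwa [sub_self] at h5
  have h4 : Tendsto (fun j => rc B φ (x j - X)) atTop (𝓝 0) := by
    have h5 := (h2.tendsto 0).comp h3
    rw [map_zero] at h5
    refine h5.congr fun j => ?_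
    change Λ.symm (R.f (x j) - R.f X) = _
    rw [← map_sub, ← hΛrc, LinearEquiv.symm_apply_apply]
  have h5 : ∀ j, nm B (.inr φ) (x j - X) = ∑ i, |rc B φ (x j - X) i| := fun j => rfl
  simp only [h5]
  have h6 : (0 : ℝ) = ∑ i : Fin N, (0 : ℝ) := by simp
  rw [h6]
  refine tendsto_finsetSum _ fun i _ => ?_
  have h7 := ((tendsto_pi_nhds.mp h4) i).abs
  rwa [Pi.zero_apply, abs_zero] at h7

/-- The data at a nonsplit real place. -/
theorem exists_preal (hS : Setting k K D d s) (hn : 0 < n)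
    (hdeg : Module.finrank K D = n ^ 2) (B : Module.Basis (Fin N) k D)
    {φ : k →+* ℝ} (hφ : φ d < 0) (R : RData K D n)
    (hR : ∀ x : k, R.s (algebraMap k K x) = (φ x : ℂ)) :
    ∃ P : PData B (.inr φ) s n, P.C = creal hn R := by
  refine ⟨⟨creal hn R, ⟨ℂ, Complex.ofRealHom.comp φ, R.s s, RingEquiv.refl _, ?_, ?_⟩, ?_, ?_, ?_⟩,
    rfl⟩
  · intro x
    change R.f (algebraMap k D x) = _
    rw [IsScalarTower.algebraMap_apply k K D, R.hf, hR]
    rfl
  · exact R.hf s
  · exact fun hx h => real_near B R hR hx h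
  · exact fun X => real_surj hS hn hdeg B hφ R hR X
  · exact fun hx => real_size hS hn hdeg B hφ R hR hx

end Vale.Agent.P011.Two2
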