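import Vale.Agent.P011.Two2.Hyp
import Vale.Agent.P011.Two2.PReal
import Vale.Agent.P011.Two2.CongNear
import Vale.Agent.P011.Even.R2
import Vale.Agent.P011.RP.Universal

/-!
A diagonal form of rank two represents every symmetric element which it represents at the real
places.
-/

open Filter NumberField IsDedekindDomain Topology Matrix Module

set_option linter.unusedSectionVars false

namespace Vale.Agent.P011.Two2

open Vale.Agent.P011.Arith Vale.Agent.P011.Even
open Vale.Agent.P011.RP (RData)

/-- The form on `D × D` as a hermitian form. -/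
def bbF {D : Type} [DivisionRing D] [StarRing D] {b g : D} (hb : star b = b) (hg : star g = g) :
    T2.HF D (D × D) where
  h := bform b g
  add_left x y z := by
    simp only [bform, Prod.fst_add, Prod.snd_add]
    noncomm_ring
  smul_left a x y := by
    simp only [bform, Prod.smul_fst, Prod.smul_snd, smul_eq_mul]
    noncomm_ring
  star_h := bb_star hb hg

variable {k K D : Type} [Field k] [NumberField k] [Field K] [NumberField K] [StarRing K]
  [DivisionRing D] [StarRing D] [Algebra k K] [Algebra k D] [Algebra K D] [IsScalarTower k K D]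
  {d : kˣ} {s : K} {n N : ℕ}

theorem exists_global_sol (hS : Setting k K D d s) (hn : 2 ≤ n) (hdeg : finrank K D = n ^ 2)
    {b r₀ r₁ : D} (hb : star b = b) (h0 : star r₀ = r₀) (h1 : star r₁ = r₁) (hb0 : b ≠ 0)
    (h00 : r₀ ≠ 0) (h10 : r₁ ≠ 0)
    (hloc : ∀ φ : k →+* ℝ, φ d < 0 → ∃ Rφ : D, star Rφ = Rφ ∧ b + Rφ ≠ 0 ∧
      ∀ R' : RData K D n, (∀ x, R'.s (algebraMap k K x) = (φ x : ℂ)) →
        R'.CongAt r₀ Rφ ∧ R'.CongAt r₁ (b + Rφ)) :
    ∃ x y : D, x * b * star x + y * r₀ * star y = r₁ := by
  have hn0 : 0 < n := by omega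
  have := hS.fin
  have := hS.cen
  have : StarModule K D := ⟨hS.star_smul⟩
  have : CharZero D := charZero_of_injective_algebraMap (algebraMap k D).injective
  suffices h : ∃ z : D × D, bform b r₀ z z = r₁ by
    obtain ⟨z, hz⟩ := h
    exact ⟨z.1, z.2, hz⟩
  by_cases hiso : ∃ u : D × D, u ≠ 0 ∧ bform b r₀ u u = 0
  · obtain ⟨u, hu, hu0⟩ := hiso
    exact exists_of_isotropic hb h0 h1 hb0 h00 hu hu0
  push Not at hiso
  have haniso := hiso
  have hK : ∃ z : K, star z ≠ z := by
    refine ⟨s, fun h => ?_⟩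
    obtain ⟨a, ha⟩ := (hS.fix s).mp h
    apply hS.ns
    refine ⟨a, (algebraMap k K).injective ?_⟩
    rw [← hS.sq, ← ha, map_mul, sq]
  obtain ⟨ι, _, R, hc, hd⟩ := RP.exists_family (D := D) hK hn0 hdeg
  have hR2 : RP.HasR2 K D n := hasR2 hK hn0 hdeg
  -- the local data
  choose φ hφ hφd using fun i => exists_phi hS (R i)
  choose Rf hRf hbR hcong using fun i => hloc (φ i) (hφd i)
  have hA := fun i => (hcong i (R i) (hφ i)).1
  have hB := fun i => (hcong i (R i) (hφ i)).2
  have hiso : ∀ i, ∃ Q : Matrix (Fin n) (Fin n) ℂ,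
      Q * (R i).f r₀ * ((R i).A * Qᴴ * (R i).A⁻¹) = (R i).f (Rf i) := fun i =>
    real_iso hn0 (R i) (hA i)
  choose Q hQ using hiso
  choose δ hδ hnear using fun i => congAt_near (R i)
    (show star (b + Rf i) = b + Rf i by rw [star_add, hb, hRf]) (hbR i)
  -- approximation
  choose x hx using fun j : ℕ => hd Q (1 / ((j : ℝ) + 1)) (by positivity)
  have hxt : ∀ i, Tendsto (fun j => (R i).f (x j)) atTop (𝓝 (Q i)) := by
    intro i
    refine tendsto_pi_nhds.mpr fun a => tendsto_pi_nhds.mpr fun c => ?_
    rw [tendsto_iff_dist_tendsto_zero]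
    refine squeeze_zero (fun _ => dist_nonneg) (fun j => ?_)
      tendsto_one_div_add_atTop_nhds_zero_nat
    rw [dist_eq_norm]
    exact (hx j i a c).le
  have hrc : ∀ i, Tendsto (fun j => (R i).f (b + x j * r₀ * star (x j))) atTop
      (𝓝 ((R i).f (b + Rf i))) := by
    intro i
    have h2 : Continuous fun Y : Matrix (Fin n) (Fin n) ℂ =>
        (R i).f b + Y * (R i).f r₀ * ((R i).A * Yᴴ * (R i).A⁻¹) := by
      have h3 : Continuous fun Y : Matrix (Fin n) (Fin n) ℂ => (R i).A * Yᴴ * (R i).A⁻¹ :=
        (continuous_const.matrix_mul continuous_id.matrix_conjTranspose).matrix_mul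
          continuous_const
      exact continuous_const.add ((continuous_id.matrix_mul continuous_const).matrix_mul h3)
    have h4 := (h2.tendsto (Q i)).comp (hxt i)
    rw [hQ i, ← map_add] at h4
    refine h4.congr fun j => ?_
    simp only [Function.comp_apply, map_add, map_mul, sigma_f]
  have hev : ∀ᶠ j in atTop, ∀ i, (R i).CongAt (b + Rf i) (b + x j * r₀ * star (x j)) := by
    rw [eventually_all]
    intro i
    have h2 : ∀ a c, ∀ᶠ j in atTop,
        ‖(R i).f (b + x j * r₀ * star (x j) - (b + Rf i)) a c‖ < δ i := by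
      intro a c
      have h3 : Tendsto (fun j => (R i).f (b + x j * r₀ * star (x j)) a c) atTop
          (𝓝 ((R i).f (b + Rf i) a c)) :=
        (tendsto_pi_nhds.mp ((tendsto_pi_nhds.mp (hrc i)) a)) c
      have h4 := (h3.sub_const ((R i).f (b + Rf i) a c)).norm
      rw [sub_self, norm_zero] at h4
      filter_upwards [h4.eventually (Iio_mem_nhds (hδ i))] with j hj
      rw [map_sub]
      exact hj
    have h5 : ∀ᶠ j in atTop, ∀ a c,
        ‖(R i).f (b + x j * r₀ * star (x j) - (b + Rf i)) a c‖ < δ i := by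
      rw [eventually_all]
      intro a
      rw [eventually_all]
      exact h2 a
    filter_upwards [h5] with j hj
    refine hnear i _ ?_ hj
    simp only [star_add, star_mul, star_star, hb, h0, mul_assoc]
  obtain ⟨j, hj⟩ := hev.exists
  -- the global theorem
  have hval : bform b r₀ (1, x j) (1, x j) = b + x j * r₀ * star (x j) := by
    simp [bform]
  obtain ⟨y, hy⟩ := hR2 (D × D) (bbF hb h0) (fun u hu => by
      by_contra hne
      exact haniso u hne hu) (by rw [Module.finrank_prod, Module.finrank_self]) (1, x j)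
    (fun h => one_ne_zero (congrArg Prod.fst h)) r₁ h1 h10
    (RP.of_family hn0 hdeg hc fun i => by
      change (R i).CongAt (bform b r₀ (1, x j) (1, x j)) r₁
      rw [hval]
      exact cong_symm (cong_trans (hB i) (hj i)))
  exact ⟨y, hy⟩

end Vale.Agent.P011.Two2
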