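import Vale.Agent.P011.Two2.DenseOf
import Vale.Agent.P011.Two2.GlobSol
import Vale.Agent.P011.Two2.FinIso
import Vale.Agent.P011.Even.RealSide

/-!
Existence of `t` with `b + t * r₀ * star t` isometric to `r₁` and `t * r₀ * star t` close to given
elements at finitely many places.
-/

open Filter NumberField IsDedekindDomain Topology Matrix Module

set_option linter.unusedSectionVars false

namespace Vale.Agent.P011.Two2

open Vale.Agent.P011.Arith Vale.Agent.P011.Even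
open Vale.Agent.P011.RP (RData)

variable {k K D : Type} [Field k] [NumberField k] [Field K] [NumberField K] [StarRing K]
  [DivisionRing D] [StarRing D] [Algebra k K] [Algebra k D] [Algebra K D] [IsScalarTower k K D]
  {d : kˣ} {s : K} {n N : ℕ}

/-- Simultaneous solutions close to given local ones. -/
theorem dense_core (hS : Setting k K D d s) (hn : 2 ≤ n) (hdeg : finrank K D = n ^ 2)
    (B : Module.Basis (Fin N) k D) {Ω : Type} [Field Ω] [Algebra K Ω]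
    (f : D →ₐ[K] Matrix (Fin n) (Fin n) Ω) {b r₀ r₁ : D} (hb : star b = b) (h0 : star r₀ = r₀)
    (h1 : star r₁ = r₁) (hb0 : b ≠ 0) (h00 : r₀ ≠ 0) (h10 : r₁ ≠ 0)
    {T : Set (Pl k)} (hT : T.Finite) (hTne : T.Nonempty) (hTd : ∀ p ∈ T, d ∉ LSp p)
    (hTr : ∀ φ : k →+* ℝ, φ d < 0 → Sum.inr φ ∈ T) (R : Pl k → D) (δ : Pl k → ℝ)
    (hδ : ∀ p, 0 < δ p) (hRs : ∀ p ∈ T, star (R p) = R p) (hR0 : ∀ p ∈ T, R p ≠ 0)
    (hbR : ∀ p ∈ T, b + R p ≠ 0)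
    (hF : ∀ v, Sum.inl v ∈ T → ∀ ν ν' : kˣ, (f r₀).det = algebraMap K Ω (algebraMap k K ν) →
      (f (R (.inl v))).det = algebraMap K Ω (algebraMap k K ν') →
        ν * ν' ∈ NF d ⊔ LS (v.valuation k))
    (hF' : ∀ v, Sum.inl v ∈ T → ∀ ν ν' : kˣ, (f r₁).det = algebraMap K Ω (algebraMap k K ν) →
      (f (b + R (.inl v))).det = algebraMap K Ω (algebraMap k K ν') →
        ν * ν' ∈ NF d ⊔ LS (v.valuation k))
    (hR : ∀ φ, Sum.inr φ ∈ T → ∀ R' : RData K D n,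
      (∀ x, R'.s (algebraMap k K x) = (φ x : ℂ)) →
        R'.CongAt r₀ (R (.inr φ)) ∧ R'.CongAt r₁ (b + R (.inr φ))) :
    ∃ t x : D, t ≠ 0 ∧ x ≠ 0 ∧ b + t * r₀ * star t = x * r₁ * star x ∧
      ∀ p ∈ T, ∀ i, plAbv p (B.repr (t * r₀ * star t - R p) i) < δ p := by
  have hn0 : 0 < n := by omega
  obtain ⟨x, y, hxy⟩ := exists_global_sol hS hn hdeg hb h0 h1 hb0 h00 h10 fun φ hφ =>
    ⟨R (.inr φ), hRs _ (hTr φ hφ), hbR _ (hTr φ hφ), fun R' hR' => hR φ (hTr φ hφ) R' hR'⟩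
  suffices hloc : ∀ p ∈ T, ∃ (P : PData B p s n) (t x : P.C.E),
      t * P.C.φ r₀ * P.C.σ t = P.C.φ (R p) ∧ x * P.C.φ (b + R p) * P.C.σ x = P.C.φ r₁ by
    obtain ⟨t, z, ht, hz, h2, h3⟩ := dense_of_sol hS hn0 B hb h0 h10 hT hTne R δ hδ hR0 hloc
      (z₀ := (x, y)) hxy
    exact ⟨t, z, ht, hz, h2, fun p hp i => nm_lt_coord B p (h3 p hp) i⟩
  rintro (v | φ) hp
  · have hv : d ∉ LS (v.valuation k) := hTd _ hp
    obtain ⟨P, hP⟩ := exists_pfin hS hn0 hdeg B v hv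
    obtain ⟨t, ht⟩ := fin_iso hS hn0 hdeg B f v hv h0 (hRs _ hp) h00 (hR0 _ hp) (hF v hp)
    obtain ⟨z, hz⟩ := fin_iso hS hn0 hdeg B f v hv
      (show star (b + R (.inl v)) = b + R (.inl v) by rw [star_add, hb, hRs _ hp]) h1
      (hbR _ hp) h10 (fun ν ν' hν hν' => by
        rw [mul_comm]
        exact hF' v hp ν' ν hν' hν)
    refine ⟨P, ?_⟩
    rw [hP]
    exact ⟨t, z, ht, hz⟩
  · have hφ : φ d < 0 := notMem_LSR.mp (hTd _ hp)
    obtain ⟨R', hR'⟩ := exists_rdata_of hS hn0 hdeg hφ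
    obtain ⟨P, hP⟩ := exists_preal hS hn0 hdeg B hφ R' hR'
    obtain ⟨h4, h5⟩ := hR φ hp R' hR'
    obtain ⟨t, ht⟩ := real_iso hn0 R' h4
    obtain ⟨z, hz⟩ := real_iso hn0 R' (cong_symm h5)
    refine ⟨P, ?_⟩
    rw [hP]
    exact ⟨t, z, ht, hz⟩

end Vale.Agent.P011.Two2
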