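import Vale.Agent.P011.RP.Count
import Vale.Agent.P011.RP.Pos
import Vale.Agent.P011.Even.RealLoc
import Vale.Agent.P011.Even.Beta

/-!
The local prescription at a real place: a hermitian matrix `r` of given signature such that `b + r`
has the same signature, `m + r / 4` is positive definite and `r⁻¹ m` has different real
eigenvalues.
-/

open Module Matrix Polynomial NumberField IsDedekindDomain Filter Topology
open scoped ComplexOrder

set_option linter.unusedSectionVars false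

namespace Vale.Agent.P011.Two2

open Vale.Agent.P011.RP

section core

variable {n : ℕ}

/-- The diagonal matrix of real numbers. -/
noncomputable def rdiag (ρ : Fin n → ℝ) : Matrix (Fin n) (Fin n) ℂ :=
  diagonal fun i => ((ρ i : ℝ) : ℂ)

theorem rdiag_mul (ρ σ : Fin n → ℝ) : rdiag ρ * rdiag σ = rdiag fun i => ρ i * σ i := by
  rw [rdiag, rdiag, rdiag, diagonal_mul_diagonal]
  congr 1
  funext i
  push_cast
  rfl

theorem rdiag_add (ρ σ : Fin n → ℝ) : rdiag ρ + rdiag σ = rdiag fun i => ρ i + σ i := by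
  rw [rdiag, rdiag, rdiag, diagonal_add]
  congr 1
  funext i
  push_cast
  rfl

theorem rdiag_one : rdiag (fun _ : Fin n => (1 : ℝ)) = 1 := by
  rw [rdiag, ← diagonal_one]
  simp

theorem rdiag_herm (ρ : Fin n → ℝ) : (rdiag ρ)ᴴ = rdiag ρ := by
  rw [rdiag, diagonal_conjTranspose]
  congr 1
  funext i
  exact Complex.conj_ofReal _

theorem rdiag_unit {ρ : Fin n → ℝ} (h : ∀ i, ρ i ≠ 0) : IsUnit (rdiag ρ) := by
  rw [rdiag, Matrix.isUnit_diagonal, Pi.isUnit_iff]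
  intro i
  exact isUnit_iff_ne_zero.mpr (by exact_mod_cast h i)

theorem rdiag_posDef {ρ : Fin n → ℝ} (h : ∀ i, 0 < ρ i) : (rdiag ρ).PosDef := by
  rw [rdiag]
  apply Matrix.PosDef.diagonal
  intro i
  exact_mod_cast h i

theorem pos_of_posDef {V : Matrix (Fin n) (Fin n) ℂ} (hV : IsUnit V) {ρ : Fin n → ℝ}
    (h : (V * rdiag ρ * Vᴴ).PosDef) (i : Fin n) : 0 < ρ i := by
  obtain ⟨U, rfl⟩ := hV
  obtain ⟨W, hW⟩ : ∃ W : Matrix (Fin n) (Fin n) ℂ, W = ((U⁻¹ : (Matrix (Fin n) (Fin n) ℂ)ˣ) : _) :=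
    ⟨_, rfl⟩
  have h1 : W * (U : Matrix (Fin n) (Fin n) ℂ) = 1 := by rw [hW]; exact U.inv_mul
  have h2 : (U : Matrix (Fin n) (Fin n) ℂ)ᴴ * Wᴴ = 1 := by
    rw [← conjTranspose_mul, h1, conjTranspose_one]
  have hinj : Function.Injective W.vecMul := by
    rw [Matrix.vecMul_injective_iff_isUnit, hW]
    exact (U⁻¹).isUnit
  have h3 := h.mul_mul_conjTranspose_same hinj
  have h4 : W * ((U : Matrix (Fin n) (Fin n) ℂ) * rdiag ρ * (U : Matrix (Fin n) (Fin n) ℂ)ᴴ) * Wᴴ =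
      rdiag ρ := by
    calc W * ((U : Matrix (Fin n) (Fin n) ℂ) * rdiag ρ * (U : Matrix (Fin n) (Fin n) ℂ)ᴴ) * Wᴴ
        = (W * U) * rdiag ρ * ((U : Matrix (Fin n) (Fin n) ℂ)ᴴ * Wᴴ) := by simp only [mul_assoc]
      _ = _ := by rw [h1, h2, one_mul, mul_one]
  rw [h4] at h3
  have h5 := h3.diag_pos (i := i)
  rw [rdiag, diagonal_apply_eq] at h5
  exact_mod_cast h5

theorem posDef_conj {V : Matrix (Fin n) (Fin n) ℂ} (hV : IsUnit V) {ρ : Fin n → ℝ}
    (h : ∀ i, 0 < ρ i) : (V * rdiag ρ * Vᴴ).PosDef := by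
  apply (rdiag_posDef h).mul_mul_conjTranspose_same
  rw [Matrix.vecMul_injective_iff_isUnit]
  exact hV

/-- The choice of the eigenvalues. -/
theorem exists_rho {β : Fin n → ℝ} (hβ : ∀ i, 0 < β i) (hβ4 : ∀ i, β i < 4) (η : Fin n → ℤˣ) :
    ∃ ρ : Fin n → ℝ, Function.Injective ρ ∧ (∀ i, 0 < ρ i * (((η i : ℤˣ) : ℤ) : ℝ)) ∧
      (∀ i, 0 < (β i + ρ i) * (((η i : ℤˣ) : ℤ) : ℝ)) ∧ (∀ i, -4 < ρ i) := by
  classical
  obtain ⟨δ, hδ0, hδ⟩ : ∃ δ : ℝ, 0 < δ ∧ ∀ i, δ * (n + 1) < 4 - β i := by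
    rcases Nat.eq_zero_or_pos n with h0 | h0
    · subst h0
      exact ⟨1, one_pos, fun i => i.elim0⟩
    · have : Nonempty (Fin n) := ⟨⟨0, h0⟩⟩
      obtain ⟨i0, -, hi0⟩ := Finset.exists_min_image Finset.univ (fun i => 4 - β i)
        ⟨⟨0, h0⟩, Finset.mem_univ _⟩
      have hpos : 0 < 4 - β i0 := by linarith [hβ4 i0]
      have hn1 : (0 : ℝ) < (n : ℝ) + 1 := by positivity
      refine ⟨(4 - β i0) / (2 * ((n : ℝ) + 1)), by positivity, fun i => ?_⟩
      have h1 : (4 - β i0) / (2 * ((n : ℝ) + 1)) * ((n : ℝ) + 1) = (4 - β i0) / 2 := by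
        field_simp
      rw [h1]
      have h2 := hi0 i (Finset.mem_univ i)
      linarith
  have hi1 : ∀ i : Fin n, δ * ((i : ℕ) + 1 : ℝ) < 4 - β i := by
    intro i
    refine lt_of_le_of_lt ?_ (hδ i)
    have h1 : ((i : ℕ) : ℝ) ≤ (n : ℝ) := by exact_mod_cast i.2.le
    nlinarith
  refine ⟨fun i => if η i = 1 then ((i : ℕ) + 1 : ℝ) else -4 + δ * ((i : ℕ) + 1 : ℝ), ?_, ?_, ?_, ?_⟩
  · intro i j hij
    have hi := hi1 i
    have hj := hi1 j
    have hbi := hβ i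
    have hbj := hβ j
    have hi' : (0 : ℝ) < ((i : ℕ) + 1 : ℝ) := by positivity
    have hj' : (0 : ℝ) < ((j : ℕ) + 1 : ℝ) := by positivity
    simp only at hij
    split_ifs at hij with h1 h2 h2
    · have h3 : ((i : ℕ) : ℝ) = ((j : ℕ) : ℝ) := by linarith
      exact Fin.ext (by exact_mod_cast h3)
    · linarith
    · linarith
    · have h3 : δ * ((i : ℕ) : ℝ) = δ * ((j : ℕ) : ℝ) := by linarith
      have h4 := mul_left_cancel₀ hδ0.ne' h3
      exact Fin.ext (by exact_mod_cast h4)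
  · intro i
    have hi := hi1 i
    have hbi := hβ i
    have hi' : (0 : ℝ) < ((i : ℕ) + 1 : ℝ) := by positivity
    simp only
    split_ifs with h1
    · rw [h1]; simpa using hi'
    · rw [(Int.units_eq_one_or _).resolve_left h1]
      push_cast
      linarith
  · intro i
    have hi := hi1 i
    have hbi := hβ i
    have hi' : (0 : ℝ) < ((i : ℕ) + 1 : ℝ) := by positivity
    simp only
    split_ifs with h1
    · rw [h1]
      have : (0 : ℝ) < β i + ((i : ℕ) + 1 : ℝ) := by linarith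
      simpa using this
    · rw [(Int.units_eq_one_or _).resolve_left h1]
      push_cast
      linarith
  · intro i
    have hi' : (0 : ℝ) < ((i : ℕ) + 1 : ℝ) := by positivity
    simp only
    split_ifs with h1
    · linarith
    · nlinarith

/-- Change of the sizes of the diagonal entries. -/
theorem resize {η : Fin n → ℤˣ} {S0 R0 : Matrix (Fin n) (Fin n) ℂ} (hS0 : IsUnit S0)
    (hR0 : S0 * R0 * S0ᴴ = diagonal fun i => ((((η i : ℤˣ) : ℤ) : ℝ) : ℂ))
    {V : Matrix (Fin n) (Fin n) ℂ} (hV : IsUnit V) {ρ : Fin n → ℝ}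
    (h : ∀ i, 0 < ρ i * (((η i : ℤˣ) : ℤ) : ℝ)) :
    ∃ T : Matrix (Fin n) (Fin n) ℂ, IsUnit T ∧ T * R0 * Tᴴ = V * rdiag ρ * Vᴴ := by
  have habs : ∀ i, 0 < ρ i * (((η i : ℤˣ) : ℤ) : ℝ) := h
  refine ⟨V * rdiag (fun i => Real.sqrt (ρ i * (((η i : ℤˣ) : ℤ) : ℝ))) * S0,
    (hV.mul (rdiag_unit fun i => (Real.sqrt_pos.mpr (habs i)).ne')).mul hS0, ?_⟩
  have h1 : diagonal (fun i => ((((η i : ℤˣ) : ℤ) : ℝ) : ℂ)) =
      rdiag fun i => (((η i : ℤˣ) : ℤ) : ℝ) := rfl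
  rw [h1] at hR0
  rw [conjTranspose_mul, conjTranspose_mul, rdiag_herm]
  have h2 : rdiag (fun i => Real.sqrt (ρ i * (((η i : ℤˣ) : ℤ) : ℝ))) *
      (rdiag fun i => (((η i : ℤˣ) : ℤ) : ℝ)) *
      rdiag (fun i => Real.sqrt (ρ i * (((η i : ℤˣ) : ℤ) : ℝ))) = rdiag ρ := by
    rw [rdiag_mul, rdiag_mul]
    congr 1
    funext i
    have h3 := Real.mul_self_sqrt (habs i).le
    rcases Int.units_eq_one_or (η i) with h4 | h4
    · rw [h4] at h3 ⊢
      push_cast at h3 ⊢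
      linarith
    · rw [h4] at h3 ⊢
      push_cast at h3 ⊢
      linarith
  calc V * rdiag (fun i => Real.sqrt (ρ i * (((η i : ℤˣ) : ℤ) : ℝ))) * S0 * R0 *
        (S0ᴴ * (rdiag (fun i => Real.sqrt (ρ i * (((η i : ℤˣ) : ℤ) : ℝ))) * Vᴴ))
      = V * (rdiag (fun i => Real.sqrt (ρ i * (((η i : ℤˣ) : ℤ) : ℝ))) * (S0 * R0 * S0ᴴ) *
        rdiag (fun i => Real.sqrt (ρ i * (((η i : ℤˣ) : ℤ) : ℝ)))) * Vᴴ := by
        simp only [mul_assoc]
    _ = _ := by rw [hR0, h2]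

/-- **The local prescription at a real place.** -/
theorem real_pre {B M R0 : Matrix (Fin n) (Fin n) ℂ} (hB : B.PosDef) (hM : M.PosDef)
    (h4 : ((4 : ℂ) • M - B).PosDef) (hR0 : R0.IsHermitian) (hu : IsUnit R0) :
    ∃ (V T X : Matrix (Fin n) (Fin n) ℂ) (ρ : Fin n → ℝ), IsUnit V ∧ IsUnit T ∧ IsUnit X ∧
      Function.Injective ρ ∧ (∀ i, ρ i ≠ 0) ∧ (∀ i, -4 < ρ i) ∧
      M = V * Vᴴ ∧ T * R0 * Tᴴ = V * rdiag ρ * Vᴴ ∧ B + T * R0 * Tᴴ = X * R0 * Xᴴ := by
  obtain ⟨S0, η, hS0, hη⟩ := exists_sign_diag hR0 hu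
  have hMu : IsUnit M := hM.isUnit
  have hMdet : IsUnit M.det := (Matrix.isUnit_iff_isUnit_det _).mp hMu
  have hMi : M⁻¹ * M = 1 := Matrix.nonsing_inv_mul _ hMdet
  obtain ⟨V, β, hV, hMV, hβ⟩ := spectral_pair (M := B * M⁻¹) hM (by
    rw [mul_assoc, hMi, mul_one]; exact hB.isHermitian.eq)
  have hBV : B = V * rdiag β * Vᴴ := by
    calc B = B * M⁻¹ * M := by rw [mul_assoc, hMi, mul_one]
      _ = B * M⁻¹ * (V * Vᴴ) := by rw [← hMV]
      _ = (B * M⁻¹ * V) * Vᴴ := by simp only [mul_assoc]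
      _ = _ := by rw [hβ, rdiag]
  have hβ0 : ∀ i, 0 < β i := by
    rw [hBV] at hB
    exact pos_of_posDef hV hB
  have hβ4 : ∀ i, β i < 4 := by
    have h5 : (4 : ℂ) • M - B = V * rdiag (fun i => 4 - β i) * Vᴴ := by
      have h6 : rdiag (fun i => 4 - β i) = (4 : ℂ) • (1 : Matrix (Fin n) (Fin n) ℂ) - rdiag β := by
        rw [rdiag, rdiag, ← diagonal_one, ← diagonal_smul, diagonal_sub]
        congr 1
        funext i
        simp
      rw [h6, mul_sub, sub_mul, ← hBV, mul_smul_comm, mul_one, smul_mul_assoc, ← hMV]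
    rw [h5] at h4
    intro i
    linarith [pos_of_posDef hV h4 i]
  obtain ⟨ρ, hρ1, hρ2, hρ3, hρ4⟩ := exists_rho hβ0 hβ4 η
  obtain ⟨T, hT, hTR⟩ := resize hS0 hη hV hρ2
  obtain ⟨X, hX, hXR⟩ := resize hS0 hη hV hρ3
  refine ⟨V, T, X, ρ, hV, hT, hX, hρ1, fun i h => ?_, hρ4, hMV, hTR, ?_⟩
  · have := hρ2 i
    rw [h, zero_mul] at this
    exact lt_irrefl _ this
  · rw [hTR, hXR, hBV, ← rdiag_add, mul_add, add_mul]

end core

section field

variable {k K D : Type} [Field k] [NumberField k] [Field K] [StarRing K]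
    [DivisionRing D] [StarRing D] [Algebra k K] [Algebra k D] [Algebra K D] [IsScalarTower k K D]
    {d : kˣ} {s : K} {n : ℕ} {N : ℕ}

open Vale.Agent.P011.Arith Vale.Agent.P011.Even

/-- The inverse of `m` in terms of the decomposition. -/
theorem f_inv_eq (R : RData K D n) {m : D} (hm0 : m ≠ 0) {V W : Matrix (Fin n) (Fin n) ℂ}
    (hWV : W * V = 1) (hVW : V * W = 1) (hm : R.f m * R.A = V * Vᴴ) :
    R.f m⁻¹ = R.A * Wᴴ * W := by
  have h1 : R.f m⁻¹ * R.f m = 1 := by rw [← map_mul, inv_mul_cancel₀ hm0, map_one]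
  have h2 : Vᴴ * Wᴴ = 1 := by rw [← conjTranspose_mul, hWV, conjTranspose_one]
  calc R.f m⁻¹ = R.f m⁻¹ * (V * (Vᴴ * Wᴴ) * W) := by rw [h2, mul_one, hVW, mul_one]
    _ = R.f m⁻¹ * (V * Vᴴ) * (Wᴴ * W) := by simp only [mul_assoc]
    _ = R.f m⁻¹ * R.f m * R.A * (Wᴴ * W) := by rw [← hm]; simp only [mul_assoc]
    _ = _ := by rw [h1, one_mul, mul_assoc]

/-- The spectral decomposition of `m⁻¹ * r` at a real place at which `m` is positive. -/
theorem exists_spec (R : RData K D n) {φ : k →+* ℝ}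
    (hφ : ∀ a, R.s (algebraMap k K a) = ((φ a : ℝ) : ℂ)) {m r : D} (hm0 : m ≠ 0)
    (hm : (R.f m * R.A).PosDef) (hr : star r = r) :
    ∃ (V : Matrix (Fin n) (Fin n) ℂ) (lam : Fin n → ℝ), IsUnit V ∧ R.f m * R.A = V * Vᴴ ∧
      R.f r * R.A = V * rdiag lam * Vᴴ ∧
      ∀ q : k[X], R.f (m * aeval (m⁻¹ * r) q) * R.A =
        V * rdiag (fun i => (q.map φ).eval (lam i)) * Vᴴ := by
  obtain ⟨P, hP⟩ : ∃ P : Matrix (Fin n) (Fin n) ℂ, P = R.f m * R.A := ⟨_, rfl⟩
  obtain ⟨Z, hZ⟩ : ∃ Z : Matrix (Fin n) (Fin n) ℂ, Z = R.f r * R.A := ⟨_, rfl⟩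
  have hZh : Zᴴ = Z := by rw [hZ]; exact f_herm R hr
  rw [← hP] at hm ⊢
  rw [← hZ]
  have hdet : IsUnit P.det := (Matrix.isUnit_iff_isUnit_det _).mp hm.isUnit
  have hPi : P⁻¹ * P = 1 := Matrix.nonsing_inv_mul _ hdet
  obtain ⟨V, lam, hV, hPV, hlam⟩ := spectral_pair (M := Z * P⁻¹) hm (by
    rw [mul_assoc, hPi, mul_one]; exact hZh)
  have hZV : Z = V * rdiag lam * Vᴴ := by
    calc Z = Z * P⁻¹ * P := by rw [mul_assoc, hPi, mul_one]
      _ = Z * P⁻¹ * (V * Vᴴ) := by rw [← hPV]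
      _ = (Z * P⁻¹ * V) * Vᴴ := by simp only [mul_assoc]
      _ = _ := by rw [hlam, rdiag]
  refine ⟨V, lam, hV, hPV, hZV, fun q => ?_⟩
  obtain ⟨U, hU⟩ := hV
  obtain ⟨W, hW⟩ : ∃ W : Matrix (Fin n) (Fin n) ℂ, W = ((U⁻¹ : (Matrix (Fin n) (Fin n) ℂ)ˣ) : _) :=
    ⟨_, rfl⟩
  have hWV : W * V = 1 := by rw [hW, ← hU]; exact U.inv_mul
  have hVW : V * W = 1 := by rw [hW, ← hU]; exact U.mul_inv
  have hVWh : Vᴴ * Wᴴ = 1 := by rw [← conjTranspose_mul, hWV, conjTranspose_one]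
  have hWVh : Wᴴ * Vᴴ = 1 := by rw [← conjTranspose_mul, hVW, conjTranspose_one]
  obtain ⟨A', hA'⟩ := R.unit
  obtain ⟨Ai, hAi⟩ : ∃ Ai : Matrix (Fin n) (Fin n) ℂ,
    Ai = ((A'⁻¹ : (Matrix (Fin n) (Fin n) ℂ)ˣ) : _) := ⟨_, rfl⟩
  have hA1 : R.A * Ai = 1 := by rw [hAi, ← hA']; exact A'.mul_inv
  have hA2 : Ai * R.A = 1 := by rw [hAi, ← hA']; exact A'.inv_mul
  have hinv := f_inv_eq R hm0 hWV hVW (hP ▸ hPV)
  have hth : R.f (m⁻¹ * r) * (R.A * Wᴴ) = (R.A * Wᴴ) * rdiag lam := by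
    rw [map_mul, hinv]
    calc R.A * Wᴴ * W * R.f r * (R.A * Wᴴ) = R.A * Wᴴ * W * (R.f r * R.A) * Wᴴ := by
          simp only [mul_assoc]
      _ = R.A * Wᴴ * (W * V) * rdiag lam * (Vᴴ * Wᴴ) := by
          rw [← hZ, hZV]; simp only [mul_assoc]
      _ = _ := by rw [hWV, hVWh, mul_one, mul_one]
  have h1 : R.f (aeval (m⁻¹ * r) q) * (R.A * Wᴴ) =
      (R.A * Wᴴ) * rdiag (fun i => (q.map φ).eval (lam i)) := by
    rw [f_aeval R hφ, ← aeval_map_algebraMap ℂ]
    rw [aeval_conj hth ((q.map φ).map (algebraMap ℝ ℂ)), rdiag, aeval_diagonal, rdiag]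
    congr 2
    funext i
    have h3 := eval_map_algebraMap (B := ℂ) (q.map φ) ((lam i : ℝ) : ℂ)
    rw [h3]
    exact aeval_algebraMap_apply ℂ (lam i) (q.map φ)
  calc R.f (m * aeval (m⁻¹ * r) q) * R.A
      = R.f m * (R.f (aeval (m⁻¹ * r) q) * (R.A * Wᴴ)) * Vᴴ := by
        rw [map_mul]
        calc R.f m * R.f (aeval (m⁻¹ * r) q) * R.A
            = R.f m * R.f (aeval (m⁻¹ * r) q) * R.A * (Wᴴ * Vᴴ) := by rw [hWVh, mul_one]
          _ = _ := by simp only [mul_assoc]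
    _ = (R.f m * R.A) * Wᴴ * rdiag (fun i => (q.map φ).eval (lam i)) * Vᴴ := by
        rw [h1]; simp only [mul_assoc]
    _ = V * (Vᴴ * Wᴴ) * rdiag (fun i => (q.map φ).eval (lam i)) * Vᴴ := by
        rw [← hP, hPV]; simp only [mul_assoc]
    _ = _ := by rw [hVWh, mul_one]

/-- The eigenvalues are the roots of the polynomial. -/
theorem roots_eq (R : RData K D n) {φ : k →+* ℝ} {m r : D} {V : Matrix (Fin n) (Fin n) ℂ}
    {lam : Fin n → ℝ} (hV : IsUnit V)
    (hq : ∀ q : k[X], R.f (m * aeval (m⁻¹ * r) q) * R.A =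
        V * rdiag (fun i => (q.map φ).eval (lam i)) * Vᴴ) {p : k[X]}
    (hp : aeval (m⁻¹ * r) p = 0) (i : Fin n) : (p.map φ).eval (lam i) = 0 := by
  have h1 := hq p
  rw [hp, mul_zero, map_zero, zero_mul] at h1
  obtain ⟨U, rfl⟩ := hV
  have h2 : rdiag (fun i => (p.map φ).eval (lam i)) = 0 := by
    have hU : IsUnit (U : Matrix (Fin n) (Fin n) ℂ)ᴴ := by
      rw [← star_eq_conjTranspose]
      exact U.isUnit.star
    have h3 : (U : Matrix (Fin n) (Fin n) ℂ) * rdiag (fun i => (p.map φ).eval (lam i)) = 0 := by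
      apply hU.mul_right_cancel
      rw [zero_mul, ← h1]
    apply U.isUnit.mul_left_cancel
    rw [h3, mul_zero]
  have h4 := congrFun (congrFun h2 i) i
  rw [rdiag, diagonal_apply_eq, Matrix.zero_apply] at h4
  exact_mod_cast h4

/-- The eigenvalues are different, if the powers are independent. -/
theorem lam_inj (R : RData K D n) {m r : D} (hm0 : m ≠ 0)
    {V : Matrix (Fin n) (Fin n) ℂ} {lam : Fin n → ℝ} (hV : IsUnit V)
    (hm : R.f m * R.A = V * Vᴴ) (hr : R.f r * R.A = V * rdiag lam * Vᴴ)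
    (hli : LinearIndependent ℝ (fun i : Fin n => (R.f (m⁻¹ * r)) ^ (i : ℕ))) :
    Function.Injective lam := by
  classical
  obtain ⟨U, hU⟩ := hV
  obtain ⟨W, hW⟩ : ∃ W : Matrix (Fin n) (Fin n) ℂ, W = ((U⁻¹ : (Matrix (Fin n) (Fin n) ℂ)ˣ) : _) :=
    ⟨_, rfl⟩
  have hWV : W * V = 1 := by rw [hW, ← hU]; exact U.inv_mul
  have hVW : V * W = 1 := by rw [hW, ← hU]; exact U.mul_inv
  have hVWh : Vᴴ * Wᴴ = 1 := by rw [← conjTranspose_mul, hWV, conjTranspose_one]
  obtain ⟨A', hA'⟩ := R.unit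
  obtain ⟨Ai, hAi⟩ : ∃ Ai : Matrix (Fin n) (Fin n) ℂ,
    Ai = ((A'⁻¹ : (Matrix (Fin n) (Fin n) ℂ)ˣ) : _) := ⟨_, rfl⟩
  have hA1 : R.A * Ai = 1 := by rw [hAi, ← hA']; exact A'.mul_inv
  have hinv := f_inv_eq R hm0 hWV hVW hm
  have hth : R.f (m⁻¹ * r) * (R.A * Wᴴ) = (R.A * Wᴴ) * rdiag lam := by
    rw [map_mul, hinv]
    calc R.A * Wᴴ * W * R.f r * (R.A * Wᴴ) = R.A * Wᴴ * W * (R.f r * R.A) * Wᴴ := by
          simp only [mul_assoc]
      _ = R.A * Wᴴ * (W * V) * rdiag lam * (Vᴴ * Wᴴ) := by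
          rw [hr]; simp only [mul_assoc]
      _ = _ := by rw [hWV, hVWh, mul_one, mul_one]
  intro i j hij
  by_contra hne
  -- a polynomial of small degree which kills the matrix
  obtain ⟨q, hq⟩ : ∃ q : ℝ[X], q = ∏ l ∈ Finset.univ.erase i, (X - C (lam l)) := ⟨_, rfl⟩
  have hqm : q.Monic := by rw [hq]; exact monic_prod_of_monic _ _ fun l _ => monic_X_sub_C _
  have hqd : q.natDegree = n - 1 := by
    rw [hq, natDegree_prod_of_monic _ _ fun l _ => monic_X_sub_C _]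
    simp
  have hq0 : ∀ l, q.eval (lam l) = 0 := by
    intro l
    rw [hq, eval_prod, Finset.prod_eq_zero_iff]
    by_cases hl : l = i
    · exact ⟨j, Finset.mem_erase.mpr ⟨fun h => hne h.symm, Finset.mem_univ _⟩, by
        rw [hl, hij, eval_sub, eval_X, eval_C, sub_self]⟩
    · exact ⟨l, Finset.mem_erase.mpr ⟨hl, Finset.mem_univ _⟩, by
        rw [eval_sub, eval_X, eval_C, sub_self]⟩
  have hn : 0 < n := i.pos
  have h1 : aeval (R.f (m⁻¹ * r)) q * (R.A * Wᴴ) = 0 := by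
    rw [← aeval_map_algebraMap ℂ, aeval_conj hth (q.map (algebraMap ℝ ℂ)), rdiag, aeval_diagonal]
    have h2 : (fun l => (q.map (algebraMap ℝ ℂ)).eval ((lam l : ℝ) : ℂ)) = fun _ => 0 := by
      funext l
      rw [eval_map_algebraMap]
      have h3 := aeval_algebraMap_apply ℂ (lam l) q
      rw [Complex.coe_algebraMap] at h3
      rw [h3, coe_aeval_eq_eval, hq0 l, Complex.ofReal_zero]
    rw [h2, diagonal_zero, mul_zero]
  have hWu : IsUnit (R.A * Wᴴ) := by
    refine R.unit.mul ?_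
    rw [← star_eq_conjTranspose, hW]
    exact (U⁻¹).isUnit.star
  have h2 : aeval (R.f (m⁻¹ * r)) q = 0 := by
    apply hWu.mul_right_cancel
    rw [h1, zero_mul]
  rw [aeval_eq_sum_range, hqd, Nat.sub_add_cancel hn, Finset.sum_range] at h2
  have h3 := (Fintype.linearIndependent_iff.mp hli) (fun l => q.coeff (l : ℕ)) h2
    ⟨n - 1, by omega⟩
  have h4 : q.coeff (n - 1) = 1 := by rw [← hqd]; exact hqm
  simp only [h4] at h3
  exact one_ne_zero h3

/-- A monic polynomial of degree `n` with `n` different roots is the product of the linear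
factors. -/
theorem eq_prod_of_roots {F : Type} [Field F] {p : F[X]} (hp : p.Monic) (hn : p.natDegree = n)
    {lam : Fin n → F} (hl : Function.Injective lam) (h : ∀ i, p.eval (lam i) = 0) :
    p = ∏ i, (X - C (lam i)) := by
  refine eq_of_monic_of_dvd_of_natDegree_le (monic_prod_of_monic _ _ fun i _ => monic_X_sub_C _) hp
    (prod_dvd_of_roots hl h) ?_
  rw [hn, natDegree_prod_X_sub_C']

/-- Positivity in terms of the eigenvalues. -/
theorem pos_poly (R : RData K D n) {φ : k →+* ℝ}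
    (hφ : ∀ a, R.s (algebraMap k K a) = ((φ a : ℝ) : ℂ)) {m r : D} (hm0 : m ≠ 0)
    (hm : (R.f m * R.A).PosDef) (hr : star r = r)
    (hli : LinearIndependent ℝ (fun i : Fin n => (R.f (m⁻¹ * r)) ^ (i : ℕ)))
    {p : k[X]} (hp : p.Monic) (hpn : p.natDegree = n) (hp0 : aeval (m⁻¹ * r) p = 0)
    {ρ : Fin n → ℝ} (hρ : p.map φ = ∏ i, (X - C (ρ i))) (q : k[X]) :
    (R.f (m * aeval (m⁻¹ * r) q) * R.A).PosDef ↔ ∀ i, 0 < (q.map φ).eval (ρ i) := by
  obtain ⟨V, lam, hV, hmV, hrV, hq⟩ := exists_spec R hφ hm0 hm hr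
  have hinj := lam_inj R hm0 hV hmV hrV hli
  have hroot := roots_eq R hV hq hp0
  have hprod := eq_prod_of_roots (hp.map φ) (by rw [natDegree_map, hpn]) hinj hroot
  have hset : ∀ x : ℝ, (∃ i, lam i = x) ↔ ∃ i, ρ i = x := by
    intro x
    have h1 : (p.map φ).eval x = ∏ i, (x - lam i) := by
      rw [hprod, eval_prod]
      exact Finset.prod_congr rfl fun i _ => by rw [eval_sub, eval_X, eval_C]
    have h2 : (p.map φ).eval x = ∏ i, (x - ρ i) := by
      rw [hρ, eval_prod]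
      exact Finset.prod_congr rfl fun i _ => by rw [eval_sub, eval_X, eval_C]
    constructor
    · rintro ⟨i, hi⟩
      have h3 : (p.map φ).eval x = 0 := by
        rw [h1, Finset.prod_eq_zero_iff]
        exact ⟨i, Finset.mem_univ _, by rw [hi, sub_self]⟩
      rw [h2, Finset.prod_eq_zero_iff] at h3
      obtain ⟨j, -, hj⟩ := h3
      exact ⟨j, (sub_eq_zero.mp hj).symm⟩
    · rintro ⟨i, hi⟩
      have h3 : (p.map φ).eval x = 0 := by
        rw [h2, Finset.prod_eq_zero_iff]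
        exact ⟨i, Finset.mem_univ _, by rw [hi, sub_self]⟩
      rw [h1, Finset.prod_eq_zero_iff] at h3
      obtain ⟨j, -, hj⟩ := h3
      exact ⟨j, (sub_eq_zero.mp hj).symm⟩
  rw [hq]
  constructor
  · intro h i
    obtain ⟨j, hj⟩ := (hset (ρ i)).mpr ⟨i, rfl⟩
    rw [← hj]
    exact pos_of_posDef hV h j
  · intro h
    apply posDef_conj hV
    intro j
    obtain ⟨i, hi⟩ := (hset (lam j)).mp ⟨j, rfl⟩
    rw [← hi]
    exact h i

/-- Powers of a matrix with different real eigenvalues. -/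
theorem li_of_conj {Z Q : Matrix (Fin n) (Fin n) ℂ} (hQ : IsUnit Q) {ρ : Fin n → ℝ}
    (hρ : Function.Injective ρ) (h : Z * Q = Q * rdiag ρ) :
    LinearIndependent ℝ (fun i : Fin n => Z ^ (i : ℕ)) ∧ aeval Z (∏ i, (X - C (ρ i))) = 0 := by
  have key : ∀ q : ℝ[X], aeval Z q * Q = Q * rdiag fun i => q.eval (ρ i) := by
    intro q
    rw [← aeval_map_algebraMap ℂ, aeval_conj h (q.map (algebraMap ℝ ℂ)), rdiag, aeval_diagonal,
      rdiag]
    congr 2
    funext l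
    rw [eval_map_algebraMap]
    have h3 := aeval_algebraMap_apply ℂ (ρ l) q
    rw [Complex.coe_algebraMap] at h3
    rw [h3, coe_aeval_eq_eval]
  constructor
  · rw [Fintype.linearIndependent_iff]
    intro a ha
    obtain ⟨q, hq⟩ : ∃ q : ℝ[X], q = ∑ i : Fin n, C (a i) * X ^ (i : ℕ) := ⟨_, rfl⟩
    have h1 : aeval Z q = 0 := by
      rw [hq, map_sum, ← ha]
      refine Finset.sum_congr rfl fun i _ => ?_
      rw [map_mul, aeval_C, map_pow, aeval_X, Algebra.smul_def]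
    have h2 := key q
    rw [h1, zero_mul] at h2
    have h3 : rdiag (fun i => q.eval (ρ i)) = 0 := by
      apply hQ.mul_left_cancel
      rw [mul_zero, ← h2]
    have h4 : ∀ i, q.eval (ρ i) = 0 := by
      intro i
      have h5 := congrFun (congrFun h3 i) i
      rw [rdiag, diagonal_apply_eq, Matrix.zero_apply] at h5
      exact_mod_cast h5
    intro i
    have hn : 0 < n := i.pos
    have hdeg : q.natDegree < Fintype.card (Fin n) := by
      rw [Fintype.card_fin]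
      have h5 : q.natDegree ≤ n - 1 := by
        rw [hq]
        refine natDegree_sum_le_of_forall_le (n := n - 1) _ _ fun i _ => ?_
        refine (natDegree_C_mul_X_pow_le _ _).trans ?_
        have := i.2
        omega
      omega
    have hq0 := Polynomial.eq_zero_of_natDegree_lt_card_of_eval_eq_zero q hρ h4 hdeg
    have h6 : q.coeff (i : ℕ) = a i := by
      rw [hq, finsetSum_coeff, Finset.sum_eq_single i]
      · rw [coeff_C_mul, coeff_X_pow, if_pos rfl, mul_one]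
      · intro j _ hj
        rw [coeff_C_mul, coeff_X_pow, if_neg, mul_zero]
        exact fun h => hj (Fin.ext h.symm)
      · exact fun h => absurd (Finset.mem_univ i) h
    rw [← h6, hq0, coeff_zero]
  · apply hQ.mul_right_cancel
    rw [key, zero_mul]
    have h1 : (fun i => (∏ i, (X - C (ρ i))).eval (ρ i)) = fun _ : Fin n => (0 : ℝ) := by
      funext i
      rw [eval_prod, Finset.prod_eq_zero_iff]
      exact ⟨i, Finset.mem_univ _, by rw [eval_sub, eval_X, eval_C, sub_self]⟩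
    rw [h1, rdiag]
    simp

/-- Independence of powers over the real numbers and over `k`. -/
theorem li_k (R : RData K D n) {φ : k →+* ℝ}
    (hφ : ∀ a, R.s (algebraMap k K a) = ((φ a : ℝ) : ℂ)) {z : D}
    (hli : LinearIndependent ℝ (fun i : Fin n => (R.f z) ^ (i : ℕ))) :
    LinearIndependent k (fun i : Fin n => z ^ (i : ℕ)) := by
  rw [Fintype.linearIndependent_iff] at hli ⊢
  intro a ha i
  have h3 := hli (fun i => φ (a i)) (by
    have h4 := congrArg R.f ha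
    rw [map_sum, map_zero] at h4
    rw [← h4]
    exact Finset.sum_congr rfl fun i _ => by rw [f_smul R hφ, map_pow]) i
  exact (map_eq_zero φ).mp h3

theorem posDef_of_four (R : RData K D n) {m b : D} (hb : (R.f b * R.A).PosDef)
    (hmb : (R.f (4 * m - b) * R.A).PosDef) : (R.f m * R.A).PosDef ∧
      ((4 : ℂ) • (R.f m * R.A) - R.f b * R.A).PosDef := by
  have h4 : R.f (4 * m) * R.A = (4 : ℂ) • (R.f m * R.A) := by
    rw [map_mul, map_ofNat]
    have h5 : (OfNat.ofNat 4 : Matrix (Fin n) (Fin n) ℂ) = (4 : ℂ) • 1 := by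
      ext i j
      rw [Matrix.smul_apply, Matrix.one_apply]
      by_cases h : i = j
      · subst h
        rw [if_pos rfl]
        simp [Matrix.ofNat_apply]
      · rw [if_neg h]
        simp [Matrix.ofNat_apply, h]
    rw [h5, smul_mul_assoc, smul_mul_assoc, one_mul]
  have h1 : (4 : ℂ) • (R.f m * R.A) - R.f b * R.A = R.f (4 * m - b) * R.A := by
    rw [map_sub, sub_mul, h4]
  rw [h1]
  refine ⟨?_, hmb⟩
  have h2 : R.f m * R.A = (4 : ℂ)⁻¹ • (R.f (4 * m - b) * R.A + R.f b * R.A) := by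
    rw [← h1, sub_add_cancel, smul_smul, inv_mul_cancel₀ (by norm_num), one_smul]
  rw [h2]
  refine (hmb.add hb).smul ?_
  rw [Complex.lt_def]
  norm_num

theorem isUnit_conj {V : Matrix (Fin n) (Fin n) ℂ} (hV : IsUnit V) : IsUnit Vᴴ := by
  rw [← star_eq_conjTranspose]
  exact hV.star

/-- **The local prescription at a real place.** The target is a rational element, and all the
properties hold in a neighbourhood. -/
theorem real_pre_loc (hS : Setting k K D d s) (hn : 0 < n) (hdeg : finrank K D = n ^ 2)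
    (B : Basis (Fin N) k D) {m b r0 r0p : D} (hm : star m = m) (hbs : star b = b)
    (hr0 : star r0 = r0) (h0 : r0 ≠ 0) {φ : k →+* ℝ} (hφ : φ d < 0) (R : RData K D n) (hR : ∀ x, R.s (algebraMap k K x) = ((φ x : ℝ) : ℂ))
    (hb : (R.f b * R.A).PosDef) (hmb : (R.f (4 * m - b) * R.A).PosDef) (hc : R.CongAt r0 r0p) :
    ∃ (R0 : D) (δ : ℝ), 0 < δ ∧ star R0 = R0 ∧ ∀ r : D, star r = r →
      (∀ j, plAbv (Sum.inr φ) (B.repr (r - R0) j) < δ) →
      r ≠ 0 ∧ b + r ≠ 0 ∧ R.CongAt r0 r ∧ R.CongAt r0p (b + r) ∧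
      (R.f (m + 4⁻¹ * r) * R.A).PosDef ∧ (R.f (4 * m + r) * R.A).PosDef ∧
      LinearIndependent k (fun i : Fin n => (m⁻¹ * r) ^ (i : ℕ)) ∧
      LinearIndependent ℝ (fun i : Fin n => (R.f (m⁻¹ * r)) ^ (i : ℕ)) ∧
      ∀ p : k[X], p.Monic → p.natDegree = n → aeval (m⁻¹ * r) p = 0 →
        ∃ ρ : Fin n → ℝ, Function.Injective ρ ∧ p.map φ = ∏ i, (Polynomial.X - C (ρ i)) ∧
          ∀ i, ρ i ≠ 0 ∧ -4 < ρ i := by
  classical
  have := hS.fin
  have := hS.cen
  have : StarModule K D := ⟨hS.star_smul⟩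
  obtain ⟨hM, h4⟩ := posDef_of_four R hb hmb
  have hm0 : m ≠ 0 := by
    rintro rfl
    rw [map_zero, zero_mul] at hM
    have := hM.diag_pos (i := ⟨0, hn⟩)
    simp at this
  obtain ⟨V, T, X, ρ, hV, hT, hX, hρi, hρ0, hρ4, hMV, hTR, hXR⟩ :=
    real_pre hb hM h4 (f_herm R hr0) ((f_unit R h0).mul R.unit)
  -- the local target
  obtain ⟨Rm, hRm⟩ : ∃ Rm : Matrix (Fin n) (Fin n) ℂ, Rm = V * rdiag ρ * Vᴴ := ⟨_, rfl⟩
  have hRmh : Rmᴴ = Rm := by
    rw [hRm, conjTranspose_mul, conjTranspose_mul, conjTranspose_conjTranspose, rdiag_herm,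
      mul_assoc]
  have hRmu : IsUnit Rm := by
    rw [hRm]
    exact (hV.mul (rdiag_unit hρ0)).mul (isUnit_conj hV)
  have hBRh : (R.f b * R.A + Rm)ᴴ = R.f b * R.A + Rm := by
    rw [conjTranspose_add, hRmh, f_herm R hbs]
  have hBRu : IsUnit (R.f b * R.A + Rm) := by
    rw [hRm, ← hTR, hXR]
    exact (hX.mul ((f_unit R h0).mul R.unit)).mul (isUnit_conj hX)
  have hMR : (R.f m * R.A + (4 : ℂ)⁻¹ • Rm).PosDef := by
    have h5 : R.f m * R.A + (4 : ℂ)⁻¹ • Rm = V * rdiag (fun i => 1 + ρ i / 4) * Vᴴ := by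
      have h6 : rdiag (fun i => 1 + ρ i / 4) = 1 + (4 : ℂ)⁻¹ • rdiag ρ := by
        rw [rdiag, rdiag, ← diagonal_one, ← diagonal_smul, diagonal_add]
        congr 1
        funext i
        simp only [Pi.smul_apply, smul_eq_mul]
        push_cast
        ring
      rw [h6, mul_add, add_mul, mul_one, ← hMV, mul_smul_comm, smul_mul_assoc, ← hRm]
    rw [h5]
    apply posDef_conj hV
    intro i
    linarith [hρ4 i]
  obtain ⟨η1, hη1, hn1⟩ := herm_near (G := Rm) hRmh hRmu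
  obtain ⟨η2, hη2, hn2⟩ := herm_near (G := R.f b * R.A + Rm) hBRh hBRu
  obtain ⟨η3, hη3, hn3⟩ := posDef_near hMR
  obtain ⟨A', hA'⟩ := R.unit
  obtain ⟨Ai, hAi⟩ : ∃ Ai : Matrix (Fin n) (Fin n) ℂ,
    Ai = ((A'⁻¹ : (Matrix (Fin n) (Fin n) ℂ)ˣ) : _) := ⟨_, rfl⟩
  have hA1 : R.A * Ai = 1 := by rw [hAi, ← hA']; exact A'.mul_inv
  have hA2 : Ai * R.A = 1 := by rw [hAi, ← hA']; exact A'.inv_mul
  -- coordinates
  let Λ := LinearEquiv.ofBijective (Lam B R) (Lam_bij hS B hn hdeg hφ R hR)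
  have hΛrc : ∀ x, Λ (rc B φ x) = R.f x := Lam_rc B R hR
  have hΛc : Continuous Λ := LinearMap.continuous_of_finiteDimensional Λ.toLinearMap
  have hΛsc : Continuous Λ.symm := LinearMap.continuous_of_finiteDimensional Λ.symm.toLinearMap
  let c0 : Fin N → ℝ := Λ.symm (Rm * Ai)
  have hc0 : Λ c0 = Rm * Ai := LinearEquiv.apply_symm_apply Λ _
  have hc0A : Λ c0 * R.A = Rm := by rw [hc0, mul_assoc, hA2, mul_one]
  -- the first condition
  have e1 : ∀ᶠ c in 𝓝 c0, ∀ i j, ‖(Λ c * R.A) i j - Rm i j‖ < min η1 (min η2 η3) := by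
    rw [eventually_all]
    intro i
    rw [eventually_all]
    intro j
    have h5 : Continuous fun c => (Λ c * R.A) i j :=
      (hΛc.matrix_mul continuous_const).matrix_elem i j
    have h6 := h5.continuousAt (x := c0) |>.eventually (Metric.ball_mem_nhds _
      (show 0 < min η1 (min η2 η3) by positivity))
    filter_upwards [h6] with c hc'
    change dist _ _ < _ at hc'
    rw [dist_eq_norm, hc0A] at hc'
    exact hc'
  -- the second condition
  have e2 : ∀ᶠ c in 𝓝 c0, LinearIndependent ℝ (fun i : Fin n => (R.f m⁻¹ * Λ c) ^ (i : ℕ)) := by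
    obtain ⟨U, hU⟩ := hV
    obtain ⟨W, hW⟩ : ∃ W : Matrix (Fin n) (Fin n) ℂ,
      W = ((U⁻¹ : (Matrix (Fin n) (Fin n) ℂ)ˣ) : _) := ⟨_, rfl⟩
    have hWV : W * V = 1 := by rw [hW, ← hU]; exact U.inv_mul
    have hVW : V * W = 1 := by rw [hW, ← hU]; exact U.mul_inv
    have hVWh : Vᴴ * Wᴴ = 1 := by rw [← conjTranspose_mul, hWV, conjTranspose_one]
    have hinv := f_inv_eq R hm0 hWV hVW hMV
    have hconj : (R.f m⁻¹ * Λ c0) * (R.A * Wᴴ) = (R.A * Wᴴ) * rdiag ρ := by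
      rw [hc0, hinv]
      calc R.A * Wᴴ * W * (Rm * Ai) * (R.A * Wᴴ) = R.A * Wᴴ * W * Rm * (Ai * R.A) * Wᴴ := by
            simp only [mul_assoc]
        _ = R.A * Wᴴ * (W * V) * rdiag ρ * (Vᴴ * Wᴴ) := by
            rw [hA2, hRm]; simp only [mul_assoc, one_mul]
        _ = _ := by rw [hWV, hVWh, mul_one, mul_one]
    have hWu : IsUnit (R.A * Wᴴ) := by
      refine R.unit.mul (isUnit_conj ?_)
      rw [hW]
      exact (U⁻¹).isUnit
    obtain ⟨h5, h6⟩ := li_of_conj hWu hρi hconj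
    have hcts : CtsAt (Module.finBasis ℝ (Matrix (Fin n) (Fin n) ℂ))
        (fun c => R.f m⁻¹ * Λ c) c0 := by
      refine (CtsAt.const _).mul fun j => ?_
      exact ((LinearMap.continuous_of_finiteDimensional
        ((Module.finBasis ℝ (Matrix (Fin n) (Fin n) ℂ)).coord j)).comp hΛc).continuousAt
    exact (near_minpoly hcts h5 (monic_prod_of_monic _ _ fun i _ => monic_X_sub_C _)
      (natDegree_prod_X_sub_C' _) h6 one_pos).mono fun c hc' => hc'.1
  have e3 := eventually_eventually_nhds.mpr (e1.and e2)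
  -- symmetrisation
  let S : (Fin N → ℝ) → (Fin N → ℝ) := fun c =>
    (2 : ℝ)⁻¹ • (c + Λ.symm (R.A * (Λ c)ᴴ * Ai))
  have hSc : Continuous S := by
    have h5 : Continuous fun c => R.A * (Λ c)ᴴ * Ai :=
      (continuous_const.matrix_mul hΛc.matrix_conjTranspose).matrix_mul continuous_const
    exact (continuous_id.add (hΛsc.comp h5)).const_smul (2 : ℝ)⁻¹
  have hS0 : S c0 = c0 := by
    have h5 : R.A * (Λ c0)ᴴ * Ai = Λ c0 := by
      have h6 : R.A * (Λ c0)ᴴ = Rm := by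
        have h7 := congrArg conjTranspose hc0A
        rw [conjTranspose_mul, R.hA, hRmh] at h7
        exact h7
      rw [h6, hc0]
    change (2 : ℝ)⁻¹ • (c0 + Λ.symm (R.A * (Λ c0)ᴴ * Ai)) = c0
    rw [h5, LinearEquiv.symm_apply_apply, ← two_smul ℝ c0, smul_smul]
    norm_num
  have e4 : ∀ᶠ c in 𝓝 c0, ∀ᶠ y in 𝓝 (S c),
      (∀ i j, ‖(Λ y * R.A) i j - Rm i j‖ < min η1 (min η2 η3)) ∧
        LinearIndependent ℝ (fun i : Fin n => (R.f m⁻¹ * Λ y) ^ (i : ℕ)) := by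
    have h5 := hSc.continuousAt (x := c0)
    rw [ContinuousAt, hS0] at h5
    exact h5.eventually e3
  -- a rational point
  have hdense : DenseRange (Pi.map (fun (_ : Fin N) (q : ℚ) => (q : ℝ))) :=
    DenseRange.piMap fun _ => Rat.denseRange_cast
  obtain ⟨q, hq⟩ : ∃ q : Fin N → ℚ, ∀ᶠ y in 𝓝 (S (Pi.map (fun (_ : Fin N) (q : ℚ) => (q : ℝ)) q)),
      (∀ i j, ‖(Λ y * R.A) i j - Rm i j‖ < min η1 (min η2 η3)) ∧
        LinearIndependent ℝ (fun i : Fin n => (R.f m⁻¹ * Λ y) ^ (i : ℕ)) := by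
    obtain ⟨U, hU1, hU2, hU3⟩ := eventually_nhds_iff.mp e4
    obtain ⟨q, hq⟩ := hdense.exists_mem_open hU2 ⟨c0, hU3⟩
    exact ⟨q, hU1 _ hq⟩
  let x : D := ∑ i, (q i : k) • B i
  have hx : rc B φ x = Pi.map (fun (_ : Fin N) (q : ℚ) => (q : ℝ)) q := by
    funext i
    change φ (B.repr (∑ i, (q i : k) • B i) i) = _
    rw [B.repr_sum_self]
    simp
  let R0 : D := (2⁻¹ : k) • (x + star x)
  have hR0s : star R0 = R0 := by
    change hS.sig ((2⁻¹ : k) • (x + star x)) = (2⁻¹ : k) • (x + star x)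
    rw [map_smul]
    congr 1
    change star (x + star x) = x + star x
    rw [star_add, star_star, add_comm]
  have hR0 : rc B φ R0 = S (rc B φ x) := by
    apply Λ.injective
    rw [hΛrc]
    change R.f ((2⁻¹ : k) • (x + star x)) =
      Λ ((2 : ℝ)⁻¹ • (rc B φ x + Λ.symm (R.A * (Λ (rc B φ x))ᴴ * Ai)))
    rw [f_smul R hR, map_inv₀, map_ofNat, map_add, LinearEquiv.map_smul, LinearEquiv.map_add,
      LinearEquiv.apply_symm_apply, hΛrc]
    congr 2
    rw [← R.star_f, mul_assoc, hA1, mul_one]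
  rw [← hx, ← hR0] at hq
  obtain ⟨δ, hδ, hball⟩ := Metric.eventually_nhds_iff.mp hq
  refine ⟨R0, δ, hδ, hR0s, fun r hr hnear => ?_⟩
  obtain ⟨g1, g2⟩ := hball (y := rc B φ r) (by
    rw [dist_pi_lt_iff hδ]
    intro j
    have h5 := hnear j
    rw [plAbv_inr, map_sub, Finsupp.sub_apply, map_sub] at h5
    rw [Real.dist_eq]
    exact h5)
  rw [hΛrc] at g1
  rw [hΛrc, ← map_mul] at g2
  have hrh := f_herm R hr
  -- the congruences
  have k1 : R.CongAt r0 r := by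
    obtain ⟨Q, hQ, hQ'⟩ := hn1 (R.f r * R.A - Rm) (by
      change (R.f r * R.A - Rm)ᴴ = R.f r * R.A - Rm
      rw [conjTranspose_sub, hRmh, hrh]) (fun i j => by
        rw [Matrix.sub_apply]
        exact (g1 i j).trans_le (min_le_left _ _))
    refine ⟨Q * T, hQ.mul hT, ?_⟩
    rw [add_sub_cancel] at hQ'
    rw [← hQ', conjTranspose_mul, hRm, ← hTR]
    simp only [mul_assoc]
  have k2 : R.CongAt r0 (b + r) := by
    obtain ⟨Q, hQ, hQ'⟩ := hn2 (R.f r * R.A - Rm) (by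
      change (R.f r * R.A - Rm)ᴴ = R.f r * R.A - Rm
      rw [conjTranspose_sub, hRmh, hrh]) (fun i j => by
        rw [Matrix.sub_apply]
        exact (g1 i j).trans_le ((min_le_right _ _).trans (min_le_left _ _)))
    refine ⟨Q * X, hQ.mul hX, ?_⟩
    have h5 : R.f (b + r) * R.A = R.f b * R.A + Rm + (R.f r * R.A - Rm) := by
      rw [map_add, add_mul]
      abel
    rw [h5, ← hQ', conjTranspose_mul]
    conv_rhs => rw [hRm, ← hTR, hXR]
    simp only [mul_assoc]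
  have k3 : (R.f (m + 4⁻¹ * r) * R.A).PosDef := by
    have h5 : R.f (m + 4⁻¹ * r) * R.A = R.f m * R.A + (4 : ℂ)⁻¹ • (R.f r * R.A) := by
      have h6 : (4⁻¹ : D) * r = (4⁻¹ : k) • r := by
        rw [Algebra.smul_def, map_inv₀, map_ofNat]
      rw [map_add, add_mul, h6, f_smul R hR, smul_mul_assoc]
      congr 1
      rw [map_inv₀, map_ofNat]
      ext i j
      rw [Matrix.smul_apply, Matrix.smul_apply, Complex.real_smul, smul_eq_mul]
      push_cast
      rfl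
    apply hn3
    · exact R.isHermitian (by
        have h6 : (4⁻¹ : D) * r = (4⁻¹ : k) • r := by
          rw [Algebra.smul_def, map_inv₀, map_ofNat]
        rw [h6, star_add, hm]
        congr 1
        change hS.sig ((4⁻¹ : k) • r) = _
        rw [map_smul]
        congr 1)
    · intro i j
      rw [h5, Matrix.add_apply, Matrix.add_apply, add_sub_add_left_eq_sub, Matrix.smul_apply,
        Matrix.smul_apply, ← smul_sub, norm_smul]
      have h6 := (g1 i j).trans_le ((min_le_right _ _).trans (min_le_right _ _))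
      have h7 : ‖(4 : ℂ)⁻¹‖ = 4⁻¹ := by simp
      rw [h7]
      have h8 := norm_nonneg ((R.f r * R.A) i j - Rm i j)
      linarith
  have hne : ∀ {c : D}, c ≠ 0 → ∀ {e : D}, R.CongAt c e → e ≠ 0 := by
    rintro c hc0' e ⟨Q, hQ, hQe⟩ rfl
    rw [map_zero, zero_mul] at hQe
    have h5 : IsUnit (0 : Matrix (Fin n) (Fin n) ℂ) := by
      rw [← hQe]
      exact (hQ.mul ((f_unit R hc0').mul R.unit)).mul (isUnit_conj hQ)
    have : Nonempty (Fin n) := ⟨⟨0, hn⟩⟩
    exact not_isUnit_zero h5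
  have hr00 : r ≠ 0 := hne h0 k1
  have k4 : (R.f (4 * m + r) * R.A).PosDef := by
    have h5 : (4 : D) * m + r = (4 : k) • (m + 4⁻¹ * r) := by
      rw [smul_add, Algebra.smul_def, Algebra.smul_def, map_ofNat, ← mul_assoc,
        mul_inv_cancel₀ (by
          have h6 : (4 : D) = algebraMap k D 4 := by rw [map_ofNat]
          rw [h6]
          exact (map_ne_zero (algebraMap k D)).mpr (by norm_num)), one_mul]
    rw [h5, f_smul R hR, smul_mul_assoc, map_ofNat]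
    have h6 : (OfNat.ofNat 4 : ℝ) • (R.f (m + 4⁻¹ * r) * R.A) =
        (4 : ℂ) • (R.f (m + 4⁻¹ * r) * R.A) := by
      ext i j
      rw [Matrix.smul_apply, Matrix.smul_apply, Complex.real_smul, smul_eq_mul]
      push_cast
      rfl
    rw [h6]
    refine k3.smul ?_
    rw [Complex.lt_def]
    norm_num
  refine ⟨hr00, hne h0 k2, k1, cong_trans (cong_symm hc) k2, k3, k4, li_k R hR g2, g2,
    fun p hp hpn hp0 => ?_⟩
  obtain ⟨V', lam, hV', hmV', hrV', hq'⟩ := exists_spec R hR hm0 hM hr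
  have hinj := lam_inj R hm0 hV' hmV' hrV' g2
  refine ⟨lam, hinj, eq_prod_of_roots (hp.map φ) (by rw [natDegree_map, hpn]) hinj
    (roots_eq R hV' hq' hp0), fun i => ⟨fun h => ?_, ?_⟩⟩
  · have h5 : IsUnit (V' * rdiag lam * V'ᴴ) := by
      rw [← hrV']
      exact (f_unit R hr00).mul R.unit
    have h6 := ((Matrix.isUnit_iff_isUnit_det _).mp h5).ne_zero
    rw [det_mul, det_mul, rdiag, det_diagonal, Finset.prod_eq_zero (Finset.mem_univ i)
      (by rw [h, Complex.ofReal_zero]), mul_zero, zero_mul] at h6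
    exact h6 rfl
  · have h5 := hq' (1 + C (4⁻¹ : k) * Polynomial.X)
    have h6 : m * aeval (m⁻¹ * r) (1 + C (4⁻¹ : k) * Polynomial.X) = m + 4⁻¹ * r := by
      rw [map_add, map_one, map_mul, aeval_C, aeval_X, map_inv₀, map_ofNat, mul_add, mul_one]
      congr 1
      have h7 : (4 : D)⁻¹ = algebraMap k D 4⁻¹ := by rw [map_inv₀, map_ofNat]
      rw [h7, ← mul_assoc, ← Algebra.commutes, mul_assoc, ← mul_assoc m, mul_inv_cancel₀ hm0,
        one_mul]
    rw [h6] at h5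
    rw [h5] at k3
    have h8 := pos_of_posDef hV' k3 i
    simp only [Polynomial.map_add, Polynomial.map_one, Polynomial.map_mul, map_C, map_X, eval_add,
      eval_one, eval_mul, eval_C, eval_X, map_inv₀, map_ofNat] at h8
    linarith

/-- Closeness of the matrices implies closeness of the coordinates. -/
theorem coord_of_mat (hS : Setting k K D d s) (hn : 0 < n) (hdeg : finrank K D = n ^ 2)
    (B : Basis (Fin N) k D) {φ : k →+* ℝ} (hφ : φ d < 0) (R : RData K D n)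
    (hR : ∀ x, R.s (algebraMap k K x) = ((φ x : ℝ) : ℂ)) {δ : ℝ} (hδ : 0 < δ) :
    ∃ δ' : ℝ, 0 < δ' ∧ ∀ x : D, (∀ i j, ‖R.f x i j‖ < δ') →
      ∀ j, plAbv (Sum.inr φ) (B.repr x j) < δ := by
  let Λ := LinearEquiv.ofBijective (Lam B R) (Lam_bij hS B hn hdeg hφ R hR)
  have hΛrc : ∀ x, Λ (rc B φ x) = R.f x := Lam_rc B R hR
  have hΛsc : Continuous Λ.symm := LinearMap.continuous_of_finiteDimensional Λ.symm.toLinearMap
  let F : (Fin n → Fin n → ℂ) → (Fin N → ℝ) := fun Y => Λ.symm (Matrix.of Y)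
  have hF : Continuous F := hΛsc.comp continuous_id
  have h0 : F 0 = 0 := by
    change Λ.symm 0 = 0
    exact map_zero _
  obtain ⟨δ', hδ', hball⟩ := Metric.continuous_iff.mp hF 0 δ hδ
  refine ⟨δ', hδ', fun x hx j => ?_⟩
  have h1 := hball (fun i j => R.f x i j) (by
    rw [dist_pi_lt_iff hδ']
    intro i
    rw [dist_pi_lt_iff hδ']
    intro j
    rw [dist_eq_norm]
    change ‖R.f x i j - 0‖ < δ'
    rw [sub_zero]
    exact hx i j)
  rw [h0, dist_pi_lt_iff hδ] at h1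
  have h2 := h1 j
  have h3 : F (fun i j => R.f x i j) = rc B φ x := by
    apply Λ.injective
    rw [hΛrc]
    exact LinearEquiv.apply_symm_apply Λ _
  rw [h3, Real.dist_eq] at h2
  change |φ (B.repr x j) - 0| < δ at h2
  rw [sub_zero] at h2
  exact h2

end field

end Vale.Agent.P011.Two2
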