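import Vale.Agent.P011.Two2.FinPre
import Vale.Agent.P011.Two2.Dense2
import Vale.Agent.P011.Two2.Defs2
import Vale.Agent.P011.Two2.RealPre
import Vale.Agent.P011.Three.Eps

/-!
STEP a of the second relation in rank two: the choice of the auxiliary length.
-/

open Module Matrix Polynomial NumberField IsDedekindDomain
open scoped ComplexOrder

set_option linter.unusedSectionVars false

namespace Vale.Agent.P011.Two2

open Vale.Agent.P011.Arith Vale.Agent.P011.Even Vale.Agent.P011S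
open Vale.Agent.P011.RP (RData Complete Dense)

variable {k K D : Type} [Field k] [NumberField k] [Field K] [NumberField K] [StarRing K]
    [DivisionRing D] [StarRing D] [Algebra k K] [Algebra k D] [Algebra K D] [IsScalarTower k K D]
    {d : kˣ} {s : K} {n : ℕ}

/-- A member of a complete family above a given real place. -/
theorem exists_above (hS : Setting k K D d s) (hn : 0 < n) (hdeg : finrank K D = n ^ 2)
    {ι : Type} {R : ι → RData K D n} (hc : Complete R) {φ : k →+* ℝ} (hφ : φ d < 0) :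
    ∃ i, ∀ x, (R i).s (algebraMap k K x) = ((φ x : ℝ) : ℂ) := by
  obtain ⟨R', hR'⟩ := exists_rdata_of (D := D) hS hn hdeg hφ
  obtain ⟨i, hi | hi⟩ := hc R'.s R'.hs
  · exact ⟨i, fun x => by rw [hi]; exact hR' x⟩
  · refine ⟨i, fun x => ?_⟩
    rw [hi, hR', Complex.star_def, Complex.conj_ofReal]

/-- Congruence at one datum above a real place gives congruence at all data above it. -/
theorem cong_of_phi (hS : Setting k K D d s) (hn : 0 < n) (hdeg : finrank K D = n ^ 2)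
    {ι : Type} {R : ι → RData K D n} (hc : Complete R) (hd : Dense R) {φ : k →+* ℝ} {i : ι}
    (hi : ∀ x, (R i).s (algebraMap k K x) = ((φ x : ℝ) : ℂ)) {R' : RData K D n}
    (hR' : ∀ x, R'.s (algebraMap k K x) = ((φ x : ℝ) : ℂ)) {c e : D} (h : (R i).CongAt c e) :
    R'.CongAt c e := by
  have := hS.fin
  have := hS.cen
  have : StarModule K D := ⟨hS.star_smul⟩
  obtain ⟨j, hj⟩ := hc R'.s R'.hs
  have hjφ : ∀ x, (R j).s (algebraMap k K x) = ((φ x : ℝ) : ℂ) := by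
    intro x
    rcases hj with hj | hj
    · rw [hj]
      exact hR' x
    · rw [hj, hR', Complex.star_def, Complex.conj_ofReal]
  obtain rfl : i = j := Three.phi_inj hn hdeg hS hd hi hjφ
  rcases hj with hj | hj
  · exact h.of_eq hn hdeg hj
  · refine h.conj.of_eq hn hdeg ?_
    ext z
    rw [RData.conj_s, hj, star_star]

/-- STEP a. -/
theorem stepA (hS : Setting k K D d s) (hn : 2 ≤ n) (hdeg : finrank K D = n ^ 2)
    {ι : Type} [Fintype ι] {R : ι → RData K D n} (hc : Complete R) (hd : Dense R)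
    (_hA : ∀ i, (R i).A.PosDef) {b m r₀ r₀' : D} (hb : star b = b) (hm : star m = m)
    (hr : star r₀ = r₀) (hr' : star r₀' = r₀') (hb0 : b ≠ 0) (hm0 : m ≠ 0) (hr0 : r₀ ≠ 0)
    (hr0' : r₀' ≠ 0) (hbp : ∀ i, (R i).PosAt b) (hmb : ∀ i, (R i).PosAt (4 * m - b))
    (hsig : ∀ i, (R i).CongAt r₀ r₀')
    {V : Set (HeightOneSpectrum (𝓞 k))} (hV : V.Finite) (hVns : ∀ v ∈ V, d ∉ LS (v.valuation k))
    (hne : V.Nonempty ∨ ∃ φ : k →+* ℝ, φ d < 0) :
    ∃ t p : D, t ≠ 0 ∧ p ≠ 0 ∧ b + t * r₀ * star t = p * r₀' * star p ∧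
      (∀ i, (R i).PosAt (4 * m + t * r₀ * star t)) ∧
      Nice k d n V (m⁻¹ * (t * r₀ * star t)) := by
  classical
  have hn0 : 0 < n := by omega
  have := hS.fin
  have := hS.cen
  have : StarModule K D := ⟨hS.star_smul⟩
  have hfk := hS.fin_k
  let B := Module.finBasis k D
  obtain ⟨f⟩ := Vale.Agent.P011S.exists_split (K := K) (D := D) hdeg (AlgebraicClosure K)
  have hdet : ∀ x : D, x ≠ 0 → (f x).det ≠ 0 := by
    intro x hx h0
    have h1 : f x * f x⁻¹ = 1 := by rw [← map_mul, mul_inv_cancel₀ hx, map_one]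
    have h2 := congrArg Matrix.det h1
    rw [Matrix.det_mul, h0, zero_mul, Matrix.det_one] at h2
    exact zero_ne_one h2
  have hnrd : ∀ x : D, x ≠ 0 → star x = x →
      ∃ ν : kˣ, (f x).det = algebraMap K (AlgebraicClosure K) (algebraMap k K ν) := by
    intro x hx0 hx
    obtain ⟨ν, hν⟩ := exists_nrd hn0 hdeg f x
    obtain ⟨ν', rfl⟩ := (hS.fix ν).mp (star_nrd hn0 hdeg hS.star_alg f hx hν)
    refine ⟨Units.mk0 ν' ?_, hν⟩
    rintro rfl
    rw [map_zero, map_zero] at hν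
    exact hdet x hx0 hν
  obtain ⟨ν0, hν0⟩ := hnrd r₀ hr0 hr
  obtain ⟨ν1, hν1⟩ := hnrd r₀' hr0' hr'
  have hinj : ∀ {ν ν' : kˣ}, algebraMap K (AlgebraicClosure K) (algebraMap k K ν) =
      algebraMap K (AlgebraicClosure K) (algebraMap k K ν') → ν = ν' := fun {ν ν'} h =>
    Units.ext ((algebraMap k K).injective ((algebraMap K (AlgebraicClosure K)).injective h))
  -- the local data
  obtain ⟨P, hP⟩ : ∃ P : Pl k → D → Prop, ∀ p r, P p r ↔
      (r ≠ 0 ∧ b + r ≠ 0 ∧ LinearIndependent k (fun i : Fin n => (m⁻¹ * r) ^ (i : ℕ)) ∧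
      (∀ v, p = Sum.inl v →
        (∀ ν : kˣ, (f r).det = algebraMap K (AlgebraicClosure K) (algebraMap k K ν) →
          ν * ν0 ∈ NF d ⊔ LS (v.valuation k)) ∧
        (∀ ν : kˣ, (f (b + r)).det = algebraMap K (AlgebraicClosure K) (algebraMap k K ν) →
          ν * ν1 ∈ NF d ⊔ LS (v.valuation k)) ∧
        ∀ (E : Type) [Field E] [NumberField E] [Algebra k E] (θ : E), finrank k E = n →
          (minpoly k θ).natDegree = n → aeval (m⁻¹ * r) (minpoly k θ) = 0 →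
          TotSplit E v ∧ ∃ w : HeightOneSpectrum (𝓞 E), Ab w v ∧
            ∀ c : Eˣ, (c : E) = θ⁻¹ + 4⁻¹ → c ∉ LS (w.valuation E)) ∧
      (∀ φ, p = Sum.inr φ → ∀ i, (∀ x, (R i).s (algebraMap k K x) = ((φ x : ℝ) : ℂ)) →
        (R i).CongAt r₀ r ∧ (R i).CongAt r₀' (b + r) ∧ (R i).PosAt (4 * m + r) ∧
        ∀ q : k[X], q.Monic → q.natDegree = n → aeval (m⁻¹ * r) q = 0 →
          ∃ ρ : Fin n → ℝ, Function.Injective ρ ∧ q.map φ = ∏ i, (X - C (ρ i)))) :=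
    ⟨_, fun _ _ => Iff.rfl⟩
  have hloc : ∀ p : Pl k, ∃ (R0 : D) (δ : ℝ), 0 < δ ∧ ((d ∉ LSp p ∧
      ((∃ v, p = Sum.inl v) ∨ ∃ φ : k →+* ℝ, p = Sum.inr φ)) → star R0 = R0 ∧
      ∀ r : D, star r = r → (∀ j, plAbv p (B.repr (r - R0) j) < δ) → P p r) := by
    rintro (v | φ)
    · by_cases hv : d ∈ LSp (Sum.inl v)
      · exact ⟨0, 1, one_pos, fun h => absurd hv h.1⟩
      · obtain ⟨R0, δ, hδ, hR0, h⟩ := fin_pre hS hn hdeg B f hm hb hm0 hb0 v hv ν0 ν1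
        refine ⟨R0, δ, hδ, fun _ => ⟨hR0, fun r hr1 hr2 => ?_⟩⟩
        obtain ⟨h1, h2, h3, h4, h5, h6⟩ := h r hr2
        rw [hP]
        refine ⟨h1, h2, h5, fun v' hv' => ?_, fun φ hφ => absurd hφ Sum.inl_ne_inr⟩
        obtain rfl := Sum.inl_injective hv'
        exact ⟨h3, h4, h6⟩
    · by_cases hφ : φ d < 0
      · obtain ⟨i, hi⟩ := exists_above hS hn0 hdeg hc hφ
        obtain ⟨R0, δ, hδ, hR0, h⟩ := real_pre_loc hS hn0 hdeg B hm hb hr hr0 hφ (R i) hi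
          (hbp i) (hmb i) (hsig i)
        refine ⟨R0, δ, hδ, fun _ => ⟨hR0, fun r hr1 hr2 => ?_⟩⟩
        obtain ⟨h1, h2, h3, h4, -, h6, h7, -, h9⟩ := h r hr1 hr2
        rw [hP]
        refine ⟨h1, h2, h7, fun v hv => absurd hv Sum.inr_ne_inl, fun φ' hφ' j hj => ?_⟩
        obtain rfl := Sum.inr_injective hφ'
        obtain rfl : i = j := Three.phi_inj hn0 hdeg hS hd hi hj
        refine ⟨h3, h4, h6, fun q hq1 hq2 hq3 => ?_⟩
        obtain ⟨ρ, hρ1, hρ2, -⟩ := h9 q hq1 hq2 hq3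
        exact ⟨ρ, hρ1, hρ2⟩
      · exact ⟨0, 1, one_pos, fun h => absurd h.1 (fun h1 => hφ (notMem_LSR.mp h1))⟩
  choose R0 δ hδ hR0 using hloc
  -- the places
  obtain ⟨T, hTd⟩ : ∃ T : Set (Pl k), T = {p | p ∈ SP V ∧ d ∉ LSp p} := ⟨_, rfl⟩
  have hTmem : ∀ p, p ∈ T ↔ p ∈ SP V ∧ d ∉ LSp p := fun p => by rw [hTd]; exact Iff.rfl
  have hTf : T.Finite := (SP_finite hV).subset fun p hp => ((hTmem p).mp hp).1
  have hTV : ∀ v ∈ V, Sum.inl v ∈ T := fun v hv => (hTmem _).mpr ⟨inl_mem_SP.mpr hv, hVns v hv⟩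
  have hTr : ∀ φ : k →+* ℝ, φ d < 0 → Sum.inr φ ∈ T := fun φ hφ =>
    (hTmem _).mpr ⟨inr_mem_SP, notMem_LSR.mpr hφ⟩
  have hTne : T.Nonempty := by
    rcases hne with ⟨v, hv⟩ | ⟨φ, hφ⟩
    · exact ⟨_, hTV v hv⟩
    · exact ⟨_, hTr φ hφ⟩
  have hcond : ∀ p ∈ T, d ∉ LSp p ∧ ((∃ v, p = Sum.inl v) ∨ ∃ φ : k →+* ℝ, p = Sum.inr φ) := by
    intro p hp
    refine ⟨((hTmem p).mp hp).2, ?_⟩
    rcases p with v | φ
    · exact Or.inl ⟨v, rfl⟩
    · exact Or.inr ⟨φ, rfl⟩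
  have hRs : ∀ p ∈ T, star (R0 p) = R0 p := fun p hp => (hR0 p (hcond p hp)).1
  have hPR : ∀ p ∈ T, P p (R0 p) := fun p hp => (hR0 p (hcond p hp)).2 _ (hRs p hp) fun j => by
    rw [sub_self, map_zero, Finsupp.zero_apply, AbsoluteValue.map_zero]
    exact hδ p
  obtain ⟨t, x, ht, hx, hxt, hclose⟩ := dense_core hS hn hdeg B f hb hr hr' hb0 hr0 hr0' hTf hTne
    (fun p hp => ((hTmem p).mp hp).2) hTr R0 δ hδ hRs (fun p hp => ((hP _ _).mp (hPR p hp)).1)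
    (fun p hp => ((hP _ _).mp (hPR p hp)).2.1)
    (fun v hv ν ν' hν hν' => by
      rw [hν0] at hν
      rw [← hinj hν, mul_comm]
      exact (((hP _ _).mp (hPR _ hv)).2.2.2.1 v rfl).1 ν' hν')
    (fun v hv ν ν' hν hν' => by
      rw [hν1] at hν
      rw [← hinj hν, mul_comm]
      exact (((hP _ _).mp (hPR _ hv)).2.2.2.1 v rfl).2.1 ν' hν')
    (fun φ hφ R' hR' => by
      have hφ' : φ d < 0 := notMem_LSR.mp ((hTmem _).mp hφ).2
      obtain ⟨i, hi⟩ := exists_above hS hn0 hdeg hc hφ'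
      have h1 := ((hP _ _).mp (hPR _ hφ)).2.2.2.2 φ rfl i hi
      exact ⟨cong_of_phi hS hn0 hdeg hc hd hi hR' h1.1,
        cong_of_phi hS hn0 hdeg hc hd hi hR' h1.2.1⟩)
  have hrs : star (t * r₀ * star t) = t * r₀ * star t := by
    rw [star_mul, star_mul, star_star, hr, mul_assoc]
  have hPr : ∀ p ∈ T, P p (t * r₀ * star t) := fun p hp =>
    (hR0 p (hcond p hp)).2 _ hrs (hclose p hp)
  refine ⟨t, x, ht, hx, hxt, fun i => ?_, ?_, fun v hv => ?_, fun φ hφ => ?_⟩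
  · obtain ⟨φ, hφ, hφd⟩ := exists_phi hS (R i)
    exact (((hP _ _).mp (hPr _ (hTr φ hφd))).2.2.2.2 φ rfl i hφ).2.2.1
  · obtain ⟨p, hp⟩ := hTne
    exact ((hP _ _).mp (hPr p hp)).2.2.1
  · exact (((hP _ _).mp (hPr _ (hTV v hv))).2.2.2.1 v rfl).2.2
  · obtain ⟨i, hi⟩ := exists_above hS hn0 hdeg hc hφ
    exact (((hP _ _).mp (hPr _ (hTr φ hφ))).2.2.2.2 φ rfl i hi).2.2.2

end Vale.Agent.P011.Two2
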