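import Vale.Agent.P011.Three.Norm

/-!
Normalisation of the involution and of the form, for forms of rank at least two.
-/

open Module Matrix
open scoped ComplexOrder

set_option linter.unusedSectionVars false

namespace Vale.Agent.P011.Two2

open Vale.Agent.P011S Vale.Agent.P011.RP Vale.Agent.P011.T2 Vale.Agent.P011.Three

/-- The theorem for normalised forms of rank `m`. -/
def NormTopM (m : ℕ) : Prop :=
  ∀ (K D : Type) [Field K] [NumberField K] [StarRing K] [DivisionRing D] [StarRing D]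
    [Algebra K D] [StarModule K D] [FiniteDimensional K D] [Algebra.IsCentral K D]
    (_ : ∃ k : K, star k ≠ k) (n : ℕ) (_ : 2 ≤ n) (_ : finrank K D = n ^ 2)
    (F : Type) [Field F] [Algebra K F] (f : D →ₐ[K] Matrix (Fin n) (Fin n) F)
    (H : Matrix (Fin m) (Fin m) D) (_ : IsAnisotropicForm H)
    (ι : Type) [Fintype ι] (R : ι → RData K D n) (_ : Complete R) (_ : Dense R)
    (_ : ∀ i, (R i).A.PosDef) (_ : ∀ i, PosDim (R i) H n) (N : Subgroup (SU f H)) [N.Normal]
    (_ : N.index ≠ 0), N = ⊤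

/-- Reduction to normalised forms. -/
theorem of_normM {m : ℕ} (hm : 2 ≤ m) (h : NormTopM m) {K D : Type} [Field K] [NumberField K]
    [StarRing K] [DivisionRing D] [StarRing D] [Algebra K D] [StarModule K D]
    [FiniteDimensional K D] [Algebra.IsCentral K D] (hK : ∃ k : K, star k ≠ k) {n : ℕ}
    (hn : 2 ≤ n) (hdeg : finrank K D = n ^ 2) {F : Type} [Field F] [Algebra K F]
    (f : D →ₐ[K] Matrix (Fin n) (Fin n) F) (H : Matrix (Fin m) (Fin m) D)
    (hH : IsAnisotropicForm H) (N : Subgroup (SU f H)) [N.Normal]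
    (hN : N.index ≠ 0) : N = ⊤ := by
  classical
  have hn0 : 0 < n := by omega
  have hchar : CharZero D := charZero_of_injective_algebraMap (algebraMap K D).injective
  obtain ⟨ι, _, R, hc, hd⟩ := exists_family (D := D) hK hn0 hdeg
  have hHu : IsUnit H := isUnit_of_anis hH
  obtain ⟨ε, u, hu⟩ := exists_plane (q := 1) R hd (by omega) hH.1 hHu
  obtain ⟨a, ha, ha0, haP⟩ : ∃ a : D, star a = a ∧ a ≠ 0 ∧
      ∀ i, ((((ε i : ℤˣ) : ℤ) : ℂ) • ((R i).f a * (R i).A)).PosDef := by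
    rcases isEmpty_or_nonempty ι with hι | ⟨⟨i0⟩⟩
    · exact ⟨1, star_one D, one_ne_zero, fun i => (hι.false i).elim⟩
    · obtain ⟨a, ha, haP⟩ := exists_definite R hd ε
      refine ⟨a, ha, ?_, haP⟩
      rintro rfl
      have h1 := (haP i0).diag_pos (i := ⟨0, hn0⟩)
      rw [map_zero, zero_mul, smul_zero, Matrix.zero_apply] at h1
      exact lt_irrefl _ h1
  refine tw_congr (SU_twist a ha0 ha f H) (fun N hN hi => ?_) N ‹_› hN
  refine @h K D _ _ _ _ (twist a ha0 ha) _ (twist_module a ha0 ha) _ _ hK n hn hdeg F _ _ f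
    (Vale.Agent.P011.T2.tw a H) (anis_twist a ha0 ha hH) ι _
    (fun i => (R i).tw a ha0 ha (ε i)) hc hd haP (fun i => ?_) N hN hi
  obtain ⟨u', hu'⟩ : ∃ u' : Fin m → D, u' = fun b => u 0 b * a⁻¹ := ⟨_, rfl⟩
  have h1 := @U1_gram K D _ _ _ (twist a ha0 ha) _ n m (twist_module a ha0 ha) _ _
    ((R i).tw a ha0 ha (ε i)) (Vale.Agent.P011.T2.tw a H) u' u'
  refine ⟨@U1 K D _ _ _ (twist a ha0 ha) _ n m ((R i).tw a ha0 ha (ε i)) u', ?_⟩
  rw [h1, hu', rowH_tw]
  have h2 := hu i (fun _ => 1) (fun h => one_ne_zero (congrFun h 0))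
  have e1 : (fun b => ∑ c : Fin 1, (1 : D) * u c b) = u 0 := by
    funext b
    simp
  rw [e1] at h2
  change ((R i).f (rowH H (u 0) (u 0) * a⁻¹) *
    ((((ε i : ℤˣ) : ℤ) : ℂ) • ((R i).f a * (R i).A))).PosDef
  rw [mul_smul_comm, ← mul_assoc, ← map_mul, mul_assoc, inv_mul_cancel₀ ha0, mul_one]
  exact h2

end Vale.Agent.P011.Two2
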