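import Mathlib.Algebra.Star.SelfAdjoint
import Mathlib.Algebra.Field.Basic

/-!
The quantities attached to a sesquilinear plane with the lines `x` (value `z`) and `x + x₂`
(value `z * r`), where `x₂` (value `z₂`) is the complement of `x`.
-/

namespace Vale.Agent.P011.Two2

variable {D : Type*} [DivisionRing D] [StarRing D]

/-- The hermitian product of `x` and `x + x₂`. -/
def ee (z z₂ r : D) : D := star z + z * r - z₂

/-- The hermitian product of `x` and `x₂`. -/
def ee' (z z₂ r : D) : D := z * r - z - z₂

/-- The length of the hermitian complement of `x`. -/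
def b₀ (z z₂ r : D) : D :=
  z * r + star (z * r) - star (ee z z₂ r) * (z + star z)⁻¹ * ee z z₂ r

/-- The length of the hermitian complement of `x + x₂`. -/
def bb (z z₂ r : D) : D :=
  z + star z - ee z z₂ r * (z * r + star (z * r))⁻¹ * star (ee z z₂ r)

/-- The length of the hermitian complement of `x₂`. -/
def b₂ (z z₂ r : D) : D :=
  z + star z - ee' z z₂ r * (z₂ + star z₂)⁻¹ * star (ee' z z₂ r)

/-- The length of the vector which represents the form `W(·, x)`. -/
def mm (z z₂ r : D) : D := star z * (b₂ z z₂ r)⁻¹ * z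

/-- The nondegeneracy conditions. -/
def ND (z z₂ r : D) : Prop :=
  z + star z ≠ 0 ∧ z * r + star (z * r) ≠ 0 ∧ z₂ + star z₂ ≠ 0 ∧
  star r * z₂ + star (star r * z₂) ≠ 0 ∧ ee z z₂ r ≠ 0 ∧ b₀ z z₂ r ≠ 0

end Vale.Agent.P011.Two2
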