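import Vale.Agent.P011.Two2.LemB2
import Vale.Agent.P011.Two2.Defs

/-!
If there is a real place, positivity implies all nondegeneracy conditions of the exchange
relation.
-/

open Module Matrix Topology
open scoped ComplexOrder

set_option linter.unusedSectionVars false

namespace Vale.Agent.P011.Two2

open Vale.Agent.P011S Vale.Agent.P011.RP Vale.Agent.P011.Three

variable {K D : Type} [Field K] [StarRing K] [DivisionRing D] [StarRing D] [Algebra K D]
  [StarModule K D] [FiniteDimensional K D] [Algebra.IsCentral K D] {n : ℕ} {ι : Type}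

theorem pos_conj_add {R : RData K D n} {a b : D} (ha : R.PosAt a) (hb : R.PosAt b) (g : D) :
    R.PosAt (g * a * star g + b) := by
  by_cases hg : g = 0
  · rw [hg, zero_mul, zero_mul, zero_add]; exact hb
  · exact pos_add (pos_conj ha hg) hb

/-- The value of the vector `(p, -1)` in terms of the Schur complement. -/
theorem value_eq {a e β p : D} (ha : a ≠ 0) (has : star a = a) :
    p * a * star p - p * e - star e * star p + β =
      (p - star e * a⁻¹) * a * star (p - star e * a⁻¹) + (β - star e * a⁻¹ * e) := by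
  have h1 : star (p - star e * a⁻¹) = star p - a⁻¹ * e := by
    rw [star_sub, star_mul, star_star, star_inv₀, has]
  have h2 : (p - star e * a⁻¹) * a = p * a - star e := by
    rw [sub_mul, mul_assoc (star e), inv_mul_cancel₀ ha, mul_one]
  rw [h1, h2, sub_mul, mul_sub, mul_sub, mul_assoc p a (a⁻¹ * e), mul_inv_cancel_left₀ ha,
    mul_assoc (star e) a⁻¹ e]
  abel

theorem all_pos (hn : 0 < n) {R : RData K D n} {z z₂ r : D} (h1 : R.PosAt (z + star z))
    (h2 : R.PosAt (b₀ z z₂ r)) :
    R.PosAt (z * r + star (z * r)) ∧ R.PosAt (z₂ + star z₂) ∧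
      R.PosAt (star r * z₂ + star (star r * z₂)) := by
  have ha : z + star z ≠ 0 := ne_zero_of_pos hn h1
  have has : star (z + star z) = z + star z := by rw [star_add, star_star, add_comm]
  have key : ∀ p : D, R.PosAt (p * (z + star z) * star p - p * ee z z₂ r -
      star (ee z z₂ r) * star p + (z * r + star (z * r))) := by
    intro p
    rw [value_eq ha has]
    exact pos_conj_add h1 h2 _
  refine ⟨?_, ?_, ?_⟩
  · have := key 0
    simpa using this
  · have := key 1
    have e1 : 1 * (z + star z) * star 1 - 1 * ee z z₂ r - star (ee z z₂ r) * star 1 +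
        (z * r + star (z * r)) = z₂ + star z₂ := by
      rw [star_one, one_mul, mul_one, one_mul, mul_one, ee, star_sub, star_add, star_star]
      abel
    rwa [e1] at this
  · have := key (star r)
    have e1 : star r * (z + star z) * star (star r) - star r * ee z z₂ r -
        star (ee z z₂ r) * star (star r) + (z * r + star (z * r)) =
          star r * z₂ + star (star r * z₂) := by
      rw [star_star, ee, star_sub, star_add, star_star, star_mul, star_mul, star_star]
      simp only [mul_add, add_mul, mul_sub, sub_mul, mul_assoc]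
      abel
    rwa [e1] at this

theorem nd_of_pos [Nonempty ι] (hn : 0 < n) {R : ι → RData K D n} {z z₂ r : D}
    (h1 : ∀ i, (R i).PosAt (z + star z)) (h2 : ∀ i, (R i).PosAt (b₀ z z₂ r))
    (he : ee z z₂ r ≠ 0) : ND z z₂ r := by
  obtain ⟨i⟩ := (inferInstance : Nonempty ι)
  obtain ⟨h3, h4, h5⟩ := all_pos hn (h1 i) (h2 i)
  exact ⟨ne_zero_of_pos hn (h1 i), ne_zero_of_pos hn h3, ne_zero_of_pos hn h4,
    ne_zero_of_pos hn h5, he, ne_zero_of_pos hn (h2 i)⟩

variable {A : Type} [CommGroup A]

/-- The exchange relation with the explicit nondegeneracy conditions implies the one without. -/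
theorem thmS_of_nd [Nonempty ι] (hn : 0 < n) {R : ι → RData K D n} {ψ : D → A}
    (h : ∀ z z₂ r : D, ND z z₂ r → (∀ i, (R i).PosAt (z + star z)) →
      (∀ i, (R i).PosAt (b₀ z z₂ r)) →
      ((∃ g : D, g ≠ 0 ∧ star r * z₂ + star (star r * z₂) = g * (z + star z) * star g) ∨
        ∃ g : D, g ≠ 0 ∧ z₂ + star z₂ = g * (z * r + star (z * r)) * star g) →
      ψ z * ψ z₂ = ψ (z * r) * ψ (star r * z₂)) : ThmS R ψ :=
  fun z z₂ r h1 h2 he hg => h z z₂ r (nd_of_pos hn h1 h2 he) h1 h2 hg

/-- **Lemma B** for a form of rank two, from the exchange relation with the explicit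
nondegeneracy conditions. -/
theorem lemB2_of_nd [CharZero K] [Fintype ι] [Nonempty ι] (hK : ∃ k : K, star k ≠ k)
    (hn : 0 < n) (hdeg : finrank K D = n ^ 2) {R : ι → RData K D n} (hd : RP.Dense R)
    {ψ : D → A}
    (h : ∀ z z₂ r : D, ND z z₂ r → (∀ i, (R i).PosAt (z + star z)) →
      (∀ i, (R i).PosAt (b₀ z z₂ r)) →
      ((∃ g : D, g ≠ 0 ∧ star r * z₂ + star (star r * z₂) = g * (z + star z) * star g) ∨
        ∃ g : D, g ≠ 0 ∧ z₂ + star z₂ = g * (z * r + star (z * r)) * star g) →
      ψ z * ψ z₂ = ψ (z * r) * ψ (star r * z₂)) {z z' r : D}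
    (hz : XX R z) (hz' : XX R z') (hzr : XX R (z * r)) (hzr' : XX R (z' * r)) :
    ψ (z * r) * (ψ z)⁻¹ = ψ (z' * r) * (ψ z')⁻¹ :=
  lemB2 hK hn hdeg hd (thmS_of_nd hn h) hz hz' hzr hzr'

end Vale.Agent.P011.Two2
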