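import Vale.Agent.P011.Three.Main
import Vale.Agent.P011.Two2.NormM
import Vale.Agent.P011.Two2.Bridge
import Vale.Agent.P011.Two2.EmptyB

/-!
Rank at least two: a subgroup of finite index is the whole group, given the exchange relation
in rank two.
-/

open Module Matrix
open scoped ComplexOrder

set_option linter.unusedSectionVars false

namespace Vale.Agent.P011.Two2

open Vale.Agent.P011S Vale.Agent.P011.RP Vale.Agent.P011.Two.Hi Vale.Agent.P011.Three

/-- The exchange relation in rank two (Theorem S). -/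
def ThmSStmt : Prop :=
  ∀ (K D : Type) [Field K] [NumberField K] [StarRing K] [DivisionRing D] [StarRing D]
    [Algebra K D] [StarModule K D] [FiniteDimensional K D] [Algebra.IsCentral K D]
    (_ : ∃ k : K, star k ≠ k) (n : ℕ) (_ : 2 ≤ n) (_ : finrank K D = n ^ 2)
    (ι : Type) [Fintype ι] (R : ι → RData K D n) (_ : Complete R) (_ : RP.Dense R)
    (_ : ∀ i, (R i).A.PosDef) (H : Matrix (Fin 2) (Fin 2) D) (hH : IsAnisotropicForm H)
    (_ : ∀ i, PosDim (R i) H n) (A : Type) [CommGroup A] (χ : (rowA H hH).isom →* A)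
    (z z₂ r : D) (_ : ND z z₂ r) (_ : ∀ i, (R i).PosAt (z + star z))
    (_ : ∀ i, (R i).PosAt (b₀ z z₂ r))
    (_ : (∃ g : D, g ≠ 0 ∧ star r * z₂ + star (star r * z₂) = g * (z + star z) * star g) ∨
      (∃ g : D, g ≠ 0 ∧ z₂ + star z₂ = g * (z * r + star (z * r)) * star g)),
    psi (rowA H hH) χ z * psi (rowA H hH) χ z₂ =
      psi (rowA H hH) χ (z * r) * psi (rowA H hH) χ (star r * z₂)

/-- Normalised forms of rank two. -/
theorem normTop_two (hS : ThmSStmt) : NormTopM 2 := by
  intro K D _ _ _ _ _ _ _ _ _ hK n hn hdeg F _ _ f H hH ι _ R hc hd hA hH1 N _ hN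
  have hn0 : 0 < n := by omega
  have hchar : CharZero D := charZero_of_injective_algebraMap (algebraMap K D).injective
  refine top_of_B hK hn hdeg f le_rfl H hH hc hd hA hH1 N hN ?_
  intro A _ χ _ z z' r hz hz' hzr hzr'
  rcases isEmpty_or_nonempty ι with hι | hι
  · exact lemB_empty hK hn0 f
      (fun z z₂ r h1 h2 h3 h4 h5 h6 h7 => hS K D hK n hn hdeg ι R hc hd hA H hH hH1 A χ z z₂ r
        ⟨h1, h2, h3, h4, h5, h6⟩ (fun i => (hι.false i).elim) (fun i => (hι.false i).elim) h7)
      hz.1 hz'.1 hzr.1 hzr'.1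
  · exact lemB2_of_nd hK hn0 hdeg hd
      (fun z z₂ r h1 h2 h3 h4 => hS K D hK n hn hdeg ι R hc hd hA H hH hH1 A χ z z₂ r
        h1 h2 h3 h4) hz.2 hz'.2 hzr.2 hzr'.2

/-- **Rank at least two.** Subgroups of finite index, given the exchange relation. -/
theorem top_of_rank_two_of (hS : ThmSStmt) {K D : Type} [Field K] [NumberField K] [StarRing K]
    [DivisionRing D] [StarRing D] [Algebra K D] [StarModule K D] [FiniteDimensional K D]
    [Algebra.IsCentral K D] (hK : ∃ k : K, star k ≠ k) {n : ℕ} (hn : 2 ≤ n)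
    (hdeg : finrank K D = n ^ 2) {F : Type} [Field F] [Algebra K F]
    (f : D →ₐ[K] Matrix (Fin n) (Fin n) F) {m : ℕ} (hm : 2 ≤ m)
    (H : Matrix (Fin m) (Fin m) D) (hH : IsAnisotropicForm H) (N : Subgroup (SU f H)) [N.Normal]
    (hN : N.index ≠ 0) : N = ⊤ := by
  rcases hm.lt_or_eq with h | h
  · exact top_of_rank_three hK hn hdeg f h H hH N hN
  · subst h
    exact of_normM le_rfl (normTop_two hS) hK hn hdeg f H hH N hN

end Vale.Agent.P011.Two2
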