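import Vale.Agent.P011.Two2.ThmS
import Vale.Agent.P011.Two2.Asm

/-!
The special unitary groups of anisotropic hermitian forms of rank at least two over a
noncommutative division algebra have no proper subgroups of finite index.
-/

open Module Matrix

namespace Vale.Agent.P011.Two2

open Vale.Agent.P011S

theorem thmSStmt : ThmSStmt :=
  fun _ _ _ _ _ _ _ _ _ _ _ hK _ hn hdeg _ _ _ hc hd hA _ hH hH1 _ _ χ _ _ _ hnd h1 h2 h3 =>
    thmS hK hn hdeg hc hd hA hH hH1 χ hnd h1 h2 h3

/-- **Rank at least two.** Every normal subgroup of finite index is the whole group. -/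
theorem top_of_rank_two {K D : Type} [Field K] [NumberField K] [StarRing K]
    [DivisionRing D] [StarRing D] [Algebra K D] [StarModule K D] [FiniteDimensional K D]
    [Algebra.IsCentral K D] (hK : ∃ k : K, star k ≠ k) {n : ℕ} (hn : 2 ≤ n)
    (hdeg : finrank K D = n ^ 2) {F : Type} [Field F] [Algebra K F]
    (f : D →ₐ[K] Matrix (Fin n) (Fin n) F) {m : ℕ} (hm : 2 ≤ m)
    (H : Matrix (Fin m) (Fin m) D) (hH : IsAnisotropicForm H) (N : Subgroup (SU f H)) [N.Normal]
    (hN : N.index ≠ 0) : N = ⊤ :=
  top_of_rank_two_of thmSStmt hK hn hdeg f hm H hH N hN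

/-- **Rank at least two.** Every subgroup of finite index is the whole group. -/
theorem top_of_index {K D : Type} [Field K] [NumberField K] [StarRing K]
    [DivisionRing D] [StarRing D] [Algebra K D] [StarModule K D] [FiniteDimensional K D]
    [Algebra.IsCentral K D] (hK : ∃ k : K, star k ≠ k) {n : ℕ} (hn : 2 ≤ n)
    (hdeg : finrank K D = n ^ 2) {F : Type} [Field F] [Algebra K F]
    (f : D →ₐ[K] Matrix (Fin n) (Fin n) F) {m : ℕ} (hm : 2 ≤ m)
    (H : Matrix (Fin m) (Fin m) D) (hH : IsAnisotropicForm H) (N : Subgroup (SU f H))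
    (hN : N.index ≠ 0) : N = ⊤ := by
  have h1 : N.FiniteIndex := ⟨hN⟩
  have h2 : N.normalCore = ⊤ :=
    top_of_rank_two hK hn hdeg f hm H hH N.normalCore N.normalCore.index_ne_zero_of_finite
  exact top_le_iff.mp (h2 ▸ N.normalCore_le)

end Vale.Agent.P011.Two2
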