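import Vale.Agent.P011.Even.R2

/-!
Positivity of the values of a polynomial at the eigenvalues.
-/

open Module Matrix Polynomial NumberField IsDedekindDomain
open Vale.Agent.P011.RP (RData HasR1 HasR2)
open scoped ComplexOrder

namespace Vale.Agent.P011.Two2

open Vale.Agent.P011.Arith Vale.Agent.P011.Even

section main

variable {k K D : Type} [Field k] [NumberField k] [Field K] [NumberField K] [StarRing K]
    [DivisionRing D] [StarRing D] [Algebra k K] [Algebra k D] [Algebra K D] [IsScalarTower k K D]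
    {d : kˣ} {s : K} {n : ℕ}

omit [NumberField K] in
/-- The characteristic polynomial at a real place. -/
theorem charpoly_real (hS : Setting k K D d s) (hn : 0 < n) (hdeg : finrank K D = n ^ 2)
    (R : RData K D n) {φ : k →+* ℝ} (hφ : ∀ a, R.s (algebraMap k K a) = ((φ a : ℝ) : ℂ))
    {c0 z : D} (h00 : c0 ≠ 0) (hz : star z = c0 * z * c0⁻¹)
    (hli : LinearIndependent k (fun i : Fin n => z ^ (i : ℕ))) :
    (R.f z).charpoly = ((minpoly k z).map φ).map (algebraMap ℝ ℂ) := by
  have := hS.fin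
  have := hS.cen
  have := hS.fin_k
  obtain ⟨f0⟩ := Vale.Agent.P011S.exists_split (K := K) (D := D) hdeg (AlgebraicClosure K)
  obtain ⟨h1, h2⟩ := minpoly_map hS hn hdeg f0 h00 hz hli
  let _ : Algebra K ℂ := R.s.toAlgebra
  let f : D →ₐ[K] Matrix (Fin n) (Fin n) ℂ := { R.f with
    commutes' := fun k => by
      change R.f (algebraMap K D k) = _
      rw [R.hf, Matrix.algebraMap_eq_diagonal]
      rfl }
  have hKli : LinearIndependent K (fun i : Fin n => z ^ (i : ℕ)) := by
    rw [Fintype.linearIndependent_iff]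
    intro a ha i
    let q : K[X] := ∑ i : Fin n, C (a i) * X ^ (i : ℕ)
    have hq : aeval z q = 0 := by
      rw [← ha, map_sum]
      refine Finset.sum_congr rfl fun i _ => ?_
      rw [map_mul, aeval_C, map_pow, aeval_X, Algebra.smul_def]
    have hq0 : q = 0 := by
      by_contra hne
      have h3 := minpoly.degree_le_of_ne_zero K z hne hq
      have h4 : q.degree < n := by
        refine lt_of_le_of_lt (degree_sum_le _ _) ?_
        rw [Finset.sup_lt_iff (by exact_mod_cast WithBot.bot_lt_coe n)]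
        intro i _
        exact lt_of_le_of_lt (degree_C_mul_X_pow_le _ _) (by exact_mod_cast i.2)
      have h5 : (minpoly K z).degree = n := by
        rw [h2, degree_map, degree_eq_natDegree (minpoly.ne_zero (by
          exact Algebra.IsIntegral.isIntegral z)), h1]
      rw [h5] at h3
      exact absurd (lt_of_le_of_lt h3 h4) (lt_irrefl _)
    have hcoeff : q.coeff (i : ℕ) = a i := by
      simp only [q, finsetSum_coeff, coeff_C_mul, coeff_X_pow]
      rw [Finset.sum_eq_single i]
      · simp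
      · intro j _ hj
        rw [if_neg (fun h => hj (Fin.ext h.symm)), mul_zero]
      · intro h; exact absurd (Finset.mem_univ i) h
    rw [← hcoeff, hq0, coeff_zero]
  have h3 := Vale.Agent.P011S.SF.split_indep hn f _ hKli
  have h4 : (minpoly K z).map (algebraMap K ℂ) = ((minpoly k z).map φ).map (algebraMap ℝ ℂ) := by
    rw [h2, Polynomial.map_map, Polynomial.map_map]
    congr 1
    ext a
    exact hφ a
  rw [← h4]
  apply Vale.Agent.P011S.SF.charpoly_unique (f z)
  · have e : (fun i : Fin n => f z ^ (i : ℕ)) = fun i : Fin n => f (z ^ (i : ℕ)) := by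
      funext i
      rw [map_pow]
    rw [e]
    exact h3
  · exact (minpoly.monic (Algebra.IsIntegral.isIntegral z)).map _
  · rw [natDegree_map, h2, natDegree_map, h1]
  · rw [aeval_map_algebraMap, Polynomial.aeval_algHom_apply, minpoly.aeval, map_zero]

omit [NumberField K] in
/-- If `m` and `m q(z)` are positive then `q` is positive at the eigenvalues of `z`. -/
theorem root_pos (hS : Setting k K D d s) (hn : 0 < n) (hdeg : finrank K D = n ^ 2)
    (R : RData K D n) {φ : k →+* ℝ} (hφ : ∀ a, R.s (algebraMap k K a) = ((φ a : ℝ) : ℂ))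
    {m z : D} (hm0 : m ≠ 0) (hz : star z = m * z * m⁻¹)
    (hli : LinearIndependent k (fun i : Fin n => z ^ (i : ℕ)))
    (h1 : (R.f m * R.A).PosDef) {q : k[X]} (h2 : (R.f (m * aeval z q) * R.A).PosDef) {ρ : ℝ}
    (hρ : ((minpoly k z).map φ).eval ρ = 0) : 0 < (q.map φ).eval ρ := by
  have hcp := charpoly_real hS hn hdeg R hφ hm0 hz hli
  -- an eigenvector
  have hdet : (Matrix.scalar (Fin n) (ρ : ℂ) - R.f z).det = 0 := by
    have h3 := Matrix.eval_charpoly (R.f z) (ρ : ℂ)
    rw [← h3, hcp, show ((ρ : ℝ) : ℂ) = algebraMap ℝ ℂ ρ from rfl, Polynomial.eval_map_algebraMap,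
      Polynomial.aeval_algebraMap_apply, Polynomial.coe_aeval_eq_eval, hρ, map_zero]
  obtain ⟨x, hx0, hx⟩ := Matrix.exists_vecMul_eq_zero_iff.mpr hdet
  have hxz : x ᵥ* R.f z = (ρ : ℂ) • x := by
    rw [Matrix.vecMul_sub, sub_eq_zero] at hx
    rw [← hx]
    ext i
    rw [Matrix.scalar_apply, Matrix.vecMul_diagonal, Pi.smul_apply, smul_eq_mul, mul_comm]
  have hxq : ∀ q : k[X], x ᵥ* R.f (aeval z q) = (((q.map φ).eval ρ : ℝ) : ℂ) • x := by
    intro q
    induction q using Polynomial.induction_on' with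
    | add p q hp hq =>
      rw [map_add, map_add, Matrix.vecMul_add, hp, hq, Polynomial.map_add, eval_add,
        Complex.ofReal_add, add_smul]
    | monomial e a =>
      have h3 : x ᵥ* R.f z ^ e = ((ρ : ℂ) ^ e) • x := by
        induction e with
        | zero => rw [pow_zero, pow_zero, Matrix.vecMul_one, one_smul]
        | succ e ih =>
          rw [pow_succ, ← Matrix.vecMul_vecMul, ih, Matrix.smul_vecMul, hxz, smul_smul, pow_succ]
      rw [aeval_monomial, map_mul, map_pow, f_alg R hφ, algebraMap_real, Polynomial.map_monomial,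
        eval_monomial, ← Matrix.vecMul_vecMul]
      have h4 : x ᵥ* (Matrix.scalar (Fin n)) ((φ a : ℝ) : ℂ) = ((φ a : ℝ) : ℂ) • x := by
        ext i
        rw [Matrix.scalar_apply, Matrix.vecMul_diagonal, Pi.smul_apply, smul_eq_mul, mul_comm]
      rw [h4, Matrix.smul_vecMul, h3, smul_smul, Complex.ofReal_mul, Complex.ofReal_pow]
  -- the vector
  obtain ⟨U, hU⟩ := f_unit R hm0
  obtain ⟨Y, hY⟩ : ∃ Y : Fin n → ℂ, Y = x ᵥ* ((U⁻¹ : (Matrix (Fin n) (Fin n) ℂ)ˣ) :
    Matrix (Fin n) (Fin n) ℂ) := ⟨_, rfl⟩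
  have hYU : Y ᵥ* R.f m = x := by
    rw [hY, ← hU, Matrix.vecMul_vecMul, Units.inv_mul, Matrix.vecMul_one]
  have hY0 : Y ≠ 0 := by
    intro h0
    rw [h0, Matrix.zero_vecMul] at hYU
    exact hx0 hYU.symm
  have hsY : star Y ≠ 0 := fun h => hY0 (by rw [← star_star Y, h, star_zero])
  have p1 := h1.dotProduct_mulVec_pos hsY
  have p2 := h2.dotProduct_mulVec_pos hsY
  rw [star_star, Matrix.dotProduct_mulVec, ← Matrix.vecMul_vecMul, hYU] at p1
  rw [star_star, Matrix.dotProduct_mulVec, map_mul, mul_assoc, ← Matrix.vecMul_vecMul, hYU,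
    ← Matrix.vecMul_vecMul, hxq, Matrix.smul_vecMul, smul_dotProduct, smul_eq_mul] at p2
  obtain ⟨t, ht⟩ : ∃ t, t = (x ᵥ* R.A) ⬝ᵥ star Y := ⟨_, rfl⟩
  rw [← ht] at p1 p2
  have q1 := (Complex.lt_def.mp p1).1
  have q2 := (Complex.lt_def.mp p2).1
  rw [Complex.re_ofReal_mul, Complex.zero_re] at q2
  rw [Complex.zero_re] at q1
  exact (mul_pos_iff_of_pos_right q1).mp q2

end main

end Vale.Agent.P011.Two2
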