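import Vale.Agent.P011.Even.Split

/-!
A place at which a generator of a totally split extension is close to a given root.
-/

open NumberField IsDedekindDomain Module

namespace Vale.Agent.P011.Two2

open Vale.Agent.P011.Even Vale.Agent.P011.Arith

variable {F : Type} [Field F] [NumberField F]

section

variable {E : Type} [Field E] [NumberField E] [Algebra F E]

theorem exists_place_of_norm {v : HeightOneSpectrum (𝓞 F)} (θ : E) (δ : Fˣ) (r : F)
    (hN : v.valuation F (Algebra.norm F (θ - algebraMap F E r)) <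
      v.valuation F (δ : F) ^ (finrank F E)) : ∃ w : HeightOneSpectrum (𝓞 E), Ab w v ∧
      w.valuation E (θ - algebraMap F E r) < w.valuation E (algebraMap F E (δ : F)) := by
  by_contra hcon
  push Not at hcon
  by_cases h0 : θ - algebraMap F E r = 0
  · obtain ⟨w, hw⟩ := exists_above (E := E) v
    have h1 := hcon w hw
    rw [h0, map_zero, le_zero_iff] at h1
    exact (Valuation.ne_zero_iff _).mpr ((map_ne_zero _).mpr δ.ne_zero) h1
  · have h1 := val_norm_le v (algebraMap F E (δ : F) / (θ - algebraMap F E r)) fun w hw => by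
      rw [map_div₀, div_le_one₀ (zero_lt_iff.mpr ((Valuation.ne_zero_iff _).mpr h0))]
      exact hcon w hw
    have h2 : Algebra.norm F (algebraMap F E (δ : F) / (θ - algebraMap F E r)) *
        Algebra.norm F (θ - algebraMap F E r) = (δ : F) ^ finrank F E := by
      rw [← map_mul, div_mul_cancel₀ _ h0, Algebra.norm_algebraMap]
    refine absurd hN (not_lt.mpr ?_)
    rw [← map_pow, ← h2, map_mul]
    calc _ ≤ 1 * v.valuation F (Algebra.norm F (θ - algebraMap F E r)) :=
          mul_le_mul' h1 le_rfl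
      _ = _ := one_mul _

end

open Polynomial in
/-- A place at which a generator is close to a given approximate root of its minimal
polynomial. -/
theorem exists_place_near (v : HeightOneSpectrum (𝓞 F)) {n : ℕ} (r : Fin n → F) (i0 : Fin n)
    (δ : Fˣ) : ∃ ε : Z0, ε ≠ 0 ∧ ∀ (E : Type) [Field E] [NumberField E]
      [Algebra F E] (θ : E), finrank F E = n → (minpoly F θ).natDegree = n →
      (∀ k, v.valuation F ((minpoly F θ - ∏ i, (X - C (r i))).coeff k) < ε) →
      ∃ w : HeightOneSpectrum (𝓞 E), Ab w v ∧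
        w.valuation E (θ - algebraMap F E (r i0)) < w.valuation E (algebraMap F E (δ : F)) := by
  classical
  obtain ⟨π, hπ⟩ := exists_val_lt_one v
  obtain ⟨M, hM⟩ : ∃ M : ℕ, ∀ k ≤ n,
      (v.valuation F (π : F)) ^ M * v.valuation F (r i0) ^ k ≤ 1 := by
    have h1 : ∀ k : ℕ, ∃ N : ℕ, (v.valuation F (π : F)) ^ N * v.valuation F (r i0) ^ k ≤ 1 :=
      fun k => exists_pow_mul_le hπ
    choose N hN using h1
    refine ⟨∑ k ∈ Finset.range (n + 1), N k, fun k hk => ?_⟩
    refine le_trans (mul_le_mul' (pow_le_pow_right_of_le_one' hπ.le ?_) le_rfl) (hN k)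
    exact Finset.single_le_sum (f := fun k => N k) (fun _ _ => Nat.zero_le _)
        (Finset.mem_range.mpr (Nat.lt_succ_of_le hk))
  refine ⟨v.valuation F (δ : F) ^ n * v.valuation F (π : F) ^ M,
    mul_ne_zero (pow_ne_zero _ ((Valuation.ne_zero_iff _).mpr δ.ne_zero))
      (pow_ne_zero _ ((Valuation.ne_zero_iff _).mpr π.ne_zero)), ?_⟩
  intro E _ _ _ θ hE hdeg hnear
  subst hE
  refine exists_place_of_norm θ δ (r i0) ?_
  let c := Module.finBasis F E
  have hchar : (Algebra.leftMulMatrix c θ).charpoly = minpoly F θ := by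
    have h1 : minpoly F θ ∣ (Algebra.leftMulMatrix c θ).charpoly := by
      refine minpoly.dvd F θ ?_
      rw [Algebra.leftMulMatrix_apply, LinearMap.charpoly_toMatrix]
      exact Algebra.aeval_self_charpoly_lmul θ
    refine Polynomial.eq_of_monic_of_dvd_of_natDegree_le (minpoly.monic
      (Algebra.IsIntegral.isIntegral θ)) (Matrix.charpoly_monic _) h1 ?_
    rw [Matrix.charpoly_natDegree_eq_dim, hdeg, Fintype.card_fin]
  have hnorm : Algebra.norm F (algebraMap F E (r i0) - θ) = (minpoly F θ).eval (r i0) := by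
    rw [← hchar, Matrix.eval_charpoly, Algebra.norm_eq_matrix_det c, map_sub]
    congr 2
    ext a b
    rw [Algebra.leftMulMatrix_eq_repr_mul, ← Algebra.smul_def, map_smul, Finsupp.smul_apply,
      c.repr_self, Matrix.scalar_apply, Matrix.diagonal_apply, Finsupp.single_apply]
    simp [eq_comm]
  have h0 : (∏ i, (X - C (r i))).eval (r i0) = 0 := by
    rw [Polynomial.eval_prod]
    exact Finset.prod_eq_zero (Finset.mem_univ i0) (by simp)
  have hval : v.valuation F ((minpoly F θ).eval (r i0)) <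
      v.valuation F (δ : F) ^ finrank F E := by
    have h1 : (minpoly F θ).eval (r i0) =
        (minpoly F θ - ∏ i, (X - C (r i))).eval (r i0) := by
      rw [Polynomial.eval_sub, h0, sub_zero]
    rw [h1, Polynomial.eval_eq_sum_range]
    have hpos : 0 < v.valuation F (δ : F) ^ finrank F E :=
      zero_lt_iff.mpr (pow_ne_zero _ ((Valuation.ne_zero_iff _).mpr δ.ne_zero))
    refine Valuation.map_sum_lt _ hpos.ne' fun k hk => ?_
    have hkn : k ≤ finrank F E := by
      have h2 : (minpoly F θ - ∏ i, (X - C (r i))).natDegree ≤ finrank F E := by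
        refine (Polynomial.natDegree_sub_le _ _).trans (max_le hdeg.le ?_)
        refine (Polynomial.natDegree_prod_le _ _).trans ?_
        simp
      exact (Nat.lt_succ_iff.mp (Finset.mem_range.mp hk)).trans h2
    rw [map_mul, map_pow]
    rcases eq_or_ne (v.valuation F (r i0) ^ k) 0 with h3 | h3
    · rw [h3, mul_zero]
      exact hpos
    calc _ < v.valuation F (δ : F) ^ finrank F E * v.valuation F (π : F) ^ M *
          v.valuation F (r i0) ^ k := (mul_lt_mul_iff_left₀ (zero_lt_iff.mpr h3)).mpr (hnear k)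
      _ = v.valuation F (δ : F) ^ finrank F E * (v.valuation F (π : F) ^ M *
          v.valuation F (r i0) ^ k) := mul_assoc _ _ _
      _ ≤ v.valuation F (δ : F) ^ finrank F E * 1 := mul_le_mul' le_rfl (hM k hkn)
      _ = _ := mul_one _
  have hneg : Algebra.norm F (θ - algebraMap F E (r i0)) =
      Algebra.norm F (-1 : E) * Algebra.norm F (algebraMap F E (r i0) - θ) := by
    rw [← map_mul]
    congr 1
    ring
  have hone : v.valuation F (Algebra.norm F (-1 : E)) = 1 := by
    have h1 : (-1 : E) = algebraMap F E (-1) := by simp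
    rw [h1, Algebra.norm_algebraMap, map_pow, Valuation.map_neg, map_one, one_pow]
  rw [hneg, map_mul, hone, one_mul, hnorm]
  exact hval

open Polynomial in
/-- A place at which `θ⁻¹ + 4⁻¹` is not a square. -/
theorem exists_place_nonsquare (v : HeightOneSpectrum (𝓞 F)) {n : ℕ} (r : Fin n → Fˣ)
    (hr : Function.Injective r) (i0 : Fin n) (c0 : Fˣ) (hc0 : (c0 : F) = (r i0 : F)⁻¹ + 4⁻¹)
    (hns : c0 ∉ LS (v.valuation F)) : ∃ ε : Z0, ε ≠ 0 ∧ ∀ (E : Type) [Field E] [NumberField E]
      [Algebra F E] (θ : E), finrank F E = n → (minpoly F θ).natDegree = n →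
      (∀ k, v.valuation F ((minpoly F θ - ∏ i, (X - C (r i : F))).coeff k) < ε) →
      TotSplit E v ∧ ∃ w : HeightOneSpectrum (𝓞 E), Ab w v ∧
        ∀ c : Eˣ, (c : E) = θ⁻¹ + 4⁻¹ → c ∉ LS (w.valuation E) := by
  obtain ⟨ε1, hε1, h1⟩ := totSplit_of_near v (fun i => (r i : F))
    (fun i j hij => hr (Units.ext hij))
  obtain ⟨δ, hδ1, hδ2⟩ : ∃ δ : Fˣ, v.valuation F (δ : F) ≤ v.valuation F (r i0 : F) ∧
      v.valuation F (δ : F) ≤ v.valuation F (4 * (r i0 : F) ^ 2 * c0) := by
    have h4 : (4 : F) ≠ 0 := by norm_num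
    rcases le_total (v.valuation F (r i0 : F)) (v.valuation F (4 * (r i0 : F) ^ 2 * c0)) with h | h
    · exact ⟨r i0, le_rfl, h⟩
    · exact ⟨Units.mk0 4 h4 * r i0 ^ 2 * c0, by
        simpa only [Units.val_mul, Units.val_pow_eq_pow_val, Units.val_mk0] using h, by
        simp only [Units.val_mul, Units.val_pow_eq_pow_val, Units.val_mk0, le_refl]⟩
  obtain ⟨ε2, hε2, h2⟩ := exists_place_near v (fun i => (r i : F)) i0 δ
  refine ⟨min ε1 ε2, by
    rcases min_choice ε1 ε2 with h | h <;> rw [h] <;> assumption, ?_⟩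
  intro E _ _ _ θ hE hdeg hnear
  have hts : TotSplit E v := h1 E θ hE hdeg fun k => lt_of_lt_of_le (hnear k) (min_le_left _ _)
  obtain ⟨w, hw, hwθ⟩ := h2 E θ hE hdeg fun k => lt_of_lt_of_le (hnear k) (min_le_right _ _)
  refine ⟨hts, w, hw, fun c hc hcL => ?_⟩
  have hc0w := notMem_LS_above hts hns hw
  apply hc0w
  set e : E := algebraMap F E (r i0 : F) with he
  have he0 : e ≠ 0 := (_root_.map_ne_zero _).mpr (r i0).ne_zero
  have hlt : w.valuation E (θ - e) < w.valuation E e :=
    lt_of_lt_of_le hwθ ((val_le_val_iff hw _ _).mpr hδ1)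
  have hθe : w.valuation E θ = w.valuation E e := by
    have := Valuation.map_add_eq_of_lt_left (w.valuation E) hlt
    rwa [add_sub_cancel] at this
  have hwe0 : w.valuation E e ≠ 0 := (Valuation.ne_zero_iff _).mpr he0
  have hθ0 : θ ≠ 0 := (Valuation.ne_zero_iff (w.valuation E)).mp (hθe ▸ hwe0)
  have hlt2 : w.valuation E (θ - e) < w.valuation E 4 * w.valuation E e ^ 2 *
      w.valuation E (algebraMap F E (c0 : F)) := by
    refine lt_of_lt_of_le hwθ (((val_le_val_iff hw _ _).mpr hδ2).trans (le_of_eq ?_))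
    have h5 : algebraMap F E (4 * (r i0 : F) ^ 2 * c0) =
        4 * e ^ 2 * algebraMap F E (c0 : F) := by
      rw [map_mul, map_mul, map_pow, map_ofNat]
    rw [h5, map_mul, map_mul, map_pow]
  have hcw : c / inc F E c0 ∈ LS (w.valuation E) := by
    apply LS_of_close
    have hc00 : algebraMap F E (c0 : F) ≠ 0 := (_root_.map_ne_zero _).mpr c0.ne_zero
    have e0 : algebraMap F E (c0 : F) = e⁻¹ + 4⁻¹ := by
      rw [hc0, map_add, map_inv₀, map_inv₀, map_ofNat]
    have e1 : ((c / inc F E c0 : Eˣ) : E) - 1 =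
        -((θ - e) / (θ * e * algebraMap F E (c0 : F))) := by
      rw [Units.val_div_eq_div_val, hc]
      change (θ⁻¹ + 4⁻¹) / algebraMap F E (c0 : F) - 1 = _
      rw [div_sub_one hc00, ← neg_div, div_eq_div_iff hc00
        (mul_ne_zero (mul_ne_zero hθ0 he0) hc00)]
      nth_rewrite 1 [e0]
      field_simp
      ring
    rw [e1, Valuation.map_neg, map_div₀, map_mul, map_mul, hθe,
      div_lt_iff₀ (zero_lt_iff.mpr (mul_ne_zero (mul_ne_zero hwe0 hwe0)
        ((Valuation.ne_zero_iff _).mpr hc00)))]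
    rwa [← sq, ← mul_assoc]
  have h3 := Subgroup.mul_mem _ (Subgroup.inv_mem _ hcw) hcL
  rwa [inv_div, div_mul_cancel] at h3

end Vale.Agent.P011.Two2
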