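import Vale.Agent.P011.Two2.FinHerm
import Vale.Agent.P011.Two2.SplitW

/-!
The local prescription at a nonsplit finite place.
-/

open Module Matrix Polynomial NumberField IsDedekindDomain TensorProduct Filter Topology
open Vale.Agent.P011.T2

namespace Vale.Agent.P011.Two2

open Vale.Agent.P011.Even Vale.Agent.P011.Arith

section cont

variable {F L : Type} [NormedField F] [Field L] [Algebra F L]

theorem cont_poly' (la : L →ₗ[F] F) {N : ℕ} (P : MvPolynomial (Fin N) L) :
    Continuous fun r : Fin N → F => la (MvPolynomial.eval (fun i => algebraMap F L (r i)) P) := by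
  have h1 : (fun r : Fin N → F => la (MvPolynomial.eval (fun i => algebraMap F L (r i)) P)) =
      fun r => ∑ d ∈ P.support, la (MvPolynomial.coeff d P) * ∏ i, r i ^ d i := by
    funext r
    rw [MvPolynomial.eval_eq', map_sum]
    refine Finset.sum_congr rfl fun d _ => ?_
    have h2 : MvPolynomial.coeff d P * ∏ i, algebraMap F L (r i) ^ d i =
        (∏ i, r i ^ d i) • MvPolynomial.coeff d P := by
      rw [Algebra.smul_def, map_prod, mul_comm]
      simp only [map_pow]
    rw [h2, map_smul, smul_eq_mul, mul_comm]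
  rw [h1]
  fun_prop

/-- The determinant of a matrix depending linearly on coordinates. -/
theorem cont_det (la : L →ₗ[F] F) {n N : ℕ} (M0 : Matrix (Fin n) (Fin n) L)
    (M : Fin N → Matrix (Fin n) (Fin n) L) :
    Continuous fun y : Fin N → F => la (M0 + ∑ j, y j • M j).det := by
  let P : Matrix (Fin n) (Fin n) (MvPolynomial (Fin N) L) :=
    M0.map MvPolynomial.C + ∑ j, (MvPolynomial.X j : MvPolynomial (Fin N) L) •
      (M j).map MvPolynomial.C
  have h := cont_poly' la P.det
  have h1 : (fun y : Fin N → F => la (MvPolynomial.eval (fun i => algebraMap F L (y i)) P.det)) =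
      fun y : Fin N → F => la (M0 + ∑ j, y j • M j).det := by
    funext y
    congr 1
    rw [RingHom.map_det]
    congr 1
    rw [map_add, map_sum]
    congr 1
    · ext i j
      simp
    · refine Finset.sum_congr rfl fun l _ => ?_
      ext i j
      rw [RingHom.mapMatrix_apply, Matrix.map_apply, Matrix.smul_apply, Matrix.smul_apply,
        Matrix.map_apply, smul_eq_mul, map_mul, MvPolynomial.eval_X, MvPolynomial.eval_C,
        Algebra.smul_def]
  rwa [h1] at h

end cont

section model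

variable {k K D : Type} [Field k] [NumberField k] [Field K] [StarRing K]
    [DivisionRing D] [StarRing D] [Algebra k K] [Algebra k D] [Algebra K D] [IsScalarTower k K D]
    {d : kˣ} {s : K} {n : ℕ}

/-- The local model at a nonsplit finite place, with its centre. -/
theorem exists_model (hS : Setting k K D d s) (hn0 : 0 < n) (hn : finrank K D = n ^ 2)
    (v : HeightOneSpectrum (𝓞 k)) (hv : d ∉ LS (v.valuation k)) :
    ∃ (L : Type) (_ : Field L) (_ : Algebra (v.adicCompletion k) L) (_ : StarRing L)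
      (ρ : v.adicCompletion k ⊗[k] D ≃ₐ[v.adicCompletion k] Matrix (Fin n) (Fin n) L)
      (G : Matrix (Fin n) (Fin n) L) (i : K →+* L),
      IsUnit G ∧ Gᴴ = G ∧
      (∀ T, G * ρ (hS.sig.baseChange (v.adicCompletion k) T) = (ρ T)ᴴ * G) ∧
      (∀ a : k, i (algebraMap k K a) = algebraMap (v.adicCompletion k) L
        (algebraMap k (v.adicCompletion k) a)) ∧
      (∀ c : K, ρ ((1 : v.adicCompletion k) ⊗ₜ algebraMap K D c) = Matrix.scalar (Fin n) (i c)) ∧
      QuadL (v.adicCompletion k) L (iu v d : v.adicCompletion k) := by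
  let F := v.adicCompletion k
  have : Nonempty (Fin n) := ⟨⟨0, hn0⟩⟩
  obtain ⟨L, _, _, _, ρ, G, hfix, hL2, hGu, hGs, hG⟩ := exists_local_model hS hn v hv
  have hcomm : ∀ (c : K) (T : F ⊗[k] D), ((1 : F) ⊗ₜ algebraMap K D c) * T =
      T * ((1 : F) ⊗ₜ algebraMap K D c) := by
    intro c T
    induction T with
    | zero => rw [mul_zero, zero_mul]
    | tmul a x => rw [Algebra.TensorProduct.tmul_mul_tmul, Algebra.TensorProduct.tmul_mul_tmul,
        one_mul, mul_one, Algebra.commutes]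
    | add x y hx hy => rw [mul_add, add_mul, hx, hy]
  have hcen : ∀ c : K, ∃ l : L, Matrix.scalar (Fin n) l = ρ ((1 : F) ⊗ₜ algebraMap K D c) := by
    intro c
    have h1 : ρ ((1 : F) ⊗ₜ algebraMap K D c) ∈ Set.range (Matrix.scalar (Fin n)) := by
      rw [Matrix.mem_range_scalar_iff_commute_single']
      intro a b
      obtain ⟨T, hT⟩ := ρ.surjective (Matrix.single a b 1)
      rw [← hT]
      change ρ T * ρ _ = ρ _ * ρ T
      rw [← map_mul, ← map_mul, hcomm]
    exact h1
  choose l hl using hcen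
  have hinj : Function.Injective (Matrix.scalar (Fin n) : L → Matrix (Fin n) (Fin n) L) :=
    fun a b h => Matrix.scalar_inj.mp h
  let i : K →+* L :=
    { toFun := l
      map_one' := hinj (by rw [hl, map_one, map_one, ← Algebra.TensorProduct.one_def, map_one])
      map_mul' := fun a b => hinj (by
        rw [map_mul, hl, hl, hl, ← map_mul, Algebra.TensorProduct.tmul_mul_tmul, one_mul, map_mul])
      map_zero' := hinj (by rw [hl, map_zero, map_zero, TensorProduct.tmul_zero, map_zero])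
      map_add' := fun a b => hinj (by
        rw [map_add, hl, hl, hl, ← map_add, ← TensorProduct.tmul_add, map_add]) }
  have hi : ∀ c : K, ρ ((1 : F) ⊗ₜ algebraMap K D c) = Matrix.scalar (Fin n) (i c) :=
    fun c => (hl c).symm
  have hik : ∀ a : k, i (algebraMap k K a) = algebraMap F L (algebraMap k F a) := by
    intro a
    apply hinj
    rw [← hi, ← IsScalarTower.algebraMap_apply k K D, Algebra.algebraMap_eq_smul_one,
      TensorProduct.tmul_smul, ← Algebra.TensorProduct.one_def, ← algebraMap_smul F a,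
      map_smul, map_one, Algebra.algebraMap_eq_smul_one (A := L)]
    ext x y
    rw [Matrix.smul_apply, Matrix.one_apply, Matrix.scalar_apply, Matrix.diagonal_apply]
    split_ifs
    · rfl
    · rw [smul_zero]
  refine ⟨L, inferInstance, inferInstance, inferInstance, ρ, G, i, hGu, hGs, hG, hik, hi, ?_⟩
  have hs0 : i s ≠ 0 := (_root_.map_ne_zero i).mpr hS.s_ne
  refine ⟨fun x hx => (hfix x).mp hx, fun e => (hfix _).mpr ⟨e, rfl⟩, i s, hs0, ?_, ?_⟩
  · have h1 := hG ((1 : F) ⊗ₜ algebraMap K D s)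
    rw [LinearMap.baseChange_tmul] at h1
    have h2 : hS.sig (algebraMap K D s) = -algebraMap K D s := by
      change star _ = _
      rw [hS.star_alg, hS.star_s, map_neg]
    rw [h2, TensorProduct.tmul_neg, map_neg, hi] at h1
    have h3 : (Matrix.scalar (Fin n) (i s))ᴴ = Matrix.scalar (Fin n) (star (i s)) := by
      rw [Matrix.scalar_apply, Matrix.diagonal_conjTranspose, Matrix.scalar_apply]
      rfl
    rw [h3, mul_neg, ← Matrix.scalar_commute (i s) (fun r => Commute.all _ _) G] at h1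
    have h4 : Matrix.scalar (Fin n) (star (i s)) * G = Matrix.scalar (Fin n) (-(i s)) * G := by
      rw [← h1, map_neg, neg_mul]
    exact hinj (hGu.mul_right_cancel h4)
  · rw [← map_pow, hS.sq, hik]
    rfl

omit [IsScalarTower k K D] in
/-- The class of a sum near a given element of the completion. -/
theorem class_open (hS : Setting k K D d s) (hn0 : 0 < n) (hdeg : finrank K D = n ^ 2) {Ω : Type}
    [Field Ω] [Algebra K Ω] (f : D →ₐ[K] Matrix (Fin n) (Fin n) Ω) (v : HeightOneSpectrum (𝓞 k))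
    {L : Type} [Field L] [Algebra (v.adicCompletion k) L]
    (ρ : v.adicCompletion k ⊗[k] D ≃ₐ[v.adicCompletion k] Matrix (Fin n) (Fin n) L) (i : K →+* L)
    (hik : ∀ a : k, i (algebraMap k K a) = algebraMap (v.adicCompletion k) L
        (algebraMap k (v.adicCompletion k) a))
    (hi : ∀ c : K, ρ ((1 : v.adicCompletion k) ⊗ₜ algebraMap K D c) = Matrix.scalar (Fin n) (i c))
    {N : ℕ} (B : Basis (Fin N) k D) (b : D) (T : v.adicCompletion k ⊗[k] D)
    {φ : (v.adicCompletion k)ˣ}
    (hφ : (ρ ((1 : v.adicCompletion k) ⊗ₜ b) + ρ T).det = algebraMap (v.adicCompletion k) L φ)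
    {g : kˣ} (hg : φ * iu v g ∈ LN (iu v d)) :
    ∀ᶠ y in 𝓝 (fun j => (Algebra.TensorProduct.basis (v.adicCompletion k) B).repr T j),
      ∀ r : D, (fun j => algebraMap k (v.adicCompletion k) (B.repr r j)) = y → b + r ≠ 0 ∧
        ∀ ν : kˣ, (f (b + r)).det = algebraMap K Ω (algebraMap k K ν) →
          ν * g ∈ NF d ⊔ LS (v.valuation k) := by
  classical
  let F := v.adicCompletion k
  let BA := Algebra.TensorProduct.basis F B
  have := hS.fin
  have := hS.cen
  have : CharZero K := charZero_of_injective_algebraMap (algebraMap k K).injective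
  obtain ⟨ε0, hε0, hsq⟩ := exists_sq_radius v
  obtain ⟨la, hla⟩ : ∃ la : L →ₗ[F] F, ∀ c, la (algebraMap F L c) = c := by
    obtain ⟨la, hla⟩ := (Algebra.linearMap F L).exists_leftInverse_of_injective
      (LinearMap.ker_eq_bot.mpr (algebraMap F L).injective)
    exact ⟨la, fun c => LinearMap.congr_fun hla c⟩
  let Φ : (Fin N → F) → F := fun y => la (ρ ((1 : F) ⊗ₜ b) + ∑ j, y j • ρ ((1 : F) ⊗ₜ B j)).det
  have hΦ : Continuous Φ := cont_det la _ _
  have hsum : ∀ T : F ⊗[k] D, ∑ j, BA.repr T j • ρ ((1 : F) ⊗ₜ B j) = ρ T := by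
    intro T
    conv_rhs => rw [← BA.sum_repr T]
    rw [map_sum]
    refine Finset.sum_congr rfl fun j _ => ?_
    rw [map_smul, Algebra.TensorProduct.basis_apply]
  have hΦT : Φ (fun j => BA.repr T j) = φ := by
    change la _ = _
    rw [hsum, hφ, hla]
  have hφ0 : (φ : F) ≠ 0 := φ.ne_zero
  have hΦ' : ContinuousAt (fun y => Φ y / φ) (fun j => BA.repr T j) :=
    hΦ.continuousAt.div_const _
  have hev := hΦ'.eventually (Metric.ball_mem_nhds _ hε0)
  filter_upwards [hev] with y hy r hr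
  change dist (Φ y / φ) (Φ (fun j => BA.repr T j) / φ) < ε0 at hy
  rw [hΦT, div_self hφ0, dist_eq_norm] at hy
  obtain ⟨u, hu⟩ := hsq _ hy
  have hsumr : ∑ j, y j • ρ ((1 : F) ⊗ₜ B j) = ρ ((1 : F) ⊗ₜ r) := by
    rw [← hr, ← hsum (1 ⊗ₜ r)]
    refine Finset.sum_congr rfl fun j _ => ?_
    congr 1
    rw [Algebra.TensorProduct.basis_repr_tmul, one_smul, Finsupp.mapRange_apply]
  have hΦr : Φ y = la (ρ ((1 : F) ⊗ₜ (b + r))).det := by
    change la _ = _
    rw [hsumr, ← map_add, ← TensorProduct.tmul_add]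
  have hy0 : Φ y = φ * (u : F) ^ 2 := by
    rw [← hu, mul_div_cancel₀ _ hφ0]
  refine ⟨?_, fun ν hν => ?_⟩
  · intro h0
    have : Nonempty (Fin n) := ⟨⟨0, hn0⟩⟩
    rw [h0, TensorProduct.tmul_zero, map_zero, Matrix.det_zero, map_zero, hy0] at hΦr
    exact mul_ne_zero hφ0 (pow_ne_zero 2 u.ne_zero) hΦr
  · let _ : Algebra K L := i.toAlgebra
    let gg : D →ₐ[K] Matrix (Fin n) (Fin n) L :=
      { toFun := fun x => ρ ((1 : F) ⊗ₜ[k] x)
        map_one' := by rw [← Algebra.TensorProduct.one_def, map_one]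
        map_mul' := fun x y => by
          rw [← map_mul, Algebra.TensorProduct.tmul_mul_tmul, one_mul]
        map_zero' := by rw [TensorProduct.tmul_zero, map_zero]
        map_add' := fun x y => by rw [TensorProduct.tmul_add, map_add]
        commutes' := fun c => hi c }
    have h1 : (ρ ((1 : F) ⊗ₜ (b + r))).det = algebraMap F L (algebraMap k F (ν : k)) := by
      have h2 : (gg (b + r)).det = algebraMap K L (algebraMap k K (ν : k)) :=
        det_compare hn0 hdeg f gg (b + r) hν
      have h3 : algebraMap K L (algebraMap k K (ν : k)) = i (algebraMap k K (ν : k)) := rfl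
      rw [h3, hik] at h2
      exact h2
    rw [h1, hla, hy0] at hΦr
    have h4 : iu v ν = φ * u ^ 2 := Units.ext (by
      rw [Units.val_mul, Units.val_pow_eq_pow_val, hΦr]
      rfl)
    rw [← mem_LN_iff v, map_mul, h4]
    exact sq_mul_mem_LN hg ⟨u, by rw [mul_assoc, mul_assoc, mul_comm (u ^ 2)]⟩

/-- The target over the completion. -/
theorem exists_target (hS : Setting k K D d s) (hn : 2 ≤ n) (hdeg : finrank K D = n ^ 2) {Ω : Type}
    [Field Ω] [Algebra K Ω] (f : D →ₐ[K] Matrix (Fin n) (Fin n) Ω) {N : ℕ} (B : Basis (Fin N) k D)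
    {m b : D} (hm : star m = m) (hb : star b = b) (hm0 : m ≠ 0) (hb0 : b ≠ 0)
    (v : HeightOneSpectrum (𝓞 k)) (hv : d ∉ LS (v.valuation k)) (g1 g2 : kˣ) :
    ∃ (e : Fin n → kˣ) (T : v.adicCompletion k ⊗[k] D), Function.Injective e ∧
      hS.sig.baseChange (v.adicCompletion k) T = T ∧
      LinearIndependent (v.adicCompletion k)
        (fun i : Fin n => (((1 : v.adicCompletion k) ⊗ₜ m⁻¹) * T) ^ (i : ℕ)) ∧
      aeval (((1 : v.adicCompletion k) ⊗ₜ m⁻¹) * T)
        (∏ i, (X - C (algebraMap k (v.adicCompletion k) (e i : k)))) = 0 ∧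
      (∃ i0, ¬ IsSquare (algebraMap k (v.adicCompletion k) ((e i0 : k)⁻¹ + 4⁻¹))) ∧
      ∀ᶠ y in 𝓝 (fun j => (Algebra.TensorProduct.basis (v.adicCompletion k) B).repr T j),
        ∀ r : D, (fun j => algebraMap k (v.adicCompletion k) (B.repr r j)) = y →
          r ≠ 0 ∧ b + r ≠ 0 ∧
          (∀ ν : kˣ, (f r).det = algebraMap K Ω (algebraMap k K ν) →
            ν * g1 ∈ NF d ⊔ LS (v.valuation k)) ∧
          ∀ ν : kˣ, (f (b + r)).det = algebraMap K Ω (algebraMap k K ν) →
            ν * g2 ∈ NF d ⊔ LS (v.valuation k) := by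
  classical
  let F := v.adicCompletion k
  obtain ⟨L, _, _, _, ρ, G, i, hGu, hGs, hG, hik, hi, hQ⟩ :=
    exists_model hS (by omega) hdeg v hv
  have hσ : ∀ x, hS.sig x = star x := fun x => rfl
  have : CharZero L := charZero_of_injective_algebraMap (algebraMap F L).injective
  have hGd : IsUnit G.det := (Matrix.isUnit_iff_isUnit_det G).mp hGu
  have hGG : G * G⁻¹ = 1 := Matrix.mul_nonsing_inv _ hGd
  have hGG' : G⁻¹ * G = 1 := Matrix.nonsing_inv_mul _ hGd
  have hGis : (G⁻¹)ᴴ = G⁻¹ := by rw [Matrix.conjTranspose_nonsing_inv, hGs]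
  have hunit : ∀ c : D, c ≠ 0 → ρ ((1 : F) ⊗ₜ c) * ρ ((1 : F) ⊗ₜ c⁻¹) = 1 := by
    intro c hc
    rw [← map_mul, Algebra.TensorProduct.tmul_mul_tmul, one_mul, mul_inv_cancel₀ hc,
      ← Algebra.TensorProduct.one_def, map_one]
  have hdet : ∀ c : D, c ≠ 0 → (ρ ((1 : F) ⊗ₜ c)).det ≠ 0 := by
    intro c hc hd0
    have h1 := congrArg Matrix.det (hunit c hc)
    rw [Matrix.det_mul, hd0, zero_mul, Matrix.det_one] at h1
    exact zero_ne_one h1
  have hherm : ∀ c : D, star c = c →
      (G * ρ ((1 : F) ⊗ₜ c))ᴴ = G * ρ ((1 : F) ⊗ₜ c) := by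
    intro c hc
    have h1 := hG ((1 : F) ⊗ₜ c)
    rw [LinearMap.baseChange_tmul, hσ, hc] at h1
    rw [Matrix.conjTranspose_mul, hGs, h1]
  have hdetG : ∀ c : D, c ≠ 0 → (G * ρ ((1 : F) ⊗ₜ c)).det ≠ 0 := fun c hc => by
    rw [Matrix.det_mul]
    exact mul_ne_zero hGd.ne_zero (hdet c hc)
  -- determinants of hermitian matrices
  have hfixdet : ∀ X : Matrix (Fin n) (Fin n) L, Xᴴ = X → X.det ≠ 0 →
      ∃ y : Fˣ, algebraMap F L y = X.det := by
    intro X hX hX0
    obtain ⟨y, hy⟩ := hQ.fix X.det (by rw [← Matrix.det_conjTranspose, hX])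
    have hy0 : y ≠ 0 := by
      rintro rfl
      rw [map_zero] at hy
      exact hX0 hy.symm
    exact ⟨Units.mk0 y hy0, hy⟩
  obtain ⟨δG, hδG⟩ := hfixdet G hGs hGd.ne_zero
  obtain ⟨δm, hδm⟩ := hfixdet _ (hherm m hm) (hdetG m hm0)
  obtain ⟨n', rfl⟩ : ∃ n', n = n' + 2 := ⟨n - 2, by omega⟩
  obtain ⟨e, Hr, hHr, he, ⟨U, hU, hUe⟩, ⟨y1, hy1, hy1'⟩, ⟨y2, hy2, hy2'⟩, hns⟩ :=
    exists_herm v hv hQ (G * ρ ((1 : F) ⊗ₜ m)) (G * ρ ((1 : F) ⊗ₜ b)) (hherm m hm) (hherm b hb)
      (hdetG m hm0) (hdetG b hb0) (δG⁻¹ * δm * iu v g1) (δG⁻¹ * iu v g2)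
  have hρT : ρ (ρ.symm (G⁻¹ * Hr)) = G⁻¹ * Hr := ρ.apply_symm_apply _
  have hminv : (G * ρ ((1 : F) ⊗ₜ m))⁻¹ = ρ ((1 : F) ⊗ₜ m⁻¹) * G⁻¹ := by
    apply Matrix.inv_eq_right_inv
    rw [Matrix.mul_assoc, ← Matrix.mul_assoc (ρ ((1 : F) ⊗ₜ m)), hunit m hm0, Matrix.one_mul, hGG]
  have hdGinv : (G⁻¹).det = algebraMap F L (δG⁻¹ : Fˣ) := by
    rw [Matrix.det_nonsing_inv, ← hδG, Ring.inverse_eq_inv', Units.val_inv_eq_inv_val, map_inv₀]
  refine ⟨e, ρ.symm (G⁻¹ * Hr), he, ?_, ?_, ?_, ⟨0, hns⟩, ?_⟩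
  · apply ρ.injective
    apply hGu.mul_left_cancel
    rw [hG, hρT, Matrix.conjTranspose_mul, hGis, hHr, Matrix.mul_assoc, hGG', Matrix.mul_one,
      ← Matrix.mul_assoc, hGG, Matrix.one_mul]
  · have hY : ρ (((1 : F) ⊗ₜ m⁻¹) * ρ.symm (G⁻¹ * Hr)) = (G * ρ ((1 : F) ⊗ₜ m))⁻¹ * Hr := by
      rw [map_mul, hρT, hminv, Matrix.mul_assoc]
    have h1 := (of_conj_diagonal (e := fun i => algebraMap F L (iu v (e i) : F)) (by
      intro a b hab
      apply he
      exact Units.ext ((algebraMap k F).injective ((algebraMap F L).injective hab))) hU hUe).1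
    have h2 : LinearIndependent F
        (fun i : Fin (n' + 2) => ((G * ρ ((1 : F) ⊗ₜ m))⁻¹ * Hr) ^ (i : ℕ)) := by
      refine h1.restrict_scalars ?_
      intro x y hxy
      have h4 : algebraMap F L x = algebraMap F L y := by
        rw [Algebra.algebraMap_eq_smul_one, Algebra.algebraMap_eq_smul_one]
        exact hxy
      exact (algebraMap F L).injective h4
    apply LinearIndependent.of_comp ρ.toLinearMap
    have h3 : (ρ.toLinearMap ∘ fun i : Fin (n' + 2) =>
        (((1 : F) ⊗ₜ m⁻¹) * ρ.symm (G⁻¹ * Hr)) ^ (i : ℕ)) =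
        fun i : Fin (n' + 2) => ((G * ρ ((1 : F) ⊗ₜ m))⁻¹ * Hr) ^ (i : ℕ) := by
      funext i
      change ρ (_ ^ (i : ℕ)) = _
      rw [map_pow, hY]
    rw [h3]
    exact h2
  · have hY : ρ (((1 : F) ⊗ₜ m⁻¹) * ρ.symm (G⁻¹ * Hr)) = (G * ρ ((1 : F) ⊗ₜ m))⁻¹ * Hr := by
      rw [map_mul, hρT, hminv, Matrix.mul_assoc]
    have h1 := (of_conj_diagonal (e := fun i => algebraMap F L (iu v (e i) : F)) (by
      intro a b hab
      apply he
      exact Units.ext ((algebraMap k F).injective ((algebraMap F L).injective hab))) hU hUe).2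
    apply ρ.injective
    rw [map_zero]
    have h2 : ρ (aeval (((1 : F) ⊗ₜ m⁻¹) * ρ.symm (G⁻¹ * Hr))
        (∏ i, (X - C (algebraMap k F (e i : k))))) =
        aeval ((G * ρ ((1 : F) ⊗ₜ m))⁻¹ * Hr) (∏ i, (X - C (algebraMap k F (e i : k)))) := by
      rw [← hY]
      exact (Polynomial.aeval_algHom_apply ρ.toAlgHom _ _).symm
    rw [h2, ← h1, ← Polynomial.aeval_map_algebraMap L, Polynomial.map_prod]
    congr 1
    refine Finset.prod_congr rfl fun i _ => ?_
    rw [Polynomial.map_sub, Polynomial.map_X, Polynomial.map_C]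
    rfl
  · have k1 := class_open hS (by omega) hdeg f v ρ i hik hi B 0 (ρ.symm (G⁻¹ * Hr))
      (φ := δG⁻¹ * δm * y1) (g := g1) (by
        rw [TensorProduct.tmul_zero, map_zero, zero_add, hρT, Matrix.det_mul, hdGinv, hy1, ← hδm,
          Units.val_mul, Units.val_mul, map_mul, map_mul]
        ring) (by
        have h5 : δG⁻¹ * δm * y1 * iu v g1 = y1 * (δG⁻¹ * δm * iu v g1) := by
          rw [mul_assoc, mul_comm, mul_assoc, mul_comm (iu v g1)]
        rw [h5]
        exact hy1')
    have k2 := class_open hS (by omega) hdeg f v ρ i hik hi B b (ρ.symm (G⁻¹ * Hr))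
      (φ := δG⁻¹ * y2) (g := g2) (by
        have h5 : ρ ((1 : F) ⊗ₜ b) + G⁻¹ * Hr = G⁻¹ * (G * ρ ((1 : F) ⊗ₜ b) + Hr) := by
          rw [Matrix.mul_add, ← Matrix.mul_assoc, hGG', Matrix.one_mul]
        rw [hρT, h5, Matrix.det_mul, hdGinv, hy2, Units.val_mul, map_mul]) (by
        have h5 : δG⁻¹ * y2 * iu v g2 = y2 * (δG⁻¹ * iu v g2) := by
          rw [mul_assoc, mul_left_comm]
        rw [h5]
        exact hy2')
    filter_upwards [k1, k2] with y h1 h2 r hr
    obtain ⟨h3, h4⟩ := h1 r hr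
    obtain ⟨h5, h6⟩ := h2 r hr
    rw [zero_add] at h3 h4
    exact ⟨h3, h5, h4, h6⟩

/-- Symmetric elements near a symmetric element of the completion. -/
theorem exists_sym_near (hS : Setting k K D d s) {N : ℕ} (B : Basis (Fin N) k D)
    (v : HeightOneSpectrum (𝓞 k)) (T : v.adicCompletion k ⊗[k] D)
    (hT : hS.sig.baseChange (v.adicCompletion k) T = T) {P : (Fin N → v.adicCompletion k) → Prop}
    (hP : ∀ᶠ y in 𝓝 (fun j => (Algebra.TensorProduct.basis (v.adicCompletion k) B).repr T j),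
      P y) :
    ∃ (R : D) (δ : ℝ), 0 < δ ∧ star R = R ∧ ∀ r : D,
      (∀ j, plAbv (Sum.inl v : Pl k) (B.repr (r - R) j) < δ) →
      P (fun j => algebraMap k (v.adicCompletion k) (B.repr r j)) := by
  classical
  let F := v.adicCompletion k
  have hσ : ∀ x, hS.sig x = star x := fun x => rfl
  have hF2 : (2 : F) ≠ 0 := by
    have : (2 : k) ≠ 0 := two_ne_zero
    have h1 := alg_ne_zero' v this
    rwa [map_ofNat] at h1
  let BA := Algebra.TensorProduct.basis F B
  let c : Fin N → F := fun j => BA.repr T j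
  obtain ⟨δ0, hδ0, hball⟩ := Metric.eventually_nhds_iff.mp hP
  let Ψ : (Fin N → F) → (Fin N → F) := fun y i =>
    (y i + ∑ j, y j * algebraMap k F (B.repr (star (B j)) i)) / 2
  have hΨ : Continuous Ψ := by
    refine continuous_pi fun i => ?_
    refine ((continuous_apply i).add ?_).div_const 2
    exact continuous_finsetSum _ fun j _ => (continuous_apply j).mul continuous_const
  have hΨc : Ψ c = c := by
    funext i
    have h1 : BA.repr (hS.sig.baseChange F T) i =
        ∑ j, c j * algebraMap k F (B.repr (star (B j)) i) := by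
      conv_lhs => rw [← BA.sum_repr T]
      rw [map_sum, map_sum, Finsupp.finsetSum_apply]
      refine Finset.sum_congr rfl fun j _ => ?_
      rw [map_smul, map_smul, Finsupp.smul_apply, smul_eq_mul, Algebra.TensorProduct.basis_apply,
        LinearMap.baseChange_tmul, hσ, Algebra.TensorProduct.basis_repr_tmul, one_smul,
        Finsupp.mapRange_apply]
    rw [hT] at h1
    change (c i + ∑ j, c j * algebraMap k F (B.repr (star (B j)) i)) / 2 = c i
    rw [← h1]
    change (c i + c i) / 2 = c i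
    rw [← two_mul, mul_div_cancel_left₀ _ hF2]
  obtain ⟨δ1, hδ1, h1⟩ := Metric.continuousAt_iff.mp (hΨ.continuousAt (x := c)) (δ0 / 2)
    (half_pos hδ0)
  choose x hx using fun j => dense v (c j) δ1 hδ1
  let R' : D := ∑ j, x j • B j
  have hR' : ∀ j, B.repr R' j = x j := fun j => by rw [B.repr_sum_self]
  have hstar2 : ∀ (a : k) (z : D), star (a • z) = a • star z := fun a z => by
    rw [← hσ, map_smul, hσ]
  refine ⟨(2 : k)⁻¹ • (R' + star R'), δ0 / 2, half_pos hδ0, ?_, fun r hr => ?_⟩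
  · rw [hstar2, star_add, star_star, add_comm]
  · apply hball
    have h2 := h1 (x := fun j => algebraMap k F (x j)) (by
      rw [dist_pi_lt_iff hδ1]
      intro j
      rw [dist_comm, dist_eq_norm]
      exact hx j)
    rw [hΨc] at h2
    have h3 : Ψ (fun j => algebraMap k F (x j)) =
        fun j => algebraMap k F (B.repr ((2 : k)⁻¹ • (R' + star R')) j) := by
      funext i
      have h4 : B.repr (star R') i = ∑ j, x j * B.repr (star (B j)) i := by
        rw [← hσ, map_sum, map_sum, Finsupp.finsetSum_apply]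
        refine Finset.sum_congr rfl fun j _ => ?_
        rw [map_smul, map_smul, Finsupp.smul_apply, smul_eq_mul, hσ]
      rw [map_smul, map_add, Finsupp.smul_apply, Finsupp.add_apply, h4, hR', smul_eq_mul, map_mul,
        map_inv₀, map_ofNat, map_add, map_sum]
      change (_ + _) / 2 = _
      rw [div_eq_inv_mul]
      congr 2
      exact Finset.sum_congr rfl fun j _ => (map_mul _ _ _).symm
    rw [h3] at h2
    refine lt_of_le_of_lt (dist_triangle _ (fun j => algebraMap k F
      (B.repr ((2 : k)⁻¹ • (R' + star R')) j)) _) ?_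
    have h5 : dist (fun j => algebraMap k F (B.repr r j))
        (fun j => algebraMap k F (B.repr ((2 : k)⁻¹ • (R' + star R')) j)) < δ0 / 2 := by
      rw [dist_pi_lt_iff (half_pos hδ0)]
      intro j
      rw [dist_eq_norm, ← map_sub, norm_algebraMap_eq]
      have h6 := hr j
      rwa [map_sub, Finsupp.sub_apply] at h6
    have h7 : dist (fun j => algebraMap k F (B.repr ((2 : k)⁻¹ • (R' + star R')) j)) c <
      δ0 / 2 := h2
    linarith

end model

section near

variable {k D F A : Type} [Field k] [DivisionRing D] [Algebra k D] [NormedField F]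
  [Algebra k F] [Ring A] [Algebra F A] {N : ℕ} (B : Basis (Fin N) k D) {ι : Type} [Fintype ι]
  (BA : Basis ι F A) (g : D →+* A) (hg : ∀ (a : k) x, g (a • x) = algebraMap k F a • g x)

include BA hg in
/-- The elements `m * r` for `r` close to a given element of a completion. -/
theorem near_left (m : D) (b : Fin N → F) {n : ℕ}
    (hli : LinearIndependent F (fun i : Fin n => (g m * (∑ j, b j • g (B j))) ^ (i : ℕ)))
    {q : F[X]} (hq : q.Monic) (hqn : q.natDegree = n)
    (hq0 : aeval (g m * (∑ j, b j • g (B j))) q = 0)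
    {ε : ℝ} (hε : 0 < ε) :
    ∀ᶠ y in 𝓝 b, ∀ r : D, (fun j => algebraMap k F (B.repr r j)) = y →
      LinearIndependent k (fun i : Fin n => (m * r) ^ (i : ℕ)) ∧
      ∀ p : k[X], p.Monic → p.natDegree = n → aeval (m * r) p = 0 →
        ∀ i, ‖algebraMap k F (p.coeff i) - q.coeff i‖ < ε := by
  classical
  let W : (Fin N → F) → A := fun y => ∑ j, y j • g (B j)
  have hW : CtsAt BA W b := by
    intro l
    have h1 : (fun y => BA.repr (W y) l) = fun y : Fin N → F =>
        ∑ j, y j * BA.repr (g (B j)) l := by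
      funext y
      rw [map_sum, Finsupp.finsetSum_apply]
      exact Finset.sum_congr rfl fun j _ => by rw [map_smul, Finsupp.smul_apply, smul_eq_mul]
    rw [h1]
    exact tendsto_finsetSum _ fun j _ => (continuousAt_apply j b).mul continuousAt_const
  let Z : (Fin N → F) → A := fun y => g m * W y
  have hZ : CtsAt BA Z b := (CtsAt.const _).mul hW
  have hev := near_minpoly hZ hli hq hqn hq0 hε
  filter_upwards [hev] with y hy r hr
  subst hr
  obtain ⟨h1, h2⟩ := hy
  have hWr : W (fun j => algebraMap k F (B.repr r j)) = g r := by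
    conv_rhs => rw [← B.sum_repr r]
    rw [map_sum]
    exact Finset.sum_congr rfl fun j _ => (hg _ _).symm
  have hZr : Z (fun j => algebraMap k F (B.repr r j)) = g (m * r) := by
    change g m * W _ = _
    rw [hWr, map_mul]
  rw [hZr] at h1 h2
  refine ⟨?_, fun p hp hpn hp0 i => ?_⟩
  · rw [Fintype.linearIndependent_iff] at h1 ⊢
    intro a ha i
    have h3 := h1 (fun i => algebraMap k F (a i)) (by
      have h4 := congrArg g ha
      rw [map_sum, map_zero] at h4
      rw [← h4]
      exact Finset.sum_congr rfl fun i _ => by rw [hg, map_pow]) i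
    exact (_root_.map_eq_zero (algebraMap k F)).mp h3
  · have h3 := h2 (p.map (algebraMap k F)) (hp.map _) (by rw [natDegree_map, hpn]) (by
      rw [aeval_eq_sum_range, natDegree_map]
      rw [aeval_eq_sum_range] at hp0
      have h4 := congrArg g hp0
      rw [map_sum, map_zero] at h4
      rw [← h4]
      exact Finset.sum_congr rfl fun i _ => by rw [hg, map_pow, coeff_map]) i
    rwa [coeff_map] at h3

end near

section final

variable {k K D : Type} [Field k] [NumberField k] [Field K] [StarRing K]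
    [DivisionRing D] [StarRing D] [Algebra k K] [Algebra k D] [Algebra K D] [IsScalarTower k K D]
    {d : kˣ} {s : K} {n : ℕ}

/-- The prescription at a nonsplit finite place. -/
theorem fin_pre (hS : Setting k K D d s) (hn : 2 ≤ n) (hdeg : finrank K D = n ^ 2) {N : ℕ}
    (B : Basis (Fin N) k D) {Ω : Type} [Field Ω] [Algebra K Ω]
    (f : D →ₐ[K] Matrix (Fin n) (Fin n) Ω)
    {m b : D} (hm : star m = m) (hb : star b = b) (hm0 : m ≠ 0) (hb0 : b ≠ 0)
    (v : HeightOneSpectrum (𝓞 k)) (hv : d ∉ LS (v.valuation k)) (g1 g2 : kˣ) :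
    ∃ (R : D) (δ : ℝ), 0 < δ ∧ star R = R ∧ ∀ r : D,
      (∀ j, plAbv (Sum.inl v : Pl k) (B.repr (r - R) j) < δ) →
      r ≠ 0 ∧ b + r ≠ 0 ∧
      (∀ ν : kˣ, (f r).det = algebraMap K Ω (algebraMap k K ν) →
        ν * g1 ∈ NF d ⊔ LS (v.valuation k)) ∧
      (∀ ν : kˣ, (f (b + r)).det = algebraMap K Ω (algebraMap k K ν) →
        ν * g2 ∈ NF d ⊔ LS (v.valuation k)) ∧
      LinearIndependent k (fun i : Fin n => (m⁻¹ * r) ^ (i : ℕ)) ∧
      ∀ (E : Type) [Field E] [NumberField E] [Algebra k E] (θ : E), finrank k E = n →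
        (minpoly k θ).natDegree = n → aeval (m⁻¹ * r) (minpoly k θ) = 0 →
        TotSplit E v ∧ ∃ w : HeightOneSpectrum (𝓞 E), Ab w v ∧
          ∀ c : Eˣ, (c : E) = θ⁻¹ + 4⁻¹ → c ∉ LS (w.valuation E) := by
  classical
  let F := v.adicCompletion k
  obtain ⟨e, T, he, hTs, hli, hz, ⟨i0, hns⟩, hev⟩ :=
    exists_target hS hn hdeg f B hm hb hm0 hb0 v hv g1 g2
  have hc00 : ((e i0 : k)⁻¹ + 4⁻¹) ≠ 0 := by
    intro h
    apply hns
    rw [h, map_zero]
    exact ⟨0, by rw [mul_zero]⟩
  have hns' : Units.mk0 _ hc00 ∉ LS (v.valuation k) := fun h => hns ((isSquare_iff v _).mpr h)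
  obtain ⟨ε, hε, hsp⟩ := exists_place_nonsquare v e he i0 (Units.mk0 _ hc00) rfl hns'
  obtain ⟨η, hη, hη'⟩ := exists_radius v ε hε
  let BA := Algebra.TensorProduct.basis F B
  let g : D →+* F ⊗[k] D := (Algebra.TensorProduct.includeRight : D →ₐ[k] F ⊗[k] D).toRingHom
  have hgx : ∀ x, g x = 1 ⊗ₜ x := fun x => rfl
  have hTc : ∑ j, BA.repr T j • g (B j) = T := by
    conv_rhs => rw [← BA.sum_repr T]
    refine Finset.sum_congr rfl fun j _ => ?_
    rw [Algebra.TensorProduct.basis_apply, hgx]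
  have hev2 := near_left (F := F) (A := F ⊗[k] D) B BA g
    (fun a x => by
      rw [hgx, hgx, TensorProduct.tmul_smul, ← algebraMap_smul F a ((1 : F) ⊗ₜ[k] x)])
    m⁻¹ (fun j => BA.repr T j) (n := n) (q := ∏ i, (X - C (algebraMap k F (e i : k))))
    (by rw [hTc]; exact hli)
    (monic_prod_of_monic _ _ fun i _ => monic_X_sub_C _) (natDegree_prod_X_sub_C' _)
    (by rw [hTc]; exact hz) hη
  obtain ⟨R, δ, hδ, hR, h⟩ := exists_sym_near hS B v T hTs (hev.and hev2)
  refine ⟨R, δ, hδ, hR, fun r hr => ?_⟩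
  obtain ⟨h1, h2⟩ := h r hr
  obtain ⟨a1, a2, a3, a4⟩ := h1 r rfl
  obtain ⟨b1, b2⟩ := h2 r rfl
  refine ⟨a1, a2, a3, a4, b1, fun E _ _ _ θ hE hmin hz => hsp E θ hE hmin fun i => ?_⟩
  have hint : IsIntegral k θ := by
    have h7 : FiniteDimensional k E := by
      have : FiniteDimensional ℚ E := inferInstance
      have : IsScalarTower ℚ k E := IsScalarTower.of_algebraMap_eq fun q => by simp
      exact Module.Finite.of_restrictScalars_finite ℚ k E
    exact Algebra.IsIntegral.isIntegral θ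
  have h5 := b2 _ (minpoly.monic hint) hmin hz i
  have h6 : algebraMap k F ((minpoly k θ).coeff i) -
      (∏ i, (X - C (algebraMap k F (e i : k)))).coeff i =
      algebraMap k F ((minpoly k θ - ∏ i, (X - C (e i : k))).coeff i) := by
    have h7 : (∏ i, (X - C (algebraMap k F (e i : k)))) =
        (∏ i, (X - C (e i : k))).map (algebraMap k F) := by
      rw [Polynomial.map_prod]
      refine Finset.prod_congr rfl fun i _ => ?_
      rw [Polynomial.map_sub, Polynomial.map_X, Polynomial.map_C]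
    rw [h7, coeff_map, coeff_sub, map_sub]
  rw [h6] at h5
  exact hη' _ h5

end final

end Vale.Agent.P011.Two2
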