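import Mathlib

/-!
Completions of a division ring with involution, and the density of the vectors of given length of
a hermitian form of rank two.
-/

open Filter

set_option linter.unusedSectionVars false

namespace Vale.Agent.P011.Two2

/-- A completion of a division ring with involution: a ring with involution and a notion of
convergence of sequences. -/
structure CData (D : Type) [DivisionRing D] [StarRing D] where
  E : Type
  [ring : Ring E]
  [nt : Nontrivial E]
  φ : D →+* E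
  σ : E → E
  σ_mul : ∀ x y, σ (x * y) = σ y * σ x
  σ_sub : ∀ x y, σ (x - y) = σ x - σ y
  σ_σ : ∀ x, σ (σ x) = x
  σ_φ : ∀ x, σ (φ x) = φ (star x)
  cv : (ℕ → D) → E → Prop
  const : ∀ x, cv (fun _ => x) (φ x)
  add : ∀ {x y : ℕ → D} {X Y : E}, cv x X → cv y Y → cv (fun j => x j + y j) (X + Y)
  sub : ∀ {x y : ℕ → D} {X Y : E}, cv x X → cv y Y → cv (fun j => x j - y j) (X - Y)
  mul : ∀ {x y : ℕ → D} {X Y : E}, cv x X → cv y Y → cv (fun j => x j * y j) (X * Y)
  star' : ∀ {x : ℕ → D} {X : E}, cv x X → cv (fun j => star (x j)) (σ X)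
  inv : ∀ {x : ℕ → D} {X Λ : E}, cv x X → X * Λ = 1 → (∀ᶠ j in atTop, x j ≠ 0) →
    cv (fun j => (x j)⁻¹) Λ
  ne : ∀ {x : ℕ → D} {X : E}, cv x X → X ≠ 0 → ∀ᶠ j in atTop, x j ≠ 0
  congr : ∀ {x y : ℕ → D} {X : E}, cv x X → (∀ᶠ j in atTop, x j = y j) → cv y X
  unique : ∀ {x : ℕ → D} {X Y : E}, cv x X → cv x Y → X = Y

attribute [instance] CData.ring CData.nt

variable {D : Type} [DivisionRing D] [StarRing D]

/-- The form `⟨b⟩ ⊥ ⟨g⟩`. -/
def bform (b g : D) (x y : D × D) : D := x.1 * b * star y.1 + x.2 * g * star y.2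

/-- The form over a completion. -/
def BB (C : CData D) (b g : D) (x y : C.E × C.E) : C.E :=
  x.1 * C.φ b * C.σ y.1 + x.2 * C.φ g * C.σ y.2

theorem bb_star {b g : D} (hb : star b = b) (hg : star g = g) (x y : D × D) :
    star (bform b g x y) = bform b g y x := by
  simp [bform, hb, hg, mul_assoc]

theorem star_two_inv [CharZero D] : star (2 : D)⁻¹ = (2 : D)⁻¹ := by
  rw [star_inv₀, star_ofNat]

theorem two_inv_comm [CharZero D] (x : D) : x * (2 : D)⁻¹ = (2 : D)⁻¹ * x := by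
  rw [mul_inv_eq_iff_eq_mul₀ two_ne_zero, mul_assoc, mul_two, mul_add, ← mul_add, ← two_mul,
    ← mul_assoc, inv_mul_cancel₀ two_ne_zero, one_mul]

/-- The quasi-reflection formula. -/
theorem bb_refl {b g : D} (hb : star b = b) (hg : star g = g) {z w : D × D} {κ : D} (hκ : κ ≠ 0)
    (h : κ + star κ = bform b g w w) :
    bform b g (z - (bform b g z w * κ⁻¹) • w) (z - (bform b g z w * κ⁻¹) • w) = bform b g z z := by
  set β := bform b g z w with hβ
  have hβ' : bform b g w z = star β := (bb_star hb hg z w).symm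
  have hκ' : star κ ≠ 0 := fun h5 => by
    apply hκ
    rw [← star_star κ, h5, star_zero]
  have h1 : ∀ a : D, bform b g (z - a • w) (z - a • w) =
      bform b g z z - a * bform b g w z - bform b g z w * star a + a * bform b g w w * star a := by
    intro a
    simp only [bform, Prod.fst_sub, Prod.snd_sub, Prod.smul_fst, Prod.smul_snd, smul_eq_mul,
      star_sub, star_mul]
    noncomm_ring
  rw [h1, hβ', ← h, ← hβ]
  simp only [star_mul, star_inv₀]
  have h2 : β * κ⁻¹ * (κ + star κ) * ((star κ)⁻¹ * star β) =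
      β * (κ⁻¹ * κ) * ((star κ)⁻¹ * star β) + β * κ⁻¹ * (star κ * (star κ)⁻¹) * star β := by
    noncomm_ring
  rw [h2, inv_mul_cancel₀ hκ, mul_inv_cancel₀ hκ']
  noncomm_ring

/-- Density of the vectors of given length, at several places simultaneously, under an
invertibility assumption. -/
theorem sphere [CharZero D] {J : Type} (C : J → CData D)
    (hsim : ∀ X : ∀ p, (C p).E, ∃ x : ℕ → D, ∀ p, (C p).cv x (X p)) {b g c : D}
    (hb : star b = b) (hg : star g = g) {z₀ : D × D} (hz₀ : bform b g z₀ z₀ = c)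
    (Z : ∀ p, (C p).E × (C p).E) (hZ : ∀ p, BB (C p) b g (Z p) (Z p) = (C p).φ c)
    (Λ : ∀ p, (C p).E)
    (hΛ : ∀ p, ((C p).φ c - BB (C p) b g ((C p).φ z₀.1, (C p).φ z₀.2) (Z p)) * Λ p = 1) :
    ∃ z : ℕ → D × D, (∀ j, bform b g (z j) (z j) = c) ∧
      ∀ p, (C p).cv (fun j => (z j).1) (Z p).1 ∧ (C p).cv (fun j => (z j).2) (Z p).2 := by
  classical
  have hcs : star c = c := by rw [← hz₀, bb_star hb hg]
  obtain ⟨w₁, hw₁⟩ := hsim fun p => (C p).φ z₀.1 - (Z p).1
  obtain ⟨w₂, hw₂⟩ := hsim fun p => (C p).φ z₀.2 - (Z p).2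
  obtain ⟨t, ht⟩ := hsim fun p =>
    (C p).φ c - BB (C p) b g ((C p).φ z₀.1, (C p).φ z₀.2) (Z p)
  obtain ⟨κ, hκ⟩ : ∃ κ : ℕ → D, ∀ j, κ j =
    (2 : D)⁻¹ * (bform b g (w₁ j, w₂ j) (w₁ j, w₂ j) + (t j - star (t j))) := ⟨_, fun _ => rfl⟩
  have hκs : ∀ j, κ j + star (κ j) = bform b g (w₁ j, w₂ j) (w₁ j, w₂ j) := by
    intro j
    have h3 := bb_star hb hg (w₁ j, w₂ j) (w₁ j, w₂ j)
    rw [hκ, star_mul, star_two_inv, two_inv_comm, ← mul_add, star_add, star_sub, star_star, h3]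
    have h5 : bform b g (w₁ j, w₂ j) (w₁ j, w₂ j) + (t j - star (t j)) +
        (bform b g (w₁ j, w₂ j) (w₁ j, w₂ j) + (star (t j) - t j)) =
        2 * bform b g (w₁ j, w₂ j) (w₁ j, w₂ j) := by
      rw [two_mul]
      abel
    rw [h5, ← mul_assoc, inv_mul_cancel₀ two_ne_zero, one_mul]
  -- the limits
  have hbb : ∀ p, ∀ {x y : ℕ → D × D} {X Y : (C p).E × (C p).E},
      (C p).cv (fun j => (x j).1) X.1 → (C p).cv (fun j => (x j).2) X.2 →
      (C p).cv (fun j => (y j).1) Y.1 → (C p).cv (fun j => (y j).2) Y.2 →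
      (C p).cv (fun j => bform b g (x j) (y j)) (BB (C p) b g X Y) := by
    intro p x y X Y h1 h2 h3 h4
    exact (C p).add ((C p).mul ((C p).mul h1 ((C p).const b)) ((C p).star' h3))
      ((C p).mul ((C p).mul h2 ((C p).const g)) ((C p).star' h4))
  have hκc : ∀ p, (C p).cv κ
      ((C p).φ c - BB (C p) b g ((C p).φ z₀.1, (C p).φ z₀.2) (Z p)) := by
    intro p
    set T := (C p).φ c - BB (C p) b g ((C p).φ z₀.1, (C p).φ z₀.2) (Z p) with hT
    set W : (C p).E × (C p).E := ((C p).φ z₀.1 - (Z p).1, (C p).φ z₀.2 - (Z p).2) with hW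
    have h1 := (C p).mul ((C p).const (2 : D)⁻¹) ((C p).add
      (hbb p (x := fun j => (w₁ j, w₂ j)) (y := fun j => (w₁ j, w₂ j)) (X := W) (Y := W)
        (hw₁ p) (hw₂ p) (hw₁ p) (hw₂ p)) ((C p).sub (ht p) ((C p).star' (ht p))))
    have hσT : (C p).σ T = (C p).φ c - BB (C p) b g (Z p) ((C p).φ z₀.1, (C p).φ z₀.2) := by
      rw [hT, (C p).σ_sub, (C p).σ_φ, hcs]
      congr 1
      have hadd : ∀ x y, (C p).σ (x + y) = (C p).σ x + (C p).σ y := by
        intro x y
        have h0 : (C p).σ 0 = 0 := by simpa using (C p).σ_sub 0 0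
        have h2 : (C p).σ (-y) = -(C p).σ y := by
          rw [← zero_sub, (C p).σ_sub, h0, zero_sub]
        rw [← sub_neg_eq_add, (C p).σ_sub, h2, sub_neg_eq_add]
      simp only [BB, hadd, (C p).σ_mul, (C p).σ_σ, (C p).σ_φ, hb, hg, mul_assoc]
    have hWW : BB (C p) b g W W = T + (C p).σ T := by
      rw [hσT, hT]
      have h2 : BB (C p) b g ((C p).φ z₀.1, (C p).φ z₀.2) ((C p).φ z₀.1, (C p).φ z₀.2) =
          (C p).φ c := by
        rw [← hz₀]
        simp only [BB, bform, (C p).σ_φ, map_add, map_mul]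
      have h3 : BB (C p) b g W W = BB (C p) b g ((C p).φ z₀.1, (C p).φ z₀.2)
          ((C p).φ z₀.1, (C p).φ z₀.2) - BB (C p) b g ((C p).φ z₀.1, (C p).φ z₀.2) (Z p) -
          BB (C p) b g (Z p) ((C p).φ z₀.1, (C p).φ z₀.2) + BB (C p) b g (Z p) (Z p) := by
        simp only [BB, hW, (C p).σ_sub]
        noncomm_ring
      rw [h3, h2, hZ p]
      abel
    have h4 : (C p).φ (2 : D)⁻¹ * (BB (C p) b g W W + (T - (C p).σ T)) = T := by
      rw [hWW]
      have h5 : T + (C p).σ T + (T - (C p).σ T) = (C p).φ 2 * T := by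
        have h6 : (C p).φ 2 = 1 + 1 := by rw [← one_add_one_eq_two, map_add, map_one]
        rw [h6, add_mul, one_mul]
        abel
      rw [h5, ← mul_assoc, ← map_mul, inv_mul_cancel₀ two_ne_zero, map_one, one_mul]
    rw [← hT, h4] at h1
    exact (C p).congr h1 (Eventually.of_forall fun j => (hκ j).symm)
  refine ⟨fun j => if κ j = 0 then z₀ else
    z₀ - (bform b g z₀ (w₁ j, w₂ j) * (κ j)⁻¹) • (w₁ j, w₂ j), fun j => ?_, fun p => ?_⟩
  · dsimp only
    split_ifs with h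
    · exact hz₀
    · rw [bb_refl hb hg h (hκs j), hz₀]
  · have hκ0 : ∀ᶠ j in atTop, κ j ≠ 0 := by
      refine (C p).ne (hκc p) fun h => ?_
      have h1 := hΛ p
      rw [h, zero_mul] at h1
      exact zero_ne_one h1
    have h3 := (C p).inv (hκc p) (hΛ p) hκ0
    have h5 := hbb p (x := fun _ => z₀) (y := fun j => (w₁ j, w₂ j))
      (X := ((C p).φ z₀.1, (C p).φ z₀.2))
      (Y := ((C p).φ z₀.1 - (Z p).1, (C p).φ z₀.2 - (Z p).2))
      ((C p).const _) ((C p).const _) (hw₁ p) (hw₂ p)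
    have h6 : BB (C p) b g ((C p).φ z₀.1, (C p).φ z₀.2)
        ((C p).φ z₀.1 - (Z p).1, (C p).φ z₀.2 - (Z p).2) =
        (C p).φ c - BB (C p) b g ((C p).φ z₀.1, (C p).φ z₀.2) (Z p) := by
      rw [← hz₀]
      simp only [BB, bform, (C p).σ_sub, (C p).σ_φ, map_add, map_mul]
      noncomm_ring
    rw [h6] at h5
    have h7 := (C p).mul h5 h3
    rw [hΛ p] at h7
    constructor
    · have h8 := (C p).sub ((C p).const z₀.1) ((C p).mul h7 (hw₁ p))
      rw [one_mul, sub_sub_cancel] at h8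
      refine (C p).congr h8 ?_
      filter_upwards [hκ0] with j hj
      rw [if_neg hj]
      rfl
    · have h8 := (C p).sub ((C p).const z₀.2) ((C p).mul h7 (hw₂ p))
      rw [one_mul, sub_sub_cancel] at h8
      refine (C p).congr h8 ?_
      filter_upwards [hκ0] with j hj
      rw [if_neg hj]
      rfl

end Vale.Agent.P011.Two2
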