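import Vale.Agent.P011.Two2.PFin

/-!
From one global solution and local solutions to global solutions close to the local ones.
-/

open Filter NumberField IsDedekindDomain Topology Matrix Module

set_option linter.unusedSectionVars false

namespace Vale.Agent.P011.Two2

open Vale.Agent.P011.Arith Vale.Agent.P011.Even

variable {k K D : Type} [Field k] [NumberField k] [Field K] [StarRing K]
  [DivisionRing D] [StarRing D] [Algebra k K] [Algebra k D] [Algebra K D] [IsScalarTower k K D]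
  {d : kˣ} {s : K} {n N : ℕ}

/-- Simultaneous approximation. -/
theorem exists_sim (B : Module.Basis (Fin N) k D) {T : Set (Pl k)} (hT : T.Finite)
    (P : ∀ p : T, PData B (p : Pl k) s n) (X : ∀ p : T, (P p).C.E) :
    ∃ x : ℕ → D, ∀ p : T, (P p).C.cv x (X p) := by
  classical
  choose Y hY using fun p : T => (P p).surj (X p)
  have h1 : ∀ j : ℕ, ∃ x : D, ∀ p ∈ T,
      nm B p (x - (if h : p ∈ T then Y ⟨p, h⟩ j else 0)) < 1 / ((j : ℝ) + 1) := fun j =>
    approxD B T hT (fun p => if h : p ∈ T then Y ⟨p, h⟩ j else 0) (fun _ => 1 / ((j : ℝ) + 1))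
      (fun _ => by positivity)
  choose x hx using h1
  refine ⟨x, fun p => (P p).near (hY p) ?_⟩
  refine squeeze_zero (fun j => nm_nonneg _ _ _) (fun j => ?_)
    tendsto_one_div_add_atTop_nhds_zero_nat
  have h2 := hx j p p.2
  rw [dif_pos p.2] at h2
  exact h2.le

theorem dense_of_sol (hS : Setting k K D d s) (hn : 0 < n) (B : Module.Basis (Fin N) k D)
    {b r₀ r₁ : D} (hb : star b = b) (h0 : star r₀ = r₀) (h10 : r₁ ≠ 0)
    {T : Set (Pl k)} (hT : T.Finite) (hTne : T.Nonempty) (R : Pl k → D) (δ : Pl k → ℝ)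
    (hδ : ∀ p, 0 < δ p) (hR0 : ∀ p ∈ T, R p ≠ 0)
    (hloc : ∀ p ∈ T, ∃ (P : PData B p s n) (t x : P.C.E),
      t * P.C.φ r₀ * P.C.σ t = P.C.φ (R p) ∧ x * P.C.φ (b + R p) * P.C.σ x = P.C.φ r₁)
    {z₀ : D × D} (hz₀ : bform b r₀ z₀ z₀ = r₁) :
    ∃ t x : D, t ≠ 0 ∧ x ≠ 0 ∧ b + t * r₀ * star t = x * r₁ * star x ∧
      ∀ p ∈ T, nm B p (t * r₀ * star t - R p) < δ p := by
  have hfin : Finite T := hT
  choose P t x ht hx using fun p : T => hloc p p.2
  obtain ⟨z, hz, hzc⟩ := sphere_dense hS hn (fun p : T => (P p).C) (fun p => (P p).M)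
    (exists_sim B hT P) hb h0 h10 hz₀ (fun p => (x p, x p * t p)) (fun p => by
      simp only [BB, (P p).C.σ_mul]
      have h1 : x p * t p * (P p).C.φ r₀ * ((P p).C.σ (t p) * (P p).C.σ (x p)) =
          x p * (t p * (P p).C.φ r₀ * (P p).C.σ (t p)) * (P p).C.σ (x p) := by
        simp only [mul_assoc]
      rw [h1, ht, ← add_mul, ← mul_add, ← map_add, hx])
  -- the inverse of the first coordinate
  obtain ⟨Λ, hΛ⟩ : ∃ Λ : ∀ p : T, (P p).C.E, ∀ p, x p * Λ p = 1 := by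
    refine ⟨fun p => (P p).C.φ (b + R p) * (P p).C.σ (x p) * (P p).C.φ r₁⁻¹, fun p => ?_⟩
    rw [← mul_assoc, ← mul_assoc, hx, ← map_mul, mul_inv_cancel₀ h10, map_one]
  have hne1 : ∀ p : T, ∀ᶠ j in atTop, (z j).1 ≠ 0 := fun p => by
    refine (P p).C.ne (hzc p).1 fun h => ?_
    have h1 := hΛ p
    rw [show x p = 0 from h, zero_mul] at h1
    exact zero_ne_one h1
  have hinv : ∀ p : T, (P p).C.cv (fun j => ((z j).1)⁻¹) (Λ p) := fun p =>
    (P p).C.inv (hzc p).1 (hΛ p) (hne1 p)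
  have hΛ' : ∀ p : T, Λ p * x p = 1 := by
    intro p
    have h1 := (P p).C.mul (hinv p) (hzc p).1
    have h2 : (P p).C.cv (fun j => ((z j).1)⁻¹ * (z j).1) ((P p).C.φ 1) := by
      refine (P p).C.congr ((P p).C.const 1) ?_
      filter_upwards [hne1 p] with j hj
      rw [inv_mul_cancel₀ hj]
    have h3 := (P p).C.unique h1 h2
    rw [map_one] at h3
    exact h3
  have htc : ∀ p : T, (P p).C.cv (fun j => ((z j).1)⁻¹ * (z j).2) (t p) := by
    intro p
    have h1 := (P p).C.mul (hinv p) (hzc p).2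
    rwa [← mul_assoc, hΛ', one_mul] at h1
  have htne : ∀ p : T, ∀ᶠ j in atTop, ((z j).1)⁻¹ * (z j).2 ≠ 0 := by
    intro p
    refine (P p).C.ne (htc p) fun h => ?_
    have h1 := ht p
    rw [h, zero_mul, zero_mul] at h1
    exact hR0 p p.2 ((P p).C.φ.injective (by rw [← h1, map_zero]))
  have hrc : ∀ p : T, (P p).C.cv (fun j => ((z j).1)⁻¹ * (z j).2 * r₀ *
      star (((z j).1)⁻¹ * (z j).2)) ((P p).C.φ (R p)) := by
    intro p
    have h1 := (P p).C.mul ((P p).C.mul (htc p) ((P p).C.const r₀)) ((P p).C.star' (htc p))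
    rwa [ht] at h1
  have hev : ∀ᶠ j in atTop, ∀ p : T, nm B p (((z j).1)⁻¹ * (z j).2 * r₀ *
      star (((z j).1)⁻¹ * (z j).2) - R p) < δ p := by
    rw [eventually_all]
    intro p
    exact ((P p).size (hrc p)).eventually (Iio_mem_nhds (hδ p))
  obtain ⟨p₀, hp₀⟩ := hTne
  obtain ⟨j, hj1, hj2, hj3⟩ := ((hne1 ⟨p₀, hp₀⟩).and ((htne ⟨p₀, hp₀⟩).and hev)).exists
  refine ⟨((z j).1)⁻¹ * (z j).2, ((z j).1)⁻¹, hj2, inv_ne_zero hj1, ?_, fun p hp => hj3 ⟨p, hp⟩⟩
  have hs1 : star (z j).1 ≠ 0 := star_ne_zero.mpr hj1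
  rw [← hz j, bform, mul_add, add_mul, star_mul, star_inv₀]
  congr 1
  · calc b = ((z j).1)⁻¹ * (z j).1 * b * (star (z j).1 * (star (z j).1)⁻¹) := by
          rw [inv_mul_cancel₀ hj1, mul_inv_cancel₀ hs1, one_mul, mul_one]
      _ = _ := by simp only [mul_assoc]
  · simp only [mul_assoc]

end Vale.Agent.P011.Two2
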