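import Vale.Agent.P011.Even.DiagPair
import Vale.Agent.P011.Even.LocDefs

/-!
Hermitian matrices over a quadratic extension of a local field: choice of a matrix in a
prescribed relative position to two given ones.
-/

open Module Matrix Polynomial
open Vale.Agent.P011.T2

namespace Vale.Agent.P011.Two2

open Vale.Agent.P011.Even

section orth

variable {E L : Type} [Field E] [Field L] [CharZero L] [StarRing L] [Algebra E L]

/-- Orthogonal bases with a prescribed first vector. -/
theorem exists_orth_basis_at {d : E} (hQ : QuadL E L d) (n : ℕ) (V : Type) [AddCommGroup V]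
    [Module L V] [FiniteDimensional L V] (b : HF L V) (hb : b.Nondeg) (hV : finrank L V = n + 1)
    {x : V} (hx : b.h x x ≠ 0) : ∃ w : Basis (Fin (n + 1)) L V, w 0 = x ∧
      (∀ i j, i ≠ j → b.h (w i) (w j) = 0) ∧ ∀ i, b.h (w i) (w i) ≠ 0 := by
  let U : Submodule L V := LinearMap.ker (b.lin x)
  have hU : ∀ y, y ∈ U ↔ b.h y x = 0 := fun y => LinearMap.mem_ker
  have hdec : ∀ y : V, y - (b.h y x / b.h x x) • x ∈ U := by
    intro y
    rw [hU, b.sub_left, b.smul_left, div_mul_cancel₀ _ hx, sub_self]
  have hUn : finrank L U = n := by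
    have h1 : finrank L (LinearMap.range (b.lin x)) + finrank L U = finrank L V :=
      LinearMap.finrank_range_add_finrank_ker (b.lin x)
    have h2 : LinearMap.range (b.lin x) = ⊤ := by
      rw [LinearMap.range_eq_top]
      intro l
      refine ⟨(l / b.h x x) • x, ?_⟩
      rw [b.lin_apply, b.smul_left, div_mul_cancel₀ _ hx]
    rw [h2, finrank_top, Module.finrank_self] at h1
    omega
  obtain ⟨w, hw1, hw2⟩ := RP.exists_orth_basis hQ n U (b.sub U) (by
    rintro ⟨y, hy⟩ h
    apply Subtype.ext
    apply hb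
    intro z
    have h1 := h ⟨_, hdec z⟩
    have h2 : b.h y (z - (b.h z x / b.h x x) • x) = 0 := h1
    rw [b.sub_right, b.smul_right, (hU y).mp hy, zero_mul, sub_zero] at h2
    exact h2) hUn
  let w' : Basis (Fin (n + 1)) L V := Module.Basis.mkFinCons x w (by
      intro c y hy h
      have h3 := (hU y).mp hy
      have h4 : y = -(c • x) := by
        rw [← add_eq_zero_iff_eq_neg, add_comm]; exact h
      rw [h4, b.neg_left, b.smul_left, neg_eq_zero] at h3
      exact (mul_eq_zero.mp h3).resolve_right hx) (by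
      intro z
      refine ⟨-(b.h z x / b.h x x), ?_⟩
      have := hdec z
      rwa [sub_eq_add_neg, ← neg_smul] at this)
  have hw' : (w' : Fin (n + 1) → V) = Fin.cons x (fun i => (w i : V)) :=
    Module.Basis.coe_mkFinCons x w _ _
  have hwx : ∀ i, b.h (w i : V) x = 0 := fun i => (hU _).mp (w i).2
  have hxw : ∀ i, b.h x (w i : V) = 0 := fun i => by rw [← b.star_h, hwx, star_zero]
  refine ⟨w', by rw [hw']; rfl, ?_, ?_⟩
  · intro i j hij
    rw [hw']
    induction i using Fin.cases with
    | zero =>
      induction j using Fin.cases with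
      | zero => exact absurd rfl hij
      | succ j => exact hxw j
    | succ i =>
      induction j using Fin.cases with
      | zero => exact hwx i
      | succ j => exact hw1 i j fun h => hij (congrArg Fin.succ h)
  · intro i
    rw [hw']
    induction i using Fin.cases with
    | zero => exact hx
    | succ i => exact hw2 i

/-- A vector which is anisotropic for two forms. -/
theorem exists_common {d : E} (hQ : QuadL E L d) {V : Type} [AddCommGroup V]
    [Module L V] (b c : HF L V) (hb : b.Nondeg) (hc : c.Nondeg) (hV : ∃ x : V, x ≠ 0) :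
    ∃ x, b.h x x ≠ 0 ∧ c.h x x ≠ 0 := by
  obtain ⟨z, hz⟩ := hV
  obtain ⟨x, hx⟩ := b.exists_ne hb hQ hz
  obtain ⟨y, hy⟩ := c.exists_ne hc hQ hz
  by_cases h1 : c.h x x = 0
  · by_cases h2 : b.h y y = 0
    · have e1 : ∀ t : L, star t = t → b.h (x + t • y) (x + t • y) =
          b.h x x + t * (b.h x y + b.h y x) := by
        intro t ht
        rw [b.add_left, b.add_right, b.add_right, b.smul_left, b.smul_left, b.smul_right,
          b.smul_right, h2, ht]
        ring
      have e2 : ∀ t : L, star t = t → c.h (x + t • y) (x + t • y) =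
          t * ((c.h x y + c.h y x) + t * c.h y y) := by
        intro t ht
        rw [c.add_left, c.add_right, c.add_right, c.smul_left, c.smul_left, c.smul_right,
          c.smul_right, h1, ht]
        ring
      by_contra hcon
      push Not at hcon
      have key : ∀ t : L, star t = t → t ≠ 0 → b.h x x + t * (b.h x y + b.h y x) ≠ 0 →
          (c.h x y + c.h y x) + t * c.h y y = 0 := by
        intro t ht ht0 h
        have h3 := hcon (x + t • y) (by rw [e1 t ht]; exact h)
        rw [e2 t ht] at h3
        exact (mul_eq_zero.mp h3).resolve_left ht0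
      have hs1 : star (1 : L) = 1 := star_one L
      have hs2 : star (2 : L) = 2 := star_ofNat 2
      have hs3 : star (3 : L) = 3 := star_ofNat 3
      set A := b.h x x
      set B := b.h x y + b.h y x
      set C := c.h x y + c.h y x
      set G := c.h y y
      have k1 := key 1 hs1 one_ne_zero
      have k2 := key 2 hs2 two_ne_zero
      have k3 := key 3 hs3 three_ne_zero
      by_cases g1 : A + 1 * B = 0
      · have g2 : A + 2 * B ≠ 0 := by
          intro h
          apply hx
          linear_combination 2 * g1 - h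
        have g3 : A + 3 * B ≠ 0 := by
          intro h
          apply hx
          have h5 : 2 * A = 0 := by linear_combination 3 * g1 - h
          exact (mul_eq_zero.mp h5).resolve_left two_ne_zero
        apply hy
        linear_combination k3 g3 - k2 g2
      · by_cases g2 : A + 2 * B = 0
        · have g3 : A + 3 * B ≠ 0 := by
            intro h
            apply hx
            linear_combination 3 * g2 - 2 * h
          have h5 : 2 * G = 0 := by linear_combination k3 g3 - k1 g1
          exact hy ((mul_eq_zero.mp h5).resolve_left two_ne_zero)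
        · apply hy
          linear_combination k2 g2 - k1 g1
    · exact ⟨y, h2, hy⟩
  · exact ⟨x, hx, h1⟩

end orth

section diag

variable {F L : Type} [Field F] [Field L] [CharZero L] [StarRing L] [Algebra F L] {d : F}

/-- Diagonalisation of a hermitian matrix, with a nonzero diagonal entry of another one. -/
theorem exists_diag_at (hQ : QuadL F L d) {n : ℕ} (H H' : Matrix (Fin (n + 1)) (Fin (n + 1)) L)
    (hH : Hᴴ = H) (hH' : H'ᴴ = H') (hd : H.det ≠ 0) (hd' : H'.det ≠ 0) :
    ∃ (P : Matrix (Fin (n + 1)) (Fin (n + 1)) L) (μ : Fin (n + 1) → Fˣ) (β : Fˣ), IsUnit P ∧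
      P * H * Pᴴ = Matrix.diagonal (fun i => algebraMap F L (μ i)) ∧
      (P * H' * Pᴴ) 0 0 = algebraMap F L β := by
  obtain ⟨x, hx, hx'⟩ := exists_common hQ (rowHF H hH) (rowHF H' hH') (rowHF_nondeg H hH hd)
    (rowHF_nondeg H' hH' hd') ⟨fun _ => 1, fun h => one_ne_zero (congrFun h 0)⟩
  obtain ⟨w, hw0, hw1, hw2⟩ := exists_orth_basis_at hQ n (Fin (n + 1) → L) (rowHF H hH)
    (rowHF_nondeg H hH hd) (Module.finrank_fin_fun L) hx
  choose δ hδ using fun i => hQ.fix _ ((rowHF H hH).star_h (w i) (w i))
  have hδ0 : ∀ i, δ i ≠ 0 := by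
    intro i h0
    apply hw2 i
    rw [← hδ, h0, map_zero]
  obtain ⟨β, hβ⟩ := hQ.fix _ ((rowHF H' hH').star_h x x)
  have hβ0 : β ≠ 0 := by
    intro h0
    apply hx'
    rw [← hβ, h0, map_zero]
  let P : Matrix (Fin (n + 1)) (Fin (n + 1)) L := Matrix.of fun i => w i
  have hP : ∀ (X : Matrix (Fin (n + 1)) (Fin (n + 1)) L) (hX : Xᴴ = X) i j, (P * X * Pᴴ) i j =
      (rowHF X hX).h (w i) (w j) := by
    intro X hX i j
    rw [Matrix.mul_apply]
    simp only [Matrix.mul_apply, Finset.sum_mul, Matrix.conjTranspose_apply]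
    rw [Finset.sum_comm]
    rfl
  refine ⟨P, fun i => Units.mk0 (δ i) (hδ0 i), Units.mk0 β hβ0, ?_, ?_, ?_⟩
  · have h1 : P.transpose = (Pi.basisFun L (Fin (n + 1))).toMatrix w := by
      ext i j
      rw [Matrix.transpose_apply, Basis.toMatrix_apply, Pi.basisFun_repr]
      rfl
    rw [← Matrix.isUnit_transpose, h1]
    exact ⟨⟨_, _, (Pi.basisFun L (Fin (n + 1))).toMatrix_mul_toMatrix_flip w,
      w.toMatrix_mul_toMatrix_flip (Pi.basisFun L (Fin (n + 1)))⟩, rfl⟩
  · ext i j
    rw [hP H hH, Matrix.diagonal_apply]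
    split_ifs with hij
    · subst hij
      rw [← hδ]
      rfl
    · exact hw1 i j hij
  · rw [hP H' hH', hw0, ← hβ]
    rfl

end diag

section limit

variable {F L : Type} [NormedField F] [Field L] [Algebra F L]

/-- The determinant of a sum with a large diagonal matrix. -/
theorem det_limit {n : ℕ} (B : Matrix (Fin (n + 1)) (Fin (n + 1)) L) (la : L →ₗ[F] F) (a : L)
    (κ : Fin n → F) (hκ : ∀ i, κ i ≠ 0) {ε : ℝ} (hε : 0 < ε) :
    ∃ δ : ℝ, 0 < δ ∧ ∀ τ : F, τ ≠ 0 → ‖τ‖ < δ →
      ‖la ((∏ i, algebraMap F L (κ i * τ)) * (B + Matrix.diagonal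
        (Fin.cons a fun i => (algebraMap F L (κ i * τ))⁻¹ : Fin (n + 1) → L)).det) -
        la (B 0 0 + a)‖ < ε := by
  classical
  let M : Matrix (Fin (n + 1)) (Fin (n + 1)) L[X] := Matrix.of fun i j =>
    (Fin.cons (C (B 0 j + if j = 0 then a else 0))
      (fun i' => X * C (algebraMap F L (κ i') * B i'.succ j) +
        C (if i'.succ = j then 1 else 0)) : Fin (n + 1) → L[X]) i
  have hM : ∀ τ : F, τ ≠ 0 → M.det.eval (algebraMap F L τ) =
      (∏ i, algebraMap F L (κ i * τ)) * (B + Matrix.diagonal
        (Fin.cons a fun i => (algebraMap F L (κ i * τ))⁻¹ : Fin (n + 1) → L)).det := by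
    intro τ hτ
    have h1 : M.det.eval (algebraMap F L τ) =
        ((evalRingHom (algebraMap F L τ)).mapMatrix M).det := by
      rw [← RingHom.map_det]; rfl
    have h2 : (evalRingHom (algebraMap F L τ)).mapMatrix M =
        Matrix.diagonal (Fin.cons 1 fun i => algebraMap F L (κ i * τ) : Fin (n + 1) → L) *
        (B + Matrix.diagonal
        (Fin.cons a fun i => (algebraMap F L (κ i * τ))⁻¹ : Fin (n + 1) → L)) := by
      ext i j
      rw [Matrix.diagonal_mul, RingHom.mapMatrix_apply, Matrix.map_apply, Matrix.add_apply,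
        Matrix.diagonal_apply]
      refine Fin.cases ?_ (fun i => ?_) i
      · simp only [M, Matrix.of_apply, Fin.cons_zero, coe_evalRingHom, eval_C, one_mul]
        congr 1
        by_cases hj : j = 0
        · rw [if_pos hj, if_pos hj.symm]
        · rw [if_neg hj, if_neg (Ne.symm hj)]
      · simp only [M, Matrix.of_apply, Fin.cons_succ, coe_evalRingHom, eval_add, eval_mul, eval_X,
          eval_C]
        have h3 : algebraMap F L (κ i * τ) ≠ 0 :=
          (_root_.map_ne_zero _).mpr (mul_ne_zero (hκ i) hτ)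
        rw [mul_add, map_mul]
        congr 1
        · ring
        · by_cases hij : i.succ = j
          · rw [if_pos hij, if_pos hij, ← map_mul, mul_inv_cancel₀ h3]
          · rw [if_neg hij, if_neg hij, mul_zero]
    rw [h1, h2, Matrix.det_mul, Matrix.det_diagonal, Fin.prod_univ_succ, Fin.cons_zero, one_mul]
    simp only [Fin.cons_succ]
  have h0 : M.det.eval 0 = B 0 0 + a := by
    have h1 : M.det.eval 0 = ((evalRingHom (0 : L)).mapMatrix M).det := by
      rw [← RingHom.map_det]; rfl
    rw [h1, Matrix.det_of_isUpperTriangular]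
    · rw [Fin.prod_univ_succ, Finset.prod_eq_one, mul_one]
      · simp [M]
      · intro i _
        simp [M]
    · intro i j hij
      have hij' : j < i := hij
      rw [RingHom.mapMatrix_apply, Matrix.map_apply]
      induction i using Fin.cases with
      | zero => exact absurd hij' (Fin.not_lt_zero j)
      | succ i =>
        simp only [M, Matrix.of_apply, Fin.cons_succ, coe_evalRingHom, eval_add, eval_mul, eval_X,
          eval_C, zero_mul, zero_add]
        rw [if_neg hij'.ne']
  have hcont : Continuous fun τ : F => la (M.det.eval (algebraMap F L τ)) := by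
    have h1 : (fun τ : F => la (M.det.eval (algebraMap F L τ))) =
        fun τ => ∑ i ∈ Finset.range (M.det.natDegree + 1), la (M.det.coeff i) * τ ^ i := by
      funext τ
      rw [Polynomial.eval_eq_sum_range, map_sum]
      refine Finset.sum_congr rfl fun i _ => ?_
      rw [← map_pow, mul_comm, ← Algebra.smul_def, map_smul, smul_eq_mul, mul_comm]
    rw [h1]
    fun_prop
  obtain ⟨δ, hδ, h⟩ := Metric.continuousAt_iff.mp (hcont.continuousAt (x := 0)) ε hε
  refine ⟨δ, hδ, fun τ hτ0 hτ => ?_⟩
  have h1 := h (x := τ) (by rwa [dist_zero_right])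
  rwa [hM τ hτ0, map_zero, h0, dist_eq_norm] at h1

end limit

section coset

variable {F : Type} [Field F]

/-- A norm which is not a square. -/
theorem exists_nonsquare_norm (hF : IndexTwo F) (d : Fˣ) (hd : ¬ IsSquare (d : F)) :
    ∃ u ∈ LN d, ¬ IsSquare (u : F) := by
  by_cases h1 : IsSquare ((-d : Fˣ) : F)
  · obtain ⟨b, hb, c, hc, g, hg, hgbc⟩ := hF.cone d hd
    by_contra hcon
    push Not at hcon
    obtain ⟨x, hx⟩ := hcon b hb
    obtain ⟨y, hy⟩ := hcon c hc
    obtain ⟨e, he⟩ := h1
    have he0 : e ≠ 0 := by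
      rintro rfl
      rw [mul_zero] at he
      exact (-d).ne_zero he
    apply hg
    refine ⟨x, y / e, ?_⟩
    rw [Units.val_neg] at he
    rw [hgbc, hx, hy]
    field_simp
    linear_combination (-y ^ 2) * he
  · exact ⟨-d, ⟨0, 1, by rw [Units.val_neg]; ring⟩, h1⟩

/-- Every coset of the norm group contains an element which is not a square. -/
theorem exists_nonsquare_coset (hF : IndexTwo F) (d : Fˣ) (hd : ¬ IsSquare (d : F)) (x : Fˣ) :
    ∃ y : Fˣ, ¬ IsSquare (y : F) ∧ y * x ∈ LN d := by
  by_cases hx : IsSquare (x : F)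
  · obtain ⟨u, hu, hus⟩ := exists_nonsquare_norm hF d hd
    refine ⟨u, hus, Subgroup.mul_mem _ hu ?_⟩
    obtain ⟨r, hr⟩ := hx
    exact ⟨r, 0, by rw [hr]; ring⟩
  · exact ⟨x, hx, ⟨x, 0, by push_cast; ring⟩⟩

end coset

end Vale.Agent.P011.Two2
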