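import Vale.Agent.P011.Two2.CData

/-!
Isotropic hermitian forms of rank two represent every symmetric element.
-/

namespace Vale.Agent.P011.Two2

variable {D : Type} [DivisionRing D] [StarRing D]

/-- An isotropic form of rank two represents every symmetric element. -/
theorem exists_of_isotropic [CharZero D] {b g c : D} (hb : star b = b) (hg : star g = g)
    (hc : star c = c) (hb0 : b ≠ 0) (hg0 : g ≠ 0) {u : D × D} (hu : u ≠ 0)
    (hu0 : bform b g u u = 0) : ∃ z : D × D, bform b g z z = c := by
  obtain ⟨w, hw⟩ : ∃ w : D × D, bform b g u w ≠ 0 := by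
    by_cases h1 : u.1 = 0
    · have h2 : u.2 ≠ 0 := fun h2 => hu (Prod.ext h1 h2)
      refine ⟨(0, 1), ?_⟩
      simp only [bform, star_zero, mul_zero, star_one, mul_one, zero_add]
      exact mul_ne_zero h2 hg0
    · refine ⟨(1, 0), ?_⟩
      simp only [bform, star_zero, mul_zero, star_one, mul_one, add_zero]
      exact mul_ne_zero h1 hb0
  obtain ⟨β, hβ⟩ : ∃ β : D, β = bform b g u w := ⟨_, rfl⟩
  rw [← hβ] at hw
  have hβ' : bform b g w u = star β := by rw [hβ, bb_star hb hg]
  obtain ⟨a, ha⟩ : ∃ a : D, a = 2⁻¹ * (c - bform b g w w) := ⟨_, rfl⟩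
  have hcw : star (c - bform b g w w) = c - bform b g w w := by rw [star_sub, hc, bb_star hb hg]
  have has : star a = a := by
    rw [ha, star_mul, star_two_inv, hcw, two_inv_comm]
  have haa : a + a = c - bform b g w w := by
    rw [ha, ← two_mul, ← mul_assoc, mul_inv_cancel₀ two_ne_zero, one_mul]
  refine ⟨(a * β⁻¹) • u + w, ?_⟩
  have h1 : ∀ α : D, bform b g (α • u + w) (α • u + w) = α * bform b g u u * star α +
      α * bform b g u w + bform b g w u * star α + bform b g w w := by
    intro α
    simp only [bform, Prod.fst_add, Prod.snd_add, Prod.smul_fst, Prod.smul_snd, smul_eq_mul,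
      star_add, star_mul]
    noncomm_ring
  rw [h1, hu0, mul_zero, zero_mul, zero_add, ← hβ, hβ', ← star_mul, mul_assoc,
    inv_mul_cancel₀ hw, mul_one, has, haa, sub_add_cancel]

end Vale.Agent.P011.Two2
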