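import Vale.Agent.P011.Two2.Path
import Vale.Agent.P011.RP.Basic

/-!
Positivity of the lengths attached to a sesquilinear plane with positive hermitian part, and the
strict inequality `b < 4 m`.
-/

open Module Matrix
open scoped ComplexOrder

namespace Vale.Agent.P011.Two2

open Vale.Agent.P011.RP (RData)

section alg

variable {D : Type} [DivisionRing D] [StarRing D]

/-- The inverse of a Schur complement. -/
theorem schur_inv {a c e b : D} (ha : a ≠ 0) (hs : star a = a) (hc : c ≠ 0) (hb : b ≠ 0)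
    (h : b = c - star e * a⁻¹ * e) :
    (a - e * c⁻¹ * star e) * (a⁻¹ + a⁻¹ * e * b⁻¹ * star (a⁻¹ * e)) = 1 := by
  have h1 : star e * a⁻¹ * e = c - b := by rw [h]; abel
  have h2 : c⁻¹ * (star e * a⁻¹ * e) * b⁻¹ = b⁻¹ - c⁻¹ := by
    rw [h1, mul_sub, sub_mul, inv_mul_cancel₀ hc, one_mul, mul_assoc, mul_inv_cancel₀ hb, mul_one]
  have h3 : star (a⁻¹ * e) = star e * a⁻¹ := by rw [star_mul, star_inv₀, hs]
  rw [h3]
  calc (a - e * c⁻¹ * star e) * (a⁻¹ + a⁻¹ * e * b⁻¹ * (star e * a⁻¹))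
      = a * a⁻¹ + a * a⁻¹ * e * b⁻¹ * star e * a⁻¹ - e * c⁻¹ * star e * a⁻¹
        - e * (c⁻¹ * (star e * a⁻¹ * e) * b⁻¹) * star e * a⁻¹ := by noncomm_ring
    _ = 1 := by rw [h2, mul_inv_cancel₀ ha]; noncomm_ring

end alg

section pos

variable {K D : Type} [Field K] [StarRing K] [DivisionRing D] [StarRing D] [Algebra K D] {n : ℕ}

theorem posAt_star (hn : 0 < n) {R : RData K D n} {x : D} (h : R.PosAt x) : star x = x := by
  have h1 : R.f (star x) * R.A = R.f x * R.A := by
    have h2 : (R.f x * R.A)ᴴ = R.f x * R.A := h.1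
    rw [R.star_f, ← h2, Matrix.conjTranspose_mul, R.hA]
  have h2 : R.f (star x) = R.f x := R.unit.mul_left_injective h1
  have h3 : Function.Injective R.f := by
    have : Nonempty (Fin n) := ⟨⟨0, hn⟩⟩
    exact R.f.injective
  exact h3 h2

theorem posAt_ne (hn : 0 < n) {R : RData K D n} {x : D} (h : R.PosAt x) : x ≠ 0 := by
  rintro rfl
  have h1 : (0 : Matrix (Fin n) (Fin n) ℂ).PosDef := by
    have := h
    rwa [RData.PosAt, map_zero, zero_mul] at this
  have : Nonempty (Fin n) := ⟨⟨0, hn⟩⟩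
  have h2 := h1.diag_pos (i := ⟨0, hn⟩)
  exact absurd h2 (by simp)

theorem posAt_add {R : RData K D n} {x y : D} (hx : R.PosAt x) (hy : R.PosAt y) :
    R.PosAt (x + y) := by
  rw [RData.PosAt, map_add, add_mul]
  exact hx.add hy

theorem posAt_conj {R : RData K D n} {x q : D} (hx : R.PosAt x) (hq : q ≠ 0) :
    R.PosAt (q * x * star q) := by
  have h1 : R.f (q * x * star q) * R.A = R.f q * (R.f x * R.A) * (R.f q)ᴴ := by
    rw [map_mul, map_mul, mul_assoc, R.star_f]
    simp only [mul_assoc]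
  have hu : IsUnit (R.f q) := (IsUnit.mk0 q hq).map R.f
  rw [RData.PosAt, h1]
  exact (Matrix.IsUnit.posDef_star_right_conjugate_iff hu).mpr hx

theorem posAt_inv (hn : 0 < n) {R : RData K D n} {x : D} (hx : R.PosAt x) : R.PosAt x⁻¹ := by
  have h0 := posAt_ne hn hx
  have hs := posAt_star hn hx
  have h1 := posAt_conj hx (inv_ne_zero h0)
  rwa [inv_mul_cancel₀ h0, one_mul, star_inv₀, hs] at h1

theorem posAt_add_conj {R : RData K D n} {x y : D} (q : D) (hx : R.PosAt x) (hy : R.PosAt y) :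
    R.PosAt (x + q * y * star q) := by
  rcases eq_or_ne q 0 with rfl | hq
  · rwa [zero_mul, zero_mul, add_zero]
  · exact posAt_add hx (posAt_conj hy hq)

/-- Positivity of the other Schur complement. -/
theorem posAt_schur (hn : 0 < n) {R : RData K D n} {a c e b : D} (ha : R.PosAt a)
    (hc : R.PosAt c) (hb : R.PosAt b) (h : b = c - star e * a⁻¹ * e) :
    R.PosAt (a - e * c⁻¹ * star e) ∧
      (a - e * c⁻¹ * star e)⁻¹ = a⁻¹ + a⁻¹ * e * b⁻¹ * star (a⁻¹ * e) := by
  have h1 := schur_inv (posAt_ne hn ha) (posAt_star hn ha) (posAt_ne hn hc) (posAt_ne hn hb) h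
  have h2 : R.PosAt (a⁻¹ + a⁻¹ * e * b⁻¹ * star (a⁻¹ * e)) :=
    posAt_add_conj _ (posAt_inv hn ha) (posAt_inv hn hb)
  have h3 := eq_inv_of_mul_eq_one_left h1
  refine ⟨?_, ?_⟩
  · rw [h3]; exact posAt_inv hn h2
  · rw [h3, inv_inv]

/-- The positivity of all lengths and the strict inequality `b < 4 m`. -/
theorem ineq {R : RData K D n} (hn : 0 < n) (_hA : R.A.PosDef) {z z₂ r : D} (hnd : ND z z₂ r)
    (h1 : R.PosAt (z + star z)) (h2 : R.PosAt (b₀ z z₂ r)) :
    R.PosAt (z * r + star (z * r)) ∧ R.PosAt (bb z z₂ r) ∧ R.PosAt (mm z z₂ r) ∧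
      R.PosAt (4 * mm z z₂ r - bb z z₂ r) := by
  obtain ⟨hz, hzr, hz₂, -, he, hb0⟩ := hnd
  have hzs : star (z + star z) = z + star z := by rw [star_add, star_star, add_comm]
  have hzrs : star (z * r + star (z * r)) = z * r + star (z * r) := by
    rw [star_add, star_star, add_comm]
  set a := z + star z with ha
  set c := z * r + star (z * r) with hc
  set e := ee z z₂ r with he'
  set b := b₀ z z₂ r with hb
  have hbe : b = c - star e * a⁻¹ * e := rfl
  have ha0 : a ≠ 0 := hz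
  -- the length of `x + x₂`
  have hcp : R.PosAt c := by
    have h3 : c = b + star e * a⁻¹ * star (star e) := by rw [hbe, star_star]; abel
    rw [h3]
    exact posAt_add_conj _ h2 (posAt_inv hn h1)
  obtain ⟨hbbp, -⟩ := posAt_schur hn h1 hcp h2 hbe
  have hbb : bb z z₂ r = a - e * c⁻¹ * star e := rfl
  -- the length of `x₂`
  set e' := ee' z z₂ r with he2
  have hbe' : b = (z₂ + star z₂) - star e' * a⁻¹ * e' := b₀_eq hz
  have hz₂p : R.PosAt (z₂ + star z₂) := by
    have h3 : z₂ + star z₂ = b + star e' * a⁻¹ * star (star e') := by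
      rw [hbe', star_star]; abel
    rw [h3]
    exact posAt_add_conj _ h2 (posAt_inv hn h1)
  obtain ⟨hb₂p, hb₂i⟩ := posAt_schur hn h1 hz₂p h2 hbe'
  have hb₂ : b₂ z z₂ r = a - e' * (z₂ + star z₂)⁻¹ * star e' := rfl
  have hz0 : z ≠ 0 := by
    intro h0
    apply hz
    rw [ha, h0, star_zero, add_zero]
  have hmm : mm z z₂ r = star z * (a - e' * (z₂ + star z₂)⁻¹ * star e')⁻¹ * z := rfl
  have hmp : R.PosAt (mm z z₂ r) := by
    have h3 := posAt_conj (posAt_inv hn hb₂p) (star_ne_zero.mpr hz0)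
    rwa [star_star] at h3
  refine ⟨hcp, hbbp, hmp, ?_⟩
  have h5 : 4 * mm z z₂ r - bb z z₂ r
      = e * c⁻¹ * star e + (star (z - star z)) * a⁻¹ * star (star (z - star z))
        + (2 * (star z * (a⁻¹ * e'))) * b⁻¹ * star (2 * (star z * (a⁻¹ * e'))) := by
    have h6 : (2 * star z) * a⁻¹ * (2 * z) = a + star (z - star z) * a⁻¹ * (z - star z) := by
      have h7 : 2 * star z = a - (z - star z) := by rw [ha, two_mul]; abel
      have h8 : 2 * z = a + (z - star z) := by rw [ha, two_mul]; abel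
      have h9 : star (z - star z) = -(z - star z) := by rw [star_sub, star_star]; abel
      rw [h7, h8, h9]
      calc (a - (z - star z)) * a⁻¹ * (a + (z - star z))
          = (a * a⁻¹) * a + (a * a⁻¹) * (z - star z) - (z - star z) * (a⁻¹ * a)
            + -(z - star z) * a⁻¹ * (z - star z) := by noncomm_ring
        _ = _ := by rw [inv_mul_cancel₀ ha0, mul_inv_cancel₀ ha0]; noncomm_ring
    have h10 : star (2 * (star z * (a⁻¹ * e'))) = star (a⁻¹ * e') * z * 2 := by
      rw [star_mul, star_mul, star_star, star_ofNat]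
    rw [hmm, hb₂i, hbb, h10, star_star]
    have h11 : 4 * (star z * (a⁻¹ + a⁻¹ * e' * b⁻¹ * star (a⁻¹ * e')) * z)
        = (2 * star z) * a⁻¹ * (2 * z)
          + 2 * (star z * (a⁻¹ * e')) * b⁻¹ * (star (a⁻¹ * e') * z * 2) := by noncomm_ring
    rw [h11, h6]
    abel
  rw [h5]
  exact posAt_add_conj _ (posAt_add_conj _ (posAt_conj (posAt_inv hn hcp) he)
    (posAt_inv hn h1)) (posAt_inv hn h2)

end pos

end Vale.Agent.P011.Two2
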