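import Vale.Agent.P011.Three.Scal
import Vale.Agent.P011.RP.Universal

/-!
Rank two: the quotient of the classes of `z * r` and `z` does not depend on `z`, from the
exchange relation for planes in which two vectors have the same length.
-/

open Module Matrix Topology
open scoped ComplexOrder

set_option linter.unusedSectionVars false

namespace Vale.Agent.P011.Two2

open Vale.Agent.P011S Vale.Agent.P011.RP Vale.Agent.P011.Three

section top

variable {n : ℕ}

theorem isOpen_pos : IsOpen {X : Matrix (Fin n) (Fin n) ℂ | (X + Xᴴ).PosDef} := by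
  rw [isOpen_iff_mem_nhds]
  intro X₀ hX₀
  obtain ⟨η, hη, H⟩ := posDef_near hX₀
  have h1 : ∀ᶠ X in 𝓝 X₀, ∀ a b, ‖(X + Xᴴ) a b - (X₀ + X₀ᴴ) a b‖ < η := by
    rw [Filter.eventually_all]
    intro a
    rw [Filter.eventually_all]
    intro b
    have h2 : Continuous fun X : Matrix (Fin n) (Fin n) ℂ => (X + Xᴴ) a b :=
      (continuous_apply_apply a b).comp (continuous_id.add continuous_id.matrix_conjTranspose)
    have h3 := Metric.continuousAt_iff'.mp (h2.continuousAt (x := X₀)) η hη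
    filter_upwards [h3] with p hp
    rwa [dist_eq_norm] at hp
  filter_upwards [h1] with X hX
  refine H _ ?_ hX
  rw [Matrix.IsHermitian, Matrix.conjTranspose_add, Matrix.conjTranspose_conjTranspose, add_comm]

theorem posDef_of_two {X : Matrix (Fin n) (Fin n) ℂ} (hX : X.IsHermitian)
    (h : (X + Xᴴ).PosDef) : X.PosDef := by
  have e1 : X = (2⁻¹ : ℂ) • (X + Xᴴ) := by
    rw [hX, ← two_smul ℂ X, smul_smul, inv_mul_cancel₀ two_ne_zero, one_smul]
  rw [e1]
  exact h.smul (by norm_num)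

end top

section place

variable {K D : Type} [Field K] [StarRing K] [DivisionRing D] [StarRing D] [Algebra K D]
  [StarModule K D] [FiniteDimensional K D] [Algebra.IsCentral K D] {n : ℕ}

/-- The Schur complement at a place, as a function of `z` and `e`. -/
noncomputable def Sch (R : RData K D n) (r : D) (Z E : Matrix (Fin n) (Fin n) ℂ) :
    Matrix (Fin n) (Fin n) ℂ :=
  ((Z * R.f r) * R.A + R.A * (Z * R.f r)ᴴ) - (E * R.A)ᴴ * (Z * R.A + R.A * Zᴴ)⁻¹ * (E * R.A)

/-- The open condition at a place. -/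
def GoodAt (R : RData K D n) (r : D) (Z E : Matrix (Fin n) (Fin n) ℂ) : Prop :=
  (Z * R.A + R.A * Zᴴ).PosDef ∧ (Sch R r Z E + (Sch R r Z E)ᴴ).PosDef

theorem goodAt_open (R : RData K D n) (r : D) {Z₀ E₀ : Matrix (Fin n) (Fin n) ℂ}
    (h : GoodAt R r Z₀ E₀) : ∀ᶠ p : Matrix (Fin n) (Fin n) ℂ × Matrix (Fin n) (Fin n) ℂ in
      𝓝 (Z₀, E₀), GoodAt R r p.1 p.2 := by
  have c1 : Continuous fun p : Matrix (Fin n) (Fin n) ℂ × Matrix (Fin n) (Fin n) ℂ =>
      p.1 * R.A := continuous_fst.matrix_mul continuous_const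
  have c2 : Continuous fun p : Matrix (Fin n) (Fin n) ℂ × Matrix (Fin n) (Fin n) ℂ =>
      p.1 * R.A + R.A * p.1ᴴ :=
    c1.add (continuous_const.matrix_mul continuous_fst.matrix_conjTranspose)
  have c3 : Continuous fun p : Matrix (Fin n) (Fin n) ℂ × Matrix (Fin n) (Fin n) ℂ =>
      (p.1 * R.f r) * R.A + R.A * (p.1 * R.f r)ᴴ :=
    ((continuous_fst.matrix_mul continuous_const).matrix_mul continuous_const).add
      (continuous_const.matrix_mul (continuous_fst.matrix_mul
        continuous_const).matrix_conjTranspose)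
  have c4 : Continuous fun p : Matrix (Fin n) (Fin n) ℂ × Matrix (Fin n) (Fin n) ℂ =>
      p.2 * R.A := continuous_snd.matrix_mul continuous_const
  have c5 : ContinuousAt (fun p : Matrix (Fin n) (Fin n) ℂ × Matrix (Fin n) (Fin n) ℂ =>
      (p.1 * R.A + R.A * p.1ᴴ)⁻¹) (Z₀, E₀) := by
    refine ContinuousAt.comp (g := Inv.inv) (f := fun p : Matrix (Fin n) (Fin n) ℂ ×
      Matrix (Fin n) (Fin n) ℂ => p.1 * R.A + R.A * p.1ᴴ) ?_ c2.continuousAt
    apply continuousAt_matrix_inv
    rw [Ring.inverse_eq_inv']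
    apply continuousAt_inv₀
    exact h.1.det_pos.ne'
  have c6 : ContinuousAt (fun p : Matrix (Fin n) (Fin n) ℂ × Matrix (Fin n) (Fin n) ℂ =>
      Sch R r p.1 p.2) (Z₀, E₀) :=
    c3.continuousAt.sub (((c4.matrix_conjTranspose.continuousAt).mul c5).mul c4.continuousAt)
  have h1 : ∀ᶠ p : Matrix (Fin n) (Fin n) ℂ × Matrix (Fin n) (Fin n) ℂ in 𝓝 (Z₀, E₀),
      (Sch R r p.1 p.2 + (Sch R r p.1 p.2)ᴴ).PosDef :=
    c6.eventually (isOpen_pos.mem_nhds h.2)
  have h2 : ∀ᶠ p : Matrix (Fin n) (Fin n) ℂ × Matrix (Fin n) (Fin n) ℂ in 𝓝 (Z₀, E₀),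
      (p.1 * R.A + (p.1 * R.A)ᴴ).PosDef := by
    refine c1.continuousAt.eventually (isOpen_pos.mem_nhds ?_)
    change (Z₀ * R.A + (Z₀ * R.A)ᴴ).PosDef
    have := h.1
    rwa [Matrix.conjTranspose_mul, R.hA]
  filter_upwards [h1, h2] with p h1 h2
  refine ⟨?_, h1⟩
  rwa [Matrix.conjTranspose_mul, R.hA] at h2

theorem goodAt_zero {R : RData K D n} {r : D} {Z : Matrix (Fin n) (Fin n) ℂ}
    (h1 : (Z * R.A + R.A * Zᴴ).PosDef)
    (h2 : ((Z * R.f r) * R.A + R.A * (Z * R.f r)ᴴ).PosDef) : GoodAt R r Z 0 := by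
  refine ⟨h1, ?_⟩
  have e1 : Sch R r Z 0 = (Z * R.f r) * R.A + R.A * (Z * R.f r)ᴴ := by
    rw [Sch, zero_mul, Matrix.mul_zero, sub_zero]
  rw [e1, h2.1]
  exact h2.add h2

theorem GoodAt.pos (hn : 0 < n) {R : RData K D n} {r z e : D}
    (h : GoodAt R r (R.f z) (R.f e)) : R.PosAt (z + star z) ∧
      R.PosAt ((z * r + star (z * r)) - star e * (z + star z)⁻¹ * e) := by
  have h1 : R.PosAt (z + star z) := by
    rw [RData.PosAt, f_re]
    exact h.1
  refine ⟨h1, ?_⟩
  have h2 := f_schur (r := r) hn R h1 (Z := R.f z) (E := R.f e) rfl rfl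
  have hsym : star ((z * r + star (z * r)) - star e * (z + star z)⁻¹ * e) =
      (z * r + star (z * r)) - star e * (z + star z)⁻¹ * e := by
    rw [star_sub, star_add, star_star, star_mul (star e * _), star_mul (star e), star_star,
      star_inv₀, star_add, star_star, add_comm (star z) z, add_comm (star (z * r)), mul_assoc]
  have h3 := f_herm R hsym
  rw [RData.PosAt]
  apply posDef_of_two h3
  rw [h2]
  exact h.2

/-- The involution at a place. -/
noncomputable def sg (R : RData K D n) (Z : Matrix (Fin n) (Fin n) ℂ) :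
    Matrix (Fin n) (Fin n) ℂ := R.A * Zᴴ * R.A⁻¹

theorem f_star (R : RData K D n) (x : D) : R.f (star x) = sg R (R.f x) := by
  rw [sg, ← R.star_f, Matrix.mul_assoc, Matrix.mul_nonsing_inv _
    ((Matrix.isUnit_iff_isUnit_det _).mp R.unit), Matrix.mul_one]

theorem continuous_sg (R : RData K D n) : Continuous (sg R) :=
  (continuous_const.matrix_mul continuous_id.matrix_conjTranspose).matrix_mul continuous_const

/-- Congruence at a place, multiplicatively. -/
theorem exists_cong {R : RData K D n} {a c : D} (ha : R.PosAt a) (hc : R.PosAt c) :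
    ∃ Q : Matrix (Fin n) (Fin n) ℂ, Q * R.f a * sg R Q = R.f c := by
  obtain ⟨Q, _, hQ⟩ := congAt_of_pos ha hc
  refine ⟨Q, ?_⟩
  have hu := (Matrix.isUnit_iff_isUnit_det _).mp R.unit
  calc Q * R.f a * sg R Q = (Q * (R.f a * R.A) * Qᴴ) * R.A⁻¹ := by
        simp only [sg, Matrix.mul_assoc]
    _ = R.f c := by rw [hQ, Matrix.mul_assoc, Matrix.mul_nonsing_inv _ hu, Matrix.mul_one]

end place

section fam

variable {K D : Type} [Field K] [StarRing K] [DivisionRing D] [StarRing D] [Algebra K D]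
  [StarModule K D] [FiniteDimensional K D] [Algebra.IsCentral K D] {n : ℕ} {ι : Type}

/-- The image in the product of the real completions. -/
def FF (R : ι → RData K D n) (x : D) : ι → Matrix (Fin n) (Fin n) ℂ := fun i => (R i).f x

theorem ball_pi {n : ℕ} {ι : Type} [Fintype ι] (X : ι → Fin n → Fin n → ℂ)
    {O : Set (ι → Fin n → Fin n → ℂ)} (hO : O ∈ 𝓝 X) : ∃ ε : ℝ, 0 < ε ∧
      ∀ Y : ι → Fin n → Fin n → ℂ, (∀ i a b, ‖Y i a b - X i a b‖ < ε) → Y ∈ O := by
  obtain ⟨ε, hε, H⟩ := Metric.mem_nhds_iff.mp hO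
  refine ⟨ε, hε, fun Y hY => H ?_⟩
  rw [Metric.mem_ball, dist_pi_lt_iff hε]
  intro i
  rw [dist_pi_lt_iff hε]
  intro a
  rw [dist_pi_lt_iff hε]
  intro b
  rw [dist_eq_norm]
  exact hY i a b

theorem dense_top [Fintype ι] {R : ι → RData K D n} (hd : RP.Dense R)
    {O : Set (ι → Matrix (Fin n) (Fin n) ℂ)} {X : ι → Matrix (Fin n) (Fin n) ℂ}
    (hO : O ∈ 𝓝 X) : ∃ x : D, FF R x ∈ O := by
  obtain ⟨ε, hε, H⟩ := ball_pi X hO
  obtain ⟨x, hx⟩ := hd X ε hε
  exact ⟨x, H _ hx⟩

theorem choose_s [Fintype ι] [Nonempty ι] (hn : 0 < n) {R : ι → RData K D n} (hd : RP.Dense R)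
    {a c : D} (ha : ∀ i, (R i).PosAt a) (hc : ∀ i, (R i).PosAt c)
    {U : Set (ι → Matrix (Fin n) (Fin n) ℂ)} (hU : U ∈ 𝓝 (FF R c)) (p₁ p₂ : D) :
    ∃ g : D, g ≠ 0 ∧ FF R (g * a * star g) ∈ U ∧ g * a * star g ≠ p₁ ∧
      g * a * star g ≠ p₂ := by
  classical
  choose Q hQ using fun i => exists_cong (ha i) (hc i)
  have hc0 : FF R c ≠ 0 := by
    obtain ⟨i⟩ := (inferInstance : Nonempty ι)
    intro h
    have h1 := congrFun h i
    have h2 := hc i
    rw [RData.PosAt, show (R i).f c = 0 from h1, zero_mul] at h2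
    have : Nonempty (Fin n) := ⟨⟨0, hn⟩⟩
    have h3 := h2.diag_pos (i := ⟨0, hn⟩)
    simp at h3
  -- real multiples of the congruence
  have hev : ∀ P : ι → Matrix (Fin n) (Fin n) ℂ,
      ∀ᶠ t : ℝ in 𝓝[≠] 0, (((1 + t) ^ 2 : ℝ) : ℂ) • FF R c ≠ P := by
    intro P
    by_cases hP : P = FF R c
    · rw [hP]
      have h1 : ∀ᶠ t : ℝ in 𝓝[≠] 0, t ∈ Set.Ioo (-1 : ℝ) 1 :=
        Filter.Eventually.filter_mono nhdsWithin_le_nhds
          (Ioo_mem_nhds (by norm_num) (by norm_num))
      filter_upwards [h1, self_mem_nhdsWithin] with t ht ht0 h2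
      have h3 : ((((1 + t) ^ 2 : ℝ) : ℂ) - 1) • FF R c = 0 := by
        rw [sub_smul, one_smul, h2, sub_self]
      rcases smul_eq_zero.mp h3 with h4 | h4
      · have h5 : (1 + t) ^ 2 - 1 = (0 : ℝ) := by exact_mod_cast h4
        have h6 : t * (t + 2) = 0 := by linarith
        rcases mul_eq_zero.mp h6 with h7 | h7
        · exact ht0 h7
        · have := ht.1; linarith
      · exact hc0 h4
    · apply Filter.Eventually.filter_mono nhdsWithin_le_nhds
      have h1 : Continuous fun t : ℝ => (((1 + t) ^ 2 : ℝ) : ℂ) • FF R c := by fun_prop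
      have h2 : (((1 + (0 : ℝ)) ^ 2 : ℝ) : ℂ) • FF R c ≠ P := by
        rw [add_zero, one_pow, Complex.ofReal_one, one_smul]
        exact Ne.symm hP
      exact h1.continuousAt.eventually (isOpen_ne.mem_nhds h2)
  have hevU : ∀ᶠ t : ℝ in 𝓝[≠] 0, (((1 + t) ^ 2 : ℝ) : ℂ) • FF R c ∈ interior U := by
    apply Filter.Eventually.filter_mono nhdsWithin_le_nhds
    have h1 : Continuous fun t : ℝ => (((1 + t) ^ 2 : ℝ) : ℂ) • FF R c := by fun_prop
    refine h1.continuousAt.eventually (isOpen_interior.mem_nhds ?_)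
    change (((1 + (0 : ℝ)) ^ 2 : ℝ) : ℂ) • FF R c ∈ interior U
    rw [add_zero, one_pow, Complex.ofReal_one, one_smul]
    exact mem_interior_iff_mem_nhds.mpr hU
  obtain ⟨t, ht, h1, h2, h3⟩ := (hevU.and ((hev (FF R p₁)).and
    ((hev (FF R p₂)).and (hev 0)))).exists
  -- the function of the multiplier
  let Θ : (ι → Matrix (Fin n) (Fin n) ℂ) → (ι → Matrix (Fin n) (Fin n) ℂ) :=
    fun G i => G i * (R i).f a * sg (R i) (G i)
  have hΘ : Continuous Θ := by
    apply continuous_pi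
    intro i
    exact ((continuous_apply i).matrix_mul continuous_const).matrix_mul
      ((continuous_sg (R i)).comp (continuous_apply i))
  have hΘD : ∀ g : D, Θ (FF R g) = FF R (g * a * star g) := by
    intro g
    funext i
    change (R i).f g * (R i).f a * sg (R i) ((R i).f g) = (R i).f (g * a * star g)
    rw [map_mul, map_mul, f_star]
  have hΘ0 : Θ (fun i => ((1 + t : ℝ) : ℂ) • Q i) = (((1 + t) ^ 2 : ℝ) : ℂ) • FF R c := by
    funext i
    change (((1 + t : ℝ) : ℂ) • Q i) * (R i).f a * sg (R i) (((1 + t : ℝ) : ℂ) • Q i) =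
      (((1 + t) ^ 2 : ℝ) : ℂ) • (R i).f c
    have e1 : sg (R i) (((1 + t : ℝ) : ℂ) • Q i) = ((1 + t : ℝ) : ℂ) • sg (R i) (Q i) := by
      rw [sg, sg, Matrix.conjTranspose_smul, show star ((1 + t : ℝ) : ℂ) = ((1 + t : ℝ) : ℂ)
        from Complex.conj_ofReal _, mul_smul_comm, smul_mul_assoc]
    rw [e1, smul_mul_assoc, smul_mul_assoc, mul_smul_comm, smul_smul, hQ, ← Complex.ofReal_mul,
      pow_two]
  obtain ⟨g, hg⟩ := dense_top hd (X := fun i => ((1 + t : ℝ) : ℂ) • Q i)
    (O := {G | Θ G ∈ interior U ∧ Θ G ≠ FF R p₁ ∧ Θ G ≠ FF R p₂ ∧ Θ G ≠ 0}) (by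
      have c1 := hΘ.continuousAt (x := fun i => ((1 + t : ℝ) : ℂ) • Q i)
      rw [← hΘ0] at ht h1 h2 h3
      filter_upwards [c1.eventually (isOpen_interior.mem_nhds ht),
        c1.eventually (isOpen_ne.mem_nhds h1), c1.eventually (isOpen_ne.mem_nhds h2),
        c1.eventually (isOpen_ne.mem_nhds h3)] with G a1 a2 a3 a4
      exact ⟨a1, a2, a3, a4⟩)
  obtain ⟨g1, g2, g3, g4⟩ := hg
  rw [hΘD] at g1 g2 g3 g4
  refine ⟨g, ?_, interior_subset g1, fun h => g2 (by rw [h]), fun h => g3 (by rw [h])⟩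
  rintro rfl
  apply g4
  rw [zero_mul, zero_mul]
  funext i
  exact map_zero (R i).f

/-- The choice of the perturbation. -/
theorem local_e [Fintype ι] [Nonempty ι] (hn : 0 < n) {R : ι → RData K D n} (hd : RP.Dense R)
    {r z z' : D} {δ κ a c : D} (hκ : κ ≠ 0) (ha : ∀ i, (R i).PosAt a) (hc : ∀ i, (R i).PosAt c)
    (h1 : ∀ i, GoodAt (R i) r ((R i).f z) 0) (h2 : ∀ i, GoodAt (R i) r ((R i).f z') ((R i).f δ)) :
    ∃ g : D, g ≠ 0 ∧ κ * (c - g * a * star g) ≠ 0 ∧ κ * (c - g * a * star g) + δ ≠ 0 ∧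
      (∀ i, GoodAt (R i) r ((R i).f z) ((R i).f (κ * (c - g * a * star g)))) ∧
      ∀ i, GoodAt (R i) r ((R i).f z') ((R i).f (κ * (c - g * a * star g) + δ)) := by
  have hU : ∀ᶠ S in 𝓝 (FF R c), ∀ i, GoodAt (R i) r ((R i).f z)
      ((R i).f κ * ((R i).f c - S i)) ∧ GoodAt (R i) r ((R i).f z')
        ((R i).f κ * ((R i).f c - S i) + (R i).f δ) := by
    rw [Filter.eventually_all]
    intro i
    have c1 : Continuous fun S : ι → Matrix (Fin n) (Fin n) ℂ =>
        (R i).f κ * ((R i).f c - S i) :=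
      continuous_const.matrix_mul (continuous_const.sub (continuous_apply i))
    have c2 : Continuous fun S : ι → Matrix (Fin n) (Fin n) ℂ =>
        ((R i).f z, (R i).f κ * ((R i).f c - S i)) := continuous_const.prodMk c1
    have c3 : Continuous fun S : ι → Matrix (Fin n) (Fin n) ℂ =>
        ((R i).f z', (R i).f κ * ((R i).f c - S i) + (R i).f δ) :=
      continuous_const.prodMk (c1.add continuous_const)
    have e0 : (R i).f κ * ((R i).f c - FF R c i) = 0 := by
      rw [FF, sub_self, mul_zero]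
    refine (c2.continuousAt.eventually (goodAt_open (R i) r ?_)).and
      (c3.continuousAt.eventually (goodAt_open (R i) r ?_))
    · rw [e0]; exact h1 i
    · rw [e0, zero_add]; exact h2 i
  obtain ⟨g, hg, hgU, hg1, hg2⟩ := choose_s hn hd ha hc hU c (c + κ⁻¹ * δ)
  refine ⟨g, hg, ?_, ?_, fun i => ?_, fun i => ?_⟩
  · exact mul_ne_zero hκ (sub_ne_zero.mpr (Ne.symm hg1))
  · intro h
    apply hg2
    have h3 : κ * (g * a * star g) = κ * (c + κ⁻¹ * δ) := by
      rw [mul_add, mul_inv_cancel_left₀ hκ]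
      rw [mul_sub] at h
      have := congrArg (· + κ * (g * a * star g)) h
      simp only [zero_add] at this
      rw [← this]
      abel
    exact mul_left_cancel₀ hκ h3
  · have := (hgU i).1
    rw [map_mul, map_sub]
    exact this
  · have := (hgU i).2
    rw [map_add, map_mul, map_sub]
    exact this

variable {A : Type} [CommGroup A]

/-- The exchange relation for planes in which two vectors have the same length. -/
def ThmS (R : ι → RData K D n) (ψ : D → A) : Prop :=
  ∀ z z₂ r : D, (∀ i, (R i).PosAt (z + star z)) →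
    (∀ i, (R i).PosAt ((z * r + star (z * r)) -
      star (star z + z * r - z₂) * (z + star z)⁻¹ * (star z + z * r - z₂))) →
    star z + z * r - z₂ ≠ 0 →
    ((∃ g : D, g ≠ 0 ∧ star r * z₂ + star (star r * z₂) = g * (z + star z) * star g) ∨
      ∃ g : D, g ≠ 0 ∧ z₂ + star z₂ = g * (z * r + star (z * r)) * star g) →
    ψ z * ψ z₂ = ψ (z * r) * ψ (star r * z₂)

theorem half_comm [CharZero K] (x : D) : algebraMap K D (2 : K)⁻¹ * x =
    x * algebraMap K D (2 : K)⁻¹ := Algebra.commutes _ _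

theorem half_add [CharZero K] (x : D) : algebraMap K D (2 : K)⁻¹ * x +
    algebraMap K D (2 : K)⁻¹ * x = x := by
  rw [← add_mul, ← map_add, show (2 : K)⁻¹ + 2⁻¹ = 1 by norm_num, map_one, one_mul]

theorem half_star [CharZero K] : star (algebraMap K D (2 : K)⁻¹) = algebraMap K D (2 : K)⁻¹ := by
  rw [← algebraMap_star_comm, star_inv₀, star_ofNat]

theorem pos_add {R : RData K D n} {a b : D} (ha : R.PosAt a) (hb : R.PosAt b) :
    R.PosAt (a + b) := by
  rw [RData.PosAt, map_add, add_mul]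
  exact Matrix.PosDef.add ha hb

theorem pos_conj {R : RData K D n} {a g : D} (ha : R.PosAt a) (hg : g ≠ 0) :
    R.PosAt (g * a * star g) := by
  have h1 : R.f (g * a * star g) * R.A = R.f g * (R.f a * R.A) * (R.f g)ᴴ := by
    rw [map_mul, map_mul, Matrix.mul_assoc, R.star_f]
    simp only [Matrix.mul_assoc]
  rw [RData.PosAt, h1]
  exact (Matrix.IsUnit.posDef_star_right_conjugate_iff (f_unit' R hg)).mpr ha

theorem goodAt_pos (hn : 0 < n) {R : RData K D n} {r z : D} (h : GoodAt R r (R.f z) 0) :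
    R.PosAt (z + star z) ∧ R.PosAt (z * r + star (z * r)) := by
  rw [← map_zero R.f] at h
  have h1 := h.pos hn
  rw [mul_zero, sub_zero] at h1
  exact h1

/-- Two points with the same second vertex. -/
theorem local_common [Fintype ι] [Nonempty ι] (hn : 0 < n) {R : ι → RData K D n}
    (hd : RP.Dense R) {ψ : D → A} (hS : ThmS R ψ) {r z z' δ κ a c : D}
    (hδ : δ = star (z' - z) + (z' - z) * r) (hκ : κ ≠ 0)
    (ha : ∀ i, (R i).PosAt a) (hc : ∀ i, (R i).PosAt c)
    (h1 : ∀ i, GoodAt (R i) r ((R i).f z) 0) (h2 : ∀ i, GoodAt (R i) r ((R i).f z') ((R i).f δ))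
    (H : ∀ g z₂ : D, g ≠ 0 → z₂ = star z + z * r - κ * (c - g * a * star g) →
      (z + star z = z' + star z' ∧
        star r * z₂ + star (star r * z₂) = g * (z + star z) * star g) ∨
      (z * r + star (z * r) = z' * r + star (z' * r) ∧
        z₂ + star z₂ = g * (z * r + star (z * r)) * star g)) :
    ψ (z * r) * (ψ z)⁻¹ = ψ (z' * r) * (ψ z')⁻¹ := by
  obtain ⟨g, hg, e1, e2, g1, g2⟩ := local_e hn hd hκ ha hc h1 h2
  obtain ⟨e, he⟩ : ∃ e, e = κ * (c - g * a * star g) := ⟨_, rfl⟩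
  obtain ⟨z₂, hz₂⟩ : ∃ z₂, z₂ = star z + z * r - e := ⟨_, rfl⟩
  have hH := H g z₂ hg (by rw [hz₂, he])
  rw [← he] at e1 e2 g1 g2
  have f1 : star z + z * r - z₂ = e := by rw [hz₂]; abel
  have f2 : star z' + z' * r - z₂ = e + δ := by
    rw [hz₂, hδ, star_sub, sub_mul]; abel
  have k1 : ψ z * ψ z₂ = ψ (z * r) * ψ (star r * z₂) := by
    apply hS z z₂ r
    · exact fun i => ((g1 i).pos hn).1
    · rw [f1]; exact fun i => ((g1 i).pos hn).2
    · rw [f1]; exact e1
    · rcases hH with h | h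
      · exact Or.inl ⟨g, hg, h.2⟩
      · exact Or.inr ⟨g, hg, h.2⟩
  have k2 : ψ z' * ψ z₂ = ψ (z' * r) * ψ (star r * z₂) := by
    apply hS z' z₂ r
    · exact fun i => ((g2 i).pos hn).1
    · rw [f2]; exact fun i => ((g2 i).pos hn).2
    · rw [f2]; exact e2
    · rcases hH with h | h
      · exact Or.inl ⟨g, hg, by rw [← h.1]; exact h.2⟩
      · exact Or.inr ⟨g, hg, by rw [← h.1]; exact h.2⟩
  have k3 : ∀ a b c d : A, a * c = b * d → b * a⁻¹ = c * d⁻¹ := by
    intro a b c d h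
    rw [mul_inv_eq_iff_eq_mul, mul_assoc, mul_comm d⁻¹, ← mul_assoc, eq_mul_inv_iff_mul_eq,
      ← h, mul_comm]
  rw [k3 _ _ _ _ k1, k3 _ _ _ _ k2]

theorem ne_zero_of_good [Nonempty ι] (hn : 0 < n) {R : ι → RData K D n} {r z : D}
    (h1 : ∀ i, GoodAt (R i) r ((R i).f z) 0) : r ≠ 0 := by
  rintro rfl
  obtain ⟨i⟩ := (inferInstance : Nonempty ι)
  have h2 := (goodAt_pos hn (h1 i)).2
  rw [mul_zero, star_zero, add_zero] at h2
  exact ne_zero_of_pos hn h2 rfl

theorem local1 [CharZero K] [Fintype ι] [Nonempty ι] (hn : 0 < n) {R : ι → RData K D n}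
    (hd : RP.Dense R) {ψ : D → A} (hS : ThmS R ψ) {r z z' δ : D}
    (hδ : δ = star (z' - z) + (z' - z) * r) (hz : z + star z = z' + star z')
    (h1 : ∀ i, GoodAt (R i) r ((R i).f z) 0)
    (h2 : ∀ i, GoodAt (R i) r ((R i).f z') ((R i).f δ)) :
    ψ (z * r) * (ψ z)⁻¹ = ψ (z' * r) * (ψ z')⁻¹ := by
  have hr0 := ne_zero_of_good hn h1
  have hsr : star r ≠ 0 := star_ne_zero.mpr hr0
  have h20 : algebraMap K D (2 : K)⁻¹ ≠ 0 := (map_ne_zero _).mpr (inv_ne_zero two_ne_zero)
  have hcc : star r * (star z + z * r) + star (star r * (star z + z * r)) =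
      (z * r + star (z * r)) + star r * (z + star z) * star (star r) := by
    simp only [star_mul, star_add, star_star, mul_add, add_mul, mul_assoc]
    abel
  refine local_common hn hd hS (κ := (star r)⁻¹ * algebraMap K D (2 : K)⁻¹)
    (a := z + star z) (c := star r * (star z + z * r) + star (star r * (star z + z * r)))
    hδ (mul_ne_zero (inv_ne_zero hsr) h20) (fun i => (goodAt_pos hn (h1 i)).1)
    (fun i => ?_) h1 h2 ?_
  · rw [hcc]
    exact pos_add (goodAt_pos hn (h1 i)).2 (pos_conj (goodAt_pos hn (h1 i)).1 hsr)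
  · intro g z₂ hg hz₂
    refine Or.inl ⟨hz, ?_⟩
    obtain ⟨C, hC⟩ : ∃ C, C = star r * (star z + z * r) + star (star r * (star z + z * r)) :=
      ⟨_, rfl⟩
    obtain ⟨S, hSd⟩ : ∃ S, S = g * (z + star z) * star g := ⟨_, rfl⟩
    have hCs : star C = C := by rw [hC, star_add, star_star, add_comm]
    have hSs : star S = S := by
      rw [hSd, star_mul, star_mul, star_star, star_add, star_star, add_comm (star z), mul_assoc]
    rw [← hC, ← hSd] at hz₂
    rw [← hSd]
    have e1 : star r * z₂ = star r * (star z + z * r) - algebraMap K D (2 : K)⁻¹ * (C - S) := by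
      rw [hz₂, mul_sub, mul_assoc, mul_inv_cancel_left₀ hsr]
    have e2 : star (algebraMap K D (2 : K)⁻¹ * (C - S)) = algebraMap K D (2 : K)⁻¹ * (C - S) := by
      rw [star_mul, half_star, star_sub, hCs, hSs, half_comm]
    rw [e1, star_sub, e2]
    have e3 := half_add (K := K) (C - S)
    calc _ = C - (algebraMap K D (2 : K)⁻¹ * (C - S) + algebraMap K D (2 : K)⁻¹ * (C - S)) := by
          rw [hC]; abel
      _ = S := by rw [e3]; abel

theorem local2 [CharZero K] [Fintype ι] [Nonempty ι] (hn : 0 < n) {R : ι → RData K D n}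
    (hd : RP.Dense R) {ψ : D → A} (hS : ThmS R ψ) {r z z' δ : D}
    (hδ : δ = star (z' - z) + (z' - z) * r)
    (hz : z * r + star (z * r) = z' * r + star (z' * r))
    (h1 : ∀ i, GoodAt (R i) r ((R i).f z) 0)
    (h2 : ∀ i, GoodAt (R i) r ((R i).f z') ((R i).f δ)) :
    ψ (z * r) * (ψ z)⁻¹ = ψ (z' * r) * (ψ z')⁻¹ := by
  have h20 : algebraMap K D (2 : K)⁻¹ ≠ 0 := (map_ne_zero _).mpr (inv_ne_zero two_ne_zero)
  have hcc : (star z + z * r) + star (star z + z * r) =
      (z + star z) + (z * r + star (z * r)) := by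
    simp only [star_add, star_star]
    abel
  refine local_common hn hd hS (κ := algebraMap K D (2 : K)⁻¹)
    (a := z * r + star (z * r)) (c := (star z + z * r) + star (star z + z * r))
    hδ h20 (fun i => (goodAt_pos hn (h1 i)).2) (fun i => ?_) h1 h2 ?_
  · rw [hcc]
    exact pos_add (goodAt_pos hn (h1 i)).1 (goodAt_pos hn (h1 i)).2
  · intro g z₂ hg hz₂
    refine Or.inr ⟨hz, ?_⟩
    obtain ⟨C, hC⟩ : ∃ C, C = (star z + z * r) + star (star z + z * r) := ⟨_, rfl⟩
    obtain ⟨S, hSd⟩ : ∃ S, S = g * (z * r + star (z * r)) * star g := ⟨_, rfl⟩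
    have hCs : star C = C := by rw [hC, star_add, star_star, add_comm]
    have hSs : star S = S := by
      rw [hSd, star_mul, star_mul, star_star, star_add, star_star, add_comm (star (z * r)),
        mul_assoc]
    rw [← hC, ← hSd] at hz₂
    rw [← hSd]
    have e2 : star (algebraMap K D (2 : K)⁻¹ * (C - S)) = algebraMap K D (2 : K)⁻¹ * (C - S) := by
      rw [star_mul, half_star, star_sub, hCs, hSs, half_comm]
    rw [hz₂, star_sub, e2]
    have e3 := half_add (K := K) (C - S)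
    calc _ = C - (algebraMap K D (2 : K)⁻¹ * (C - S) + algebraMap K D (2 : K)⁻¹ * (C - S)) := by
          rw [hC]; abel
      _ = S := by rw [e3]; abel

/-- The condition on the multiplier. -/
def Inj (r : D) : Prop := ∀ w : D, w * r = star r * w → w = 0

theorem exists_w (K : Type) {D : Type} [Field K] [DivisionRing D] [StarRing D] [Algebra K D]
    [FiniteDimensional K D] {r : D} (hr : Inj r) (s : D) : ∃ w : D, w * r - star r * w = s := by
  let T : D →ₗ[K] D := LinearMap.mulRight K r - LinearMap.mulLeft K (star r)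
  have h1 : Function.Injective T := by
    rw [← LinearMap.ker_eq_bot, LinearMap.ker_eq_bot']
    intro w hw
    exact hr w (sub_eq_zero.mp hw)
  obtain ⟨w, hw⟩ := (LinearMap.injective_iff_surjective.mp h1) s
  exact ⟨w, hw⟩

theorem exists_inv (hn : 0 < n) (hdeg : finrank K D = n ^ 2) {r : D} (hr : Inj r)
    (R : RData K D n) : ∃ Φ : Matrix (Fin n) (Fin n) ℂ →ₗ[ℂ] Matrix (Fin n) (Fin n) ℂ,
      ∀ w : D, R.f w = Φ (R.f (w * r - star r * w)) := by
  let _ : Algebra K ℂ := R.s.toAlgebra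
  let f : D →ₐ[K] Matrix (Fin n) (Fin n) ℂ := { R.f with
    commutes' := fun k => by
      change R.f (algebraMap K D k) = _
      rw [R.hf, Matrix.algebraMap_eq_diagonal]
      rfl }
  have hspan := span_split hn hdeg f
  let T : Matrix (Fin n) (Fin n) ℂ →ₗ[ℂ] Matrix (Fin n) (Fin n) ℂ :=
    LinearMap.mulRight ℂ (R.f r) - LinearMap.mulLeft ℂ (R.f (star r))
  have hT : ∀ w : D, T (R.f w) = R.f (w * r - star r * w) := by
    intro w
    rw [map_sub, map_mul, map_mul]
    rfl
  have hsurj : Function.Surjective T := by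
    rw [← LinearMap.range_eq_top, eq_top_iff, ← hspan, Submodule.span_le]
    rintro _ ⟨s, rfl⟩
    obtain ⟨w, hw⟩ := exists_w K hr s
    exact ⟨R.f w, by rw [hT, hw]; rfl⟩
  have hbij : Function.Bijective T := ⟨LinearMap.injective_iff_surjective.mpr hsurj, hsurj⟩
  refine ⟨(LinearEquiv.ofBijective T hbij).symm.toLinearMap, fun w => ?_⟩
  rw [LinearEquiv.coe_coe, LinearEquiv.eq_symm_apply, LinearEquiv.ofBijective_apply, hT]

/-- **Lemma B, locally.** -/
theorem local_B [CharZero K] [Fintype ι] [Nonempty ι] (hn : 0 < n) (hdeg : finrank K D = n ^ 2)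
    {R : ι → RData K D n} (hd : RP.Dense R) {ψ : D → A} (hS : ThmS R ψ) {r : D} (hr : Inj r)
    {Z₀ : ι → Matrix (Fin n) (Fin n) ℂ} (h0 : ∀ i, GoodAt (R i) r (Z₀ i) 0) :
    ∃ U ∈ 𝓝 Z₀, ∀ z z' : D, FF R z ∈ U → FF R z' ∈ U →
      ψ (z * r) * (ψ z)⁻¹ = ψ (z' * r) * (ψ z')⁻¹ := by
  choose Φ hΦ using fun i => exists_inv hn hdeg hr (R i)
  -- the intermediate point
  let u : (ι → Matrix (Fin n) (Fin n) ℂ) × (ι → Matrix (Fin n) (Fin n) ℂ) → ι →
    Matrix (Fin n) (Fin n) ℂ := fun p i => p.1 i +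
      Φ i ((p.2 i - p.1 i) * (R i).f r + sg (R i) ((p.2 i - p.1 i) * (R i).f r))
  have hu : Continuous u := by
    apply continuous_pi
    intro i
    have c1 : Continuous fun p : (ι → Matrix (Fin n) (Fin n) ℂ) ×
        (ι → Matrix (Fin n) (Fin n) ℂ) => (p.2 i - p.1 i) * (R i).f r :=
      (((continuous_apply i).comp continuous_snd).sub
        ((continuous_apply i).comp continuous_fst)).matrix_mul continuous_const
    exact ((continuous_apply i).comp continuous_fst).add
      ((LinearMap.continuous_of_finiteDimensional (Φ i)).comp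
        (c1.add ((continuous_sg (R i)).comp c1)))
  have hsg0 : ∀ i, sg (R i) 0 = 0 := by
    intro i
    rw [sg, Matrix.conjTranspose_zero, Matrix.mul_zero, Matrix.zero_mul]
  have hu0 : u (Z₀, Z₀) = Z₀ := by
    funext i
    change Z₀ i + Φ i ((Z₀ i - Z₀ i) * (R i).f r + sg (R i) ((Z₀ i - Z₀ i) * (R i).f r)) = Z₀ i
    rw [sub_self, zero_mul, hsg0, add_zero, map_zero, add_zero]
  have hev : ∀ᶠ p in 𝓝 (Z₀, Z₀), ∀ i, GoodAt (R i) r (p.1 i) 0 ∧
      GoodAt (R i) r (u p i) (sg (R i) (u p i - p.1 i) + (u p i - p.1 i) * (R i).f r) ∧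
      GoodAt (R i) r (u p i) 0 ∧
      GoodAt (R i) r (p.2 i) (sg (R i) (p.2 i - u p i) + (p.2 i - u p i) * (R i).f r) := by
    rw [Filter.eventually_all]
    intro i
    have cu : Continuous fun p => u p i := (continuous_apply i).comp hu
    have c1 : Continuous fun p : (ι → Matrix (Fin n) (Fin n) ℂ) ×
        (ι → Matrix (Fin n) (Fin n) ℂ) => p.1 i := (continuous_apply i).comp continuous_fst
    have c2 : Continuous fun p : (ι → Matrix (Fin n) (Fin n) ℂ) ×
        (ι → Matrix (Fin n) (Fin n) ℂ) => p.2 i := (continuous_apply i).comp continuous_snd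
    have d1 : Continuous fun p : (ι → Matrix (Fin n) (Fin n) ℂ) ×
        (ι → Matrix (Fin n) (Fin n) ℂ) => (p.1 i, (0 : Matrix (Fin n) (Fin n) ℂ)) :=
      c1.prodMk continuous_const
    have d2 : Continuous fun p => (u p i,
        sg (R i) (u p i - p.1 i) + (u p i - p.1 i) * (R i).f r) :=
      cu.prodMk (((continuous_sg (R i)).comp (cu.sub c1)).add
        ((cu.sub c1).matrix_mul continuous_const))
    have d3 : Continuous fun p => (u p i, (0 : Matrix (Fin n) (Fin n) ℂ)) :=
      cu.prodMk continuous_const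
    have d4 : Continuous fun p => (p.2 i,
        sg (R i) (p.2 i - u p i) + (p.2 i - u p i) * (R i).f r) :=
      c2.prodMk (((continuous_sg (R i)).comp (c2.sub cu)).add
        ((c2.sub cu).matrix_mul continuous_const))
    refine (d1.continuousAt.eventually (goodAt_open (R i) r ?_)).and
      ((d2.continuousAt.eventually (goodAt_open (R i) r ?_)).and
      ((d3.continuousAt.eventually (goodAt_open (R i) r ?_)).and
      (d4.continuousAt.eventually (goodAt_open (R i) r ?_))))
    · exact h0 i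
    · rw [hu0, sub_self, zero_mul, hsg0, add_zero]; exact h0 i
    · rw [hu0]; exact h0 i
    · rw [hu0, sub_self, zero_mul, hsg0, add_zero]; exact h0 i
  rw [nhds_prod_eq] at hev
  obtain ⟨U, hU, hUU⟩ := Filter.mem_prod_same_iff.mp hev
  refine ⟨U, hU, fun z z' hz hz' => ?_⟩
  have hp := hUU (Set.mk_mem_prod hz hz')
  -- the intermediate point in the algebra
  obtain ⟨w, hw⟩ := exists_w K hr ((z' - z) * r + star ((z' - z) * r))
  have hwskew : star w = -w := by
    have h1 : (star w + w) * r - star r * (star w + w) = 0 := by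
      have h2 := congrArg star hw
      rw [star_sub, star_mul, star_mul, star_star, star_add, star_star] at h2
      calc (star w + w) * r - star r * (star w + w)
          = (w * r - star r * w) - (star r * star w - star w * r) := by
            rw [add_mul, mul_add]; abel
        _ = 0 := by rw [hw, h2]; abel
    have h3 := hr _ (sub_eq_zero.mp h1)
    exact eq_neg_of_add_eq_zero_left h3
  have hup : u (FF R z, FF R z') = FF R (z + w) := by
    funext i
    change (R i).f z + Φ i (((R i).f z' - (R i).f z) * (R i).f r +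
      sg (R i) (((R i).f z' - (R i).f z) * (R i).f r)) = (R i).f (z + w)
    rw [← map_sub, ← map_mul, ← f_star, ← map_add, ← hw, ← hΦ, map_add]
  have k1 : ψ (z * r) * (ψ z)⁻¹ = ψ ((z + w) * r) * (ψ (z + w))⁻¹ := by
    refine local1 (K := K) hn hd hS (δ := star ((z + w) - z) + ((z + w) - z) * r) rfl ?_
      (fun i => (hp i).1) (fun i => ?_)
    · rw [star_add, hwskew]; abel
    · have h1 := (hp i).2.1
      rw [hup] at h1
      rw [map_add (R i).f (star (z + w - z)), f_star, map_mul, map_sub]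
      exact h1
  have k2 : ψ ((z + w) * r) * (ψ (z + w))⁻¹ = ψ (z' * r) * (ψ z')⁻¹ := by
    refine local2 (K := K) hn hd hS (δ := star (z' - (z + w)) + (z' - (z + w)) * r) rfl ?_
      (fun i => ?_) (fun i => ?_)
    · have h1 : (z + w) * r + star ((z + w) * r) =
          (z * r + star (z * r)) + (w * r - star r * w) := by
        rw [add_mul, star_add, star_mul w, hwskew]
        simp only [mul_neg]
        abel
      rw [h1, hw, sub_mul, star_sub]
      abel
    · have h1 := (hp i).2.2.1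
      rw [hup] at h1
      exact h1
    · have h1 := (hp i).2.2.2
      rw [hup] at h1
      rw [map_add (R i).f (star (z' - (z + w))), f_star, map_mul, map_sub]
      exact h1
  rw [k1, k2]

/-- **Lemma B** for the multipliers of the first kind. -/
theorem lemB_inj [CharZero K] [Fintype ι] [Nonempty ι] (hn : 0 < n)
    (hdeg : finrank K D = n ^ 2) {R : ι → RData K D n} (hd : RP.Dense R) {ψ : D → A}
    (hS : ThmS R ψ) {z z' r : D} (hr : Inj r)
    (hz : XX R z) (hz' : XX R z') (hzr : XX R (z * r)) (hzr' : XX R (z' * r)) :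
    ψ (z * r) * (ψ z)⁻¹ = ψ (z' * r) * (ψ z')⁻¹ := by
  have h := const_of_local (fun s => ψ (zz K z z' s * r) * (ψ (zz K z z' s))⁻¹) ?_
  · simpa [zz] using h
  intro s₀ h0 h1
  obtain ⟨Zs, hZs⟩ : ∃ Zs : ℝ → ι → Matrix (Fin n) (Fin n) ℂ, Zs = fun (s : ℝ) i =>
    (R i).f z + (s : ℂ) • ((R i).f z' - (R i).f z) := ⟨_, rfl⟩
  have hg : ∀ i, GoodAt (R i) r (Zs s₀ i) 0 := by
    intro i
    rw [hZs]
    apply goodAt_zero
    · exact pos_seg (hz i) (hz' i) h0 h1
    · have := pos_seg (hzr i) (hzr' i) h0 h1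
      have e1 : (R i).f (z * r) + (s₀ : ℂ) • ((R i).f (z' * r) - (R i).f (z * r)) =
          ((R i).f z + (s₀ : ℂ) • ((R i).f z' - (R i).f z)) * (R i).f r := by
        rw [map_mul, map_mul, ← sub_mul, add_mul, smul_mul_assoc]
      rw [e1] at this
      exact this
  obtain ⟨U, hU, H⟩ := local_B hn hdeg hd hS hr hg
  have hc : Continuous Zs := by
    rw [hZs]
    apply continuous_pi
    intro i
    fun_prop
  obtain ⟨η, hη, H'⟩ := Metric.eventually_nhds_iff.mp (hc.continuousAt.eventually hU)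
  refine ⟨η, hη, fun s s' _ _ _ _ hs hs' => H _ _ ?_ ?_⟩
  · have h2 : FF R (zz K z z' s) = Zs s := by
      funext i
      rw [FF, f_zz, hZs]
    rw [h2]
    exact H' (by rwa [Real.dist_eq])
  · have h2 : FF R (zz K z z' s') = Zs s' := by
      funext i
      rw [FF, f_zz, hZs]
    rw [h2]
    exact H' (by rwa [Real.dist_eq])

theorem star_algebraMap (l : K) : star (algebraMap K D l) = algebraMap K D (star l) :=
  (algebraMap_star_comm l).symm

theorem inj_central {l : K} (hl : star l ≠ l) : Inj (algebraMap K D l) := by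
  intro w hw
  rw [star_algebraMap, ← Algebra.commutes, ← sub_eq_zero, ← sub_mul, ← map_sub] at hw
  rcases mul_eq_zero.mp hw with h | h
  · rw [map_eq_zero, sub_eq_zero] at h
    exact absurd h.symm hl
  · exact h

theorem finite_bad {r : D} : {μ : K | ∃ w : D, w ≠ 0 ∧
    (star r)⁻¹ * w * r = algebraMap K D μ * w}.Finite := by
  let L : Module.End K D := (LinearMap.mulRight K r) ∘ₗ (LinearMap.mulLeft K (star r)⁻¹)
  refine (Module.End.finite_hasEigenvalue L).subset ?_
  rintro μ ⟨w, hw, h⟩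
  apply Module.End.hasEigenvalue_of_hasEigenvector (x := w)
  refine ⟨?_, hw⟩
  rw [Module.End.mem_eigenspace_iff, Algebra.smul_def, ← h]
  rfl

theorem inj_of_notMem {r : D} (hr : r ≠ 0) {l : K} (hl : l ≠ 0)
    (h : l * (star l)⁻¹ ∉ {μ : K | ∃ w : D, w ≠ 0 ∧
      (star r)⁻¹ * w * r = algebraMap K D μ * w}) : Inj ((algebraMap K D l)⁻¹ * r) := by
  intro w hw
  by_contra h0
  apply h
  refine ⟨w, h0, ?_⟩
  have hsl : star l ≠ 0 := star_ne_zero.mpr hl
  have hl' : algebraMap K D l ≠ 0 := (map_ne_zero _).mpr hl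
  have hsr : star r ≠ 0 := star_ne_zero.mpr hr
  rw [star_mul, star_inv₀, star_algebraMap, ← map_inv₀, ← map_inv₀, ← mul_assoc,
    ← Algebra.commutes, mul_assoc (star r), mul_assoc] at hw
  have h1 : w * r = algebraMap K D l * (star r * (algebraMap K D (star l)⁻¹ * w)) := by
    rw [← hw, ← mul_assoc, ← map_mul, mul_inv_cancel₀ hl, map_one, one_mul]
  have h2 : w * r = star r * (algebraMap K D (l * (star l)⁻¹) * w) := by
    rw [h1, ← mul_assoc, Algebra.commutes, mul_assoc, ← mul_assoc (algebraMap K D l), ← map_mul]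
  rw [mul_assoc, h2, inv_mul_cancel_left₀ hsr]

theorem XX_near [CharZero K] [Fintype ι] {R : ι → RData K D n} {z : D} (hz : XX R z) (θ : K) :
    ∀ᶠ t : ℝ in 𝓝 0, ∀ q : ℚ, (q : ℝ) = t → XX R (z * algebraMap K D (1 + q * θ)) := by
  have h1 : ∀ᶠ t : ℝ in 𝓝 0, ∀ i, ((1 + (t : ℂ) * (R i).s θ) • ((R i).f z * (R i).A) +
      ((1 + (t : ℂ) * (R i).s θ) • ((R i).f z * (R i).A))ᴴ).PosDef := by
    rw [Filter.eventually_all]
    intro i
    have hc : Continuous fun t : ℝ => (1 + (t : ℂ) * (R i).s θ) • ((R i).f z * (R i).A) := by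
      fun_prop
    refine hc.continuousAt.eventually (isOpen_pos.mem_nhds ?_)
    change ((1 + ((0 : ℝ) : ℂ) * (R i).s θ) • ((R i).f z * (R i).A) +
      ((1 + ((0 : ℝ) : ℂ) * (R i).s θ) • ((R i).f z * (R i).A))ᴴ).PosDef
    rw [Complex.ofReal_zero, zero_mul, add_zero, one_smul, Matrix.conjTranspose_mul, (R i).hA,
      ← f_re]
    exact hz i
  filter_upwards [h1] with t ht q hq i
  have h2 := ht i
  have h3 : (R i).f (z * algebraMap K D (1 + q * θ)) * (R i).A =
      (1 + (t : ℂ) * (R i).s θ) • ((R i).f z * (R i).A) := by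
    rw [← Algebra.commutes, map_mul, (R i).hf, Matrix.scalar_apply,
      ← Matrix.smul_eq_diagonal_mul, smul_mul_assoc, map_add, map_one, map_mul, map_ratCast, ← hq,
      Complex.ofReal_ratCast]
  rw [RData.PosAt, f_re, ← (R i).hA, ← Matrix.conjTranspose_mul, (R i).hA, h3]
  exact h2

/-- **Lemma B** for a form of rank two. -/
theorem lemB2 [CharZero K] [Fintype ι] [Nonempty ι] (hK : ∃ k : K, star k ≠ k) (hn : 0 < n)
    (hdeg : finrank K D = n ^ 2) {R : ι → RData K D n} (hd : RP.Dense R) {ψ : D → A}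
    (hS : ThmS R ψ) {z z' r : D}
    (hz : XX R z) (hz' : XX R z') (hzr : XX R (z * r)) (hzr' : XX R (z' * r)) :
    ψ (z * r) * (ψ z)⁻¹ = ψ (z' * r) * (ψ z')⁻¹ := by
  have hr0 : r ≠ 0 := by
    rintro rfl
    obtain ⟨i⟩ := (inferInstance : Nonempty ι)
    have h2 := hzr i
    rw [mul_zero, star_zero, add_zero] at h2
    exact ne_zero_of_pos hn h2 rfl
  obtain ⟨k, hk⟩ := hK
  obtain ⟨θ, hθd⟩ : ∃ θ : K, θ = k - star k := ⟨_, rfl⟩
  have hθ : star θ = -θ := by rw [hθd, star_sub, star_star, neg_sub]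
  have hθ0 : θ ≠ 0 := by
    rw [hθd, sub_ne_zero]; exact Ne.symm hk
  -- the multipliers
  obtain ⟨q, hqd⟩ : ∃ q : ℕ → ℚ, q = fun N : ℕ => 1 / ((N : ℚ) + 1) := ⟨_, rfl⟩
  have hq0 : ∀ N, q N ≠ 0 := by
    intro N; rw [hqd]; positivity
  have hqinj : Function.Injective q := by
    intro a b h
    rw [hqd] at h
    have h1 : (a : ℚ) + 1 = (b : ℚ) + 1 := by
      simpa using h
    have h2 : (a : ℚ) = b := by linarith
    exact_mod_cast h2
  have hst : ∀ x : ℚ, star (1 + (x : K) * θ) = 1 - (x : K) * θ := by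
    intro x
    rw [star_add, star_one, star_mul, hθ, star_ratCast]
    ring
  have hne : ∀ x : ℚ, 1 + (x : K) * θ ≠ 0 ∧ 1 - (x : K) * θ ≠ 0 := by
    intro x
    have h2 : ∀ c : K, c = 0 → star c = 0 := fun c hc => by rw [hc, star_zero]
    constructor
    · intro h
      have h3 := h2 _ h
      rw [hst] at h3
      have : (2 : K) = 0 := by linear_combination h + h3
      exact two_ne_zero this
    · intro h
      have h3 := h2 _ h
      rw [← hst, star_star] at h3
      have : (2 : K) = 0 := by linear_combination h + h3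
      exact two_ne_zero this
  have hμ : ∀ x y : ℚ, (1 + (x : K) * θ) * (star (1 + (x : K) * θ))⁻¹ =
      (1 + (y : K) * θ) * (star (1 + (y : K) * θ))⁻¹ → x = y := by
    intro x y h
    rw [hst, hst, mul_inv_eq_iff_eq_mul₀ (hne x).2, mul_assoc, mul_comm _ (1 - (x : K) * θ),
      ← mul_assoc, eq_mul_inv_iff_mul_eq₀ (hne y).2] at h
    have h1 : (2 * θ) * ((x : K) - y) = 0 := by linear_combination h
    rcases mul_eq_zero.mp h1 with h2 | h2
    · exact absurd h2 (mul_ne_zero two_ne_zero hθ0)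
    · exact_mod_cast sub_eq_zero.mp h2
  have hbad : ∀ᶠ N : ℕ in Filter.atTop, Inj ((algebraMap K D (1 + (q N : K) * θ))⁻¹ * r) := by
    rw [← Nat.cofinite_eq_atTop]
    have h1 := (finite_bad (K := K) (r := r)).preimage (f := fun N : ℕ =>
      (1 + (q N : K) * θ) * (star (1 + (q N : K) * θ))⁻¹)
      (fun a _ b _ h => hqinj (hμ _ _ h))
    filter_upwards [h1.compl_mem_cofinite] with N hN
    exact inj_of_notMem hr0 (hne _).1 hN
  have hlim : Filter.Tendsto (fun N : ℕ => ((q N : ℚ) : ℝ)) Filter.atTop (𝓝 0) := by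
    rw [hqd]
    push_cast
    exact tendsto_one_div_add_atTop_nhds_zero_nat
  obtain ⟨N, h1, h2, h3⟩ := (hbad.and ((hlim.eventually (XX_near hz θ)).and
    (hlim.eventually (XX_near hz' θ)))).exists
  have h2 := h2 (q N) rfl
  have h3 := h3 (q N) rfl
  obtain ⟨l, hl⟩ : ∃ l, l = 1 + (q N : K) * θ := ⟨_, rfl⟩
  rw [← hl] at h1 h2 h3
  have hl0 : l ≠ 0 := by rw [hl]; exact (hne _).1
  have hsl : star l ≠ l := by
    rw [hl, hst]
    intro h
    have h4 : (2 * (q N : K)) * θ = 0 := by linear_combination -h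
    rcases mul_eq_zero.mp h4 with h5 | h5
    · rcases mul_eq_zero.mp h5 with h6 | h6
      · exact two_ne_zero h6
      · exact hq0 N (by exact_mod_cast h6)
    · exact hθ0 h5
  have hl1 : algebraMap K D l ≠ 0 := (map_ne_zero _).mpr hl0
  have e1 : ∀ y : D, y * algebraMap K D l * ((algebraMap K D l)⁻¹ * r) = y * r := by
    intro y
    rw [mul_assoc, mul_inv_cancel_left₀ hl1]
  have k1 := lemB_inj hn hdeg hd hS (r := algebraMap K D l) (inj_central hsl) hz hz' h2 h3
  have k2 := lemB_inj hn hdeg hd hS (z := z * algebraMap K D l) (z' := z' * algebraMap K D l)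
    h1 h2 h3 (by rw [e1]; exact hzr) (by rw [e1]; exact hzr')
  rw [e1, e1] at k2
  have k3 : ∀ a b c : A, c * a⁻¹ = (c * b⁻¹) * (b * a⁻¹) := by
    intro a b c
    rw [mul_assoc, inv_mul_cancel_left]
  rw [k3 _ (ψ (z * algebraMap K D l)), k3 (ψ z') (ψ (z' * algebraMap K D l)), k1, k2]

end fam

end Vale.Agent.P011.Two2
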