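import Vale.Agent.P011.Two.PncAb
import Vale.Agent.P011.Even.R2

/-!
Symmetric maximal subfields containing a given form of rank one and a positive element with a
given class, whose bad places are disjoint.
-/

open Module Matrix Polynomial NumberField IsDedekindDomain
open Vale.Agent.P011.RP (RData HasR1 HasR2)

namespace Vale.Agent.P011.Two2

open Vale.Agent.P011.Arith Vale.Agent.P011.Even Vale.Agent.P011.Two

section main

variable {k K D : Type} [Field k] [NumberField k] [Field K] [NumberField K] [StarRing K]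
    [DivisionRing D] [StarRing D] [Algebra k K] [Algebra k D] [Algebra K D] [IsScalarTower k K D]
    {d : kˣ} {s : K} {n : ℕ}

/-- A symmetric maximal subfield which is totally split at given primes and real places and
contains an element in a given class of symmetric elements. -/
theorem exists_torus_at (hS : Setting k K D d s) (hn2 : 2 ≤ n) (hdeg : finrank K D = n ^ 2)
    (f : D →ₐ[K] Matrix (Fin n) (Fin n) (AlgebraicClosure K))
    {c : D} (hc : star c = c) (hc0 : c ≠ 0)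
    {V : Set (HeightOneSpectrum (𝓞 k))} (hV : V.Finite)
    (hVns : ∀ v ∈ V, d ∉ LS (v.valuation k)) (hne : V.Nonempty ∨ ∃ φ : k →+* ℝ, φ d < 0) :
    ∃ (E : Type) (_ : Field E) (_ : NumberField E) (_ : Algebra k E) (j : E →ₐ[k] D) (g : Eˣ)
      (β : D), β ≠ 0 ∧ j g = β * c * star β ∧
      finrank k E = n ∧ (∀ x, star (j x) = j x) ∧ (∀ v ∈ V, TotSplit E v) ∧
      (∀ φ : k →+* ℝ, φ d < 0 → ∃ ψ : E →+* ℝ, ψ.comp (algebraMap k E) = φ) ∧
      ¬ IsSquare (algebraMap k E (d : k)) ∧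
      (∀ x : E, (f (j x)).det =
        algebraMap K (AlgebraicClosure K) (algebraMap k K (Algebra.norm k x))) ∧
      ∀ (R : RData K D n) (x y : Eˣ), (∀ ψ : E →+* ℝ, ψ (algebraMap k E d) < 0 →
        0 < ψ (x : E) * ψ (y : E)) → R.CongAt (j x) (j y) := by
  have hn : 0 < n := by omega
  have := hS.fin
  have := hS.cen
  have hfk := hS.fin_k
  have h00 : (1 : D) ≠ 0 := one_ne_zero
  obtain ⟨β, hli, hsplit, hreal⟩ := exists_beta hS hn hdeg (c0 := (1 : D)) (c2 := c)
    (star_one D) hc h00 hc0 hV hVns hne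
  set z := (1 : D)⁻¹ * β * c * star β with hzdef
  have hzz : z = β * c * star β := by rw [hzdef, inv_one, one_mul]
  have hzs : star z = z := by
    rw [hzz, star_mul, star_mul, star_star, hc, mul_assoc]
  have hz : star z = 1 * z * 1⁻¹ := by
    rw [inv_one, one_mul, mul_one, hzs]
  obtain ⟨E, _, _, _, j, g, hjg, hgen⟩ := exists_gen (Module.finBasis k D) z
  obtain ⟨hmn, hmK⟩ := minpoly_map hS hn hdeg f h00 hz hli
  have hjinj : Function.Injective j := j.toRingHom.injective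
  have hjp : ∀ p : k[X], j (aeval g p) = aeval z p := by
    intro p
    rw [← Polynomial.aeval_algHom_apply, hjg]
  have hgmin : minpoly k g = minpoly k z := by rw [← hjg, minpoly.algHom_eq j hjinj g]
  have hfinE : FiniteDimensional k E := Module.Finite.of_injective j.toLinearMap hjinj
  have hE : finrank k E = n := by
    have h1 : IntermediateField.adjoin k {g} = ⊤ := by
      rw [eq_top_iff]
      intro l _
      obtain ⟨p, rfl⟩ := hgen l
      exact IntermediateField.algebra_adjoin_le_adjoin k {g} (by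
        rw [Algebra.adjoin_singleton_eq_range_aeval]
        exact ⟨p, rfl⟩)
    have h2 : finrank k (IntermediateField.adjoin k {g}) = (minpoly k g).natDegree :=
      IntermediateField.adjoin.finrank (Algebra.IsIntegral.isIntegral g)
    rw [h1, IntermediateField.finrank_top', hgmin, hmn] at h2
    exact h2
  have hstarj : ∀ x : E, star (j x) = j x := by
    intro x
    obtain ⟨p, rfl⟩ := hgen x
    rw [hjp]
    have := star_aeval' hS h00 hz p
    rwa [inv_one, one_mul, mul_one] at this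
  -- the central element
  set S := algebraMap K D s with hSdef
  have hSc : ∀ x : D, S * x = x * S := fun x => Algebra.commutes s x
  have hSs : star S = -S := star_S hS
  have hSS : S * S = algebraMap k D d := by
    rw [hSdef, ← map_mul, ← pow_two, hS.sq, ← IsScalarTower.algebraMap_apply]
  have hS0 : S ≠ 0 := (_root_.map_ne_zero (algebraMap K D)).mpr hS.s_ne
  have hD2 : (2 : D) ≠ 0 := by
    have : CharZero D := charZero_of_injective_algebraMap (algebraMap K D).injective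
    exact two_ne_zero
  have hSne : S ≠ -S := by
    intro h
    apply hS0
    have h1 : (2 : D) * S = 0 := by rw [two_mul]; nth_rewrite 1 [h]; exact neg_add_cancel S
    exact (mul_eq_zero.mp h1).resolve_left hD2
  have hdE : ¬ IsSquare (algebraMap k E (d : k)) := by
    rintro ⟨r, hr⟩
    have h1 : (j r - S) * (j r + S) = 0 := by
      have h2 : j r * j r = S * S := by
        rw [← map_mul, ← hr, AlgHom.commutes, hSS]
      rw [sub_mul, mul_add, mul_add, h2, hSc (j r)]
      abel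
    have h3 : ∀ x : D, (x = S ∨ x = -S) → star x ≠ x := by
      rintro x (rfl | rfl)
      · rw [hSs]
        exact fun h => hSne h.symm
      · rw [star_neg, hSs, neg_neg]
        exact hSne
    rcases mul_eq_zero.mp h1 with h | h
    · exact h3 _ (Or.inl (sub_eq_zero.mp h)) (hstarj r)
    · exact h3 _ (Or.inr (eq_neg_of_add_eq_zero_left h)) (hstarj r)
  have hmonic : (minpoly k z).Monic := minpoly.monic (Algebra.IsIntegral.isIntegral z)
  have hβ0 : β ≠ 0 := by
    rintro rfl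
    have h2 := hli.ne_zero ⟨1, by omega⟩
    apply h2
    change z ^ 1 = 0
    rw [pow_one, hzz, zero_mul, zero_mul]
  have hz0 : z ≠ 0 := by
    rw [hzz]
    exact mul_ne_zero (mul_ne_zero hβ0 hc0) (star_ne_zero.mpr hβ0)
  have hg0 : g ≠ 0 := by
    rintro rfl
    exact hz0 (by rw [← hjg, map_zero])
  have hroots : ∀ φ : k →+* ℝ, φ d < 0 → ∃ ρ : Fin n → ℝ, Function.Injective ρ ∧
      (minpoly k z).map φ = ∏ i, (X - C (ρ i)) := fun φ hφ =>
    hreal φ hφ _ hmonic hmn (minpoly.aeval k z)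
  have hpsi : ∀ (φ : k →+* ℝ) (ρ : Fin n → ℝ), (minpoly k z).map φ = ∏ i, (X - C (ρ i)) →
      ∀ i, ∃ ψ : E →+* ℝ, ψ.comp (algebraMap k E) = φ ∧
        ∀ p : k[X], ψ (aeval g p) = p.eval₂ φ (ρ i) := by
    intro φ ρ hρ i
    apply exists_psi_root hgen
    rw [hgmin, ← Polynomial.eval_map, hρ, eval_prod]
    apply Finset.prod_eq_zero (Finset.mem_univ i)
    rw [eval_sub, eval_X, eval_C, sub_self]
  refine ⟨E, inferInstance, inferInstance, inferInstance, j, Units.mk0 g hg0, β, hβ0, ?_, hE,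
    hstarj, ?_, ?_, hdE, ?_, ?_⟩
  · rw [Units.val_mk0, hjg, hzz]
  · intro v hv
    exact hsplit v hv E g hE (by rw [hgmin]; exact hmn) (by rw [hgmin]; exact minpoly.aeval k z)
  · intro φ hφ
    obtain ⟨ρ, -, hρ⟩ := hroots φ hφ
    obtain ⟨ψ, hψ, -⟩ := hpsi φ ρ hρ ⟨0, hn⟩
    exact ⟨ψ, hψ⟩
  · intro x
    obtain ⟨p, rfl⟩ := hgen x
    rw [hjp]
    exact det_sub hS hn hdeg f h00 hz hli hE hgmin p
  · intro R x y hxy
    obtain ⟨φ, hφ, hφd⟩ := exists_phi hS R
    obtain ⟨ρ, hρi, hρ⟩ := hroots φ hφd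
    obtain ⟨p, hp⟩ := hgen ((x * y⁻¹ : Eˣ) : E)
    have hjy0 : j (y : E) ≠ 0 := (_root_.map_ne_zero j).mpr y.ne_zero
    have hjx : j (x : E) = j (y : E) * aeval z p := by
      rw [← hjp, ← hp, ← map_mul, Units.val_mul]
      congr 1
      rw [mul_comm (x : E), ← mul_assoc, Units.mul_inv, one_mul]
    have hzy : star z = j (y : E) * z * (j (y : E))⁻¹ := by
      rw [hzs, ← hjg, ← map_mul, mul_comm, map_mul, mul_assoc, mul_inv_cancel₀ hjy0, mul_one]
    rw [hjx]
    refine cong_mul R hφ (hstarj _) hjy0 hzy (minpoly.aeval k z) hρi hρ (fun i => ?_) ?_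
    · obtain ⟨ψ, hψ, hψp⟩ := hpsi φ ρ hρ i
      rw [eval_map, ← hψp, ← hp]
      have h1 : ψ (algebraMap k E d) < 0 := by
        have : ψ (algebraMap k E d) = φ d := RingHom.congr_fun hψ _
        rw [this]
        exact hφd
      have h2 := hxy ψ h1
      have h3 : ψ (y : E) ≠ 0 := (_root_.map_ne_zero ψ).mpr y.ne_zero
      have h4 : ψ ((x * y⁻¹ : Eˣ) : E) = ψ (x : E) * ψ (y : E) / ψ (y : E) ^ 2 := by
        rw [Units.val_mul, map_mul, Units.val_inv_eq_inv_val, map_inv₀]
        field_simp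
      rw [h4]
      positivity
    · rw [← hjp, ← hp]
      exact (_root_.map_ne_zero j).mpr (x * y⁻¹).ne_zero

omit [NumberField k] [NumberField K] [Algebra k D] [IsScalarTower k K D] in
/-- Isometric forms of rank one have the same signatures. -/
theorem cong_conj' (hS : Setting k K D d s) (R : RData K D n) {β : D} (hβ : β ≠ 0) (c : D) :
    R.CongAt c (β * c * star β) := by
  have := hS.fin
  refine ⟨R.f β, f_unit R hβ, ?_⟩
  rw [map_mul, map_mul, mul_assoc (R.f β * R.f c), R.star_f]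
  simp only [mul_assoc]

/-- A subfield with elements `μ` and `σ` in given classes of symmetric elements, such that `-μ` or
`σ` is a local norm at each place. -/
theorem exists_mu_data (hS : Setting k K D d s) (hn : 2 ≤ n) (hdeg : finrank K D = n ^ 2)
    (hR1 : HasR1 K D n) {g c : D} (hg : star g = g) (hg0 : g ≠ 0) (hc : star c = c) (hc0 : c ≠ 0)
    (hpos : ∀ R : RData K D n, R.CongAt 1 c) :
    ∃ (E : Type) (_ : Field E) (_ : NumberField E) (_ : Algebra k E) (j : E →ₐ[k] D) (μ σ : Eˣ)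
      (t t' : D), (∀ x, star (j x) = j x) ∧ t ≠ 0 ∧ t' ≠ 0 ∧ j μ = t * g * star t ∧
      j σ = t' * c * star t' ∧ (∀ ψ : E →+* ℝ, ψ (algebraMap k E d) < 0 → 0 < ψ (σ : E)) ∧
      ∀ ω : HeightOneSpectrum (𝓞 E), -μ ∈ NF (inc k E d) ⊔ LS (ω.valuation E) ∨
        σ ∈ NF (inc k E d) ⊔ LS (ω.valuation E) := by
  classical
  have hn0 : 0 < n := by omega
  have := hS.fin
  have := hS.cen
  have hfk := hS.fin_k
  -- reduced norms
  obtain ⟨f⟩ := Vale.Agent.P011S.exists_split (K := K) (D := D) hdeg (AlgebraicClosure K)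
  have hdet : ∀ x : D, x ≠ 0 → (f x).det ≠ 0 := by
    intro x hx h0
    have h1 : f x * f x⁻¹ = 1 := by rw [← map_mul, mul_inv_cancel₀ hx, map_one]
    have h2 := congrArg Matrix.det h1
    rw [Matrix.det_mul, h0, zero_mul, Matrix.det_one] at h2
    exact zero_ne_one h2
  have hnrd : ∀ x : D, x ≠ 0 → star x = x →
      ∃ ν : kˣ, (f x).det = algebraMap K (AlgebraicClosure K) (algebraMap k K ν) := by
    intro x hx0 hx
    obtain ⟨ν, hν⟩ := exists_nrd hn0 hdeg f x
    obtain ⟨ν', rfl⟩ := (hS.fix ν).mp (star_nrd hn0 hdeg hS.star_alg f hx hν)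
    refine ⟨Units.mk0 ν' ?_, hν⟩
    rintro rfl
    rw [map_zero, map_zero] at hν
    exact hdet x hx0 hν
  obtain ⟨νg, hνg⟩ := hnrd g hg0 hg
  obtain ⟨νc, hνc⟩ := hnrd c hc0 hc
  obtain ⟨a₁, ha₁⟩ : ∃ a₁ : kˣ, a₁ = (-1) ^ n * νg := ⟨_, rfl⟩
  -- the primes
  obtain ⟨V1, hV1⟩ := exists_ctrl hS.ns a₁
  obtain ⟨V2, hV2⟩ := exists_ctrl hS.ns νc
  obtain ⟨V, hVd⟩ : ∃ V, V = V1 ∪ V2 := ⟨_, rfl⟩
  have hVf : V.Finite := hVd ▸ hV1.fin.union hV2.fin
  have hVns : ∀ v ∈ V, d ∉ LS (v.valuation k) := by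
    rw [hVd]
    rintro v (hv | hv)
    · exact hV1.nonsplit v hv
    · exact hV2.nonsplit v hv
  have hVa : Ctrl d a₁ V := ⟨hVf, hVns, fun v hv => hVd ▸ Or.inl (hV1.bad v hv), by
    obtain ⟨p, h1, h2, h3⟩ := hV1.jet
    exact ⟨p, h1, h2, fun v hv => hVd ▸ Or.inl (h3 v hv)⟩⟩
  have hVc : Ctrl d νc V := ⟨hVf, hVns, fun v hv => hVd ▸ Or.inr (hV2.bad v hv), by
    obtain ⟨p, h1, h2, h3⟩ := hV2.jet
    exact ⟨p, h1, h2, fun v hv => hVd ▸ Or.inr (h3 v hv)⟩⟩
  have hne : V.Nonempty ∨ ∃ φ : k →+* ℝ, φ d < 0 := by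
    obtain ⟨p, hp, -, hpV⟩ := hVa.jet
    rcases p with v | φ
    · exact Or.inl ⟨v, hpV v rfl⟩
    · exact Or.inr ⟨φ, notMem_LSR.mp hp⟩
  -- the field
  obtain ⟨E, _, _, _, j, gE, β, hβ0, hjg, hE, hstarj, hsplit, hreal, hdE, hnorm, hcong⟩ :=
    exists_torus_at hS hn hdeg f hg hg0 hVf hVns hne
  have hplaces : ∀ v : HeightOneSpectrum (𝓞 k), ∃ w1 w2 : HeightOneSpectrum (𝓞 E),
      Ab w1 v ∧ Ab w2 v ∧ (v ∈ V → w1 ≠ w2) := by
    intro v
    by_cases hv : v ∈ V
    · obtain ⟨w, hwi, hw⟩ := hsplit v hv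
      refine ⟨w ⟨0, by omega⟩, w ⟨1, by omega⟩, hw _, hw _, fun _ h => ?_⟩
      have := congrArg Fin.val (hwi h)
      simp at this
    · obtain ⟨w, hw⟩ := exists_above (E := E) v
      exact ⟨w, w, hw, hw, fun h => absurd h hv⟩
  choose ab1 ab2 hab1 hab2 hab12 using hplaces
  have hcg : ∀ R : RData K D n, R.CongAt g (j gE) := by
    intro R
    rw [hjg]
    exact cong_conj' hS R hβ0 g
  -- the first element
  have hNgE : Algebra.norm k (((-gE : Eˣ)) : E) = (-1) ^ n * Algebra.norm k (gE : E) := by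
    rw [Units.val_neg, ← neg_one_mul (gE : E), map_mul]
    congr 1
    have : (-1 : E) = algebraMap k E (-1) := by rw [map_neg, map_one]
    rw [this, Algebra.norm_algebraMap, hE]
  obtain ⟨μ', hμN, hμb, hμs⟩ := pnc_ab (E := E) hdE hVa hsplit hreal ab1 hab1 (-gE)
    (fun φ hφ => by
      obtain ⟨R, hR⟩ := exists_rdata_of (D := D) hS hn0 hdeg hφ
      have h1 := nrd_pos hS hn0 hdeg f R hR (hcg R) (ν := νg)
        (ν' := nrm k E gE) hνg (hnorm gE)
      have h2 : φ (nrm k E gE : kˣ) = φ (Algebra.norm k (gE : E)) := rfl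
      rw [h2] at h1
      rw [hNgE, ha₁, Units.val_mul, map_mul, map_mul]
      have h3 : φ (((-1 : kˣ) ^ n : kˣ) : k) = (-1) ^ n := by
        rw [Units.val_pow_eq_pow_val, Units.val_neg, Units.val_one, map_pow, map_neg, map_one]
      have h4 : φ ((-1) ^ n) = (-1) ^ n := by rw [map_pow, map_neg, map_one]
      rw [h3, h4]
      have h5 : ((-1 : ℝ) ^ n) * (-1) ^ n = 1 := by rw [← mul_pow]; norm_num
      calc (0 : ℝ) < φ (Algebra.norm k (gE : E)) * φ νg := h1
        _ = ((-1 : ℝ) ^ n * (-1) ^ n) * (φ (Algebra.norm k (gE : E)) * φ νg) := by rw [h5, one_mul]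
        _ = _ := by ring)
  obtain ⟨μ, hμd⟩ : ∃ μ : Eˣ, μ = -μ' := ⟨_, rfl⟩
  have hμμ : -μ = μ' := by rw [hμd, neg_neg]
  have hcμ : ∀ R : RData K D n, R.CongAt g (j μ) := by
    intro R
    refine cong_trans (hcg R) (cong_symm (hcong R μ gE fun ψ hψ => ?_))
    have := hμs ψ hψ
    rw [hμd, Units.val_neg, map_neg]
    rw [Units.val_neg, map_neg] at this
    linarith
  -- norms and norm classes
  have hfixk : ∀ a : k, star (algebraMap k K a) = algebraMap k K a := fun a =>
    (hS.fix _).mpr ⟨a, rfl⟩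
  have key : ∀ ν ν' : kˣ, ν' * ν ∈ NF d → ∃ z : K, z ≠ 0 ∧
      algebraMap k K ν' = z * star z * algebraMap k K ν := by
    rintro ν ν' ⟨X', Y', hXY⟩
    have hν0 : algebraMap k K ν ≠ 0 := (_root_.map_ne_zero _).mpr ν.ne_zero
    have hν0' : algebraMap k K ν' ≠ 0 := (_root_.map_ne_zero _).mpr ν'.ne_zero
    obtain ⟨z, hz⟩ : ∃ z : K, z = (algebraMap k K X' + algebraMap k K Y' * s) *
      (algebraMap k K ν)⁻¹ := ⟨_, rfl⟩
    have h1 : star z = (algebraMap k K X' - algebraMap k K Y' * s) * (algebraMap k K ν)⁻¹ := by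
      rw [hz, star_mul', star_inv₀, star_add, star_mul', hfixk, hfixk, hfixk, hS.star_s,
        mul_neg, sub_eq_add_neg]
    have h2 : (algebraMap k K X' + algebraMap k K Y' * s) *
        (algebraMap k K X' - algebraMap k K Y' * s) =
        algebraMap k K ν' * algebraMap k K ν := by
      rw [← map_mul, ← Units.val_mul, hXY, map_sub, map_mul, map_pow, map_pow, ← hS.sq]
      ring
    have h3 : z * star z * algebraMap k K ν = algebraMap k K ν' := by
      rw [h1, hz]
      field_simp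
      rw [h2, mul_comm]
    refine ⟨z, ?_, h3.symm⟩
    rintro rfl
    rw [zero_mul, zero_mul] at h3
    exact hν0' h3.symm
  have hNμ : nrm k E μ * νg ∈ NF d := by
    have h1 : nrm k E μ = (-1) ^ n * nrm k E μ' := by
      apply Units.ext
      change Algebra.norm k (μ : E) = _
      rw [hμd, Units.val_neg, ← neg_one_mul (μ' : E), map_mul, Units.val_mul]
      congr 1
      have : (-1 : E) = algebraMap k E (-1) := by rw [map_neg, map_one]
      rw [this, Algebra.norm_algebraMap, hE]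
      simp
    rw [h1]
    have h2 : (-1) ^ n * nrm k E μ' * νg = nrm k E μ' * a₁ := by rw [ha₁]; ac_rfl
    rw [h2]
    exact hμN
  obtain ⟨z, hz0, hz⟩ := key νg (nrm k E μ) hNμ
  have hjμ0 : j (μ : E) ≠ 0 := (_root_.map_ne_zero j).mpr μ.ne_zero
  obtain ⟨t, ht0, ht⟩ := hR1 (AlgebraicClosure K) f g (j μ) hg (hstarj _) hg0 hjμ0
    ⟨z, hz0, by
      rw [hnorm, hνg, ← map_mul, ← hz]
      rfl⟩ hcμ
  -- the second element
  obtain ⟨σ, hσN, hσb, hσs⟩ := pnc_ab (E := E) hdE hVc hsplit hreal ab2 hab2 1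
    (fun φ hφ => by
      obtain ⟨R, hR⟩ := exists_rdata_of (D := D) hS hn0 hdeg hφ
      have h1 := nrd_pos hS hn0 hdeg f R hR (hpos R) (ν := 1) (ν' := νc)
        (by rw [map_one, Matrix.det_one, Units.val_one, map_one, map_one]) hνc
      rw [Units.val_one, map_one, mul_one] at h1
      rw [Units.val_one, map_one, map_one, one_mul]
      exact h1)
  have hσpos : ∀ ψ : E →+* ℝ, ψ (algebraMap k E d) < 0 → 0 < ψ (σ : E) := by
    intro ψ hψ
    have := hσs ψ hψ
    rwa [Units.val_one, map_one, mul_one] at this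
  have hcσ : ∀ R : RData K D n, R.CongAt c (j σ) := by
    intro R
    refine cong_trans (cong_symm (hpos R)) ?_
    have h1 := hcong R 1 σ fun ψ hψ => by
      rw [Units.val_one, map_one, one_mul]
      exact hσpos ψ hψ
    rwa [Units.val_one, map_one] at h1
  obtain ⟨z', hz0', hz'⟩ := key νc (nrm k E σ) hσN
  have hjσ0 : j (σ : E) ≠ 0 := (_root_.map_ne_zero j).mpr σ.ne_zero
  obtain ⟨t', ht0', ht'⟩ := hR1 (AlgebraicClosure K) f c (j σ) hc (hstarj _) hc0 hjσ0
    ⟨z', hz0', by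
      rw [hnorm, hνc, ← map_mul, ← hz']
      rfl⟩ hcσ
  refine ⟨E, inferInstance, inferInstance, inferInstance, j, μ, σ, t, t', hstarj, ht0, ht0', ht,
    ht', hσpos, fun ω => ?_⟩
  by_contra hcon
  push Not at hcon
  obtain ⟨h1, h2⟩ := hcon
  rw [hμμ] at h1
  obtain ⟨v, hv, rfl⟩ := hμb ω h1
  obtain ⟨v', hv', h3⟩ := hσb _ h2
  have h4 : v = v' := below_unique (hab1 v) (h3 ▸ hab2 v')
  subst h4
  exact hab12 v hv h3

end main

end Vale.Agent.P011.Two2
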