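import Vale.Agent.P011.Two2.CData
import Vale.Agent.P011.Even.Defs

/-!
The choice of a central twist, and the density theorem without invertibility assumption.
-/

open Filter NumberField

set_option linter.unusedSectionVars false

namespace Vale.Agent.P011.Two2

open Vale.Agent.P011.Even

section bad

variable {k L : Type} [Field k] [Field L] [CharZero L] {n : ℕ}

/-- Only finitely many twists are bad. -/
theorem finite_bad_twist (i : k →+* L) {θ : L} {d : k} (hθ : θ ^ 2 = i d) (hd : ¬ IsSquare d)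
    (P M : Matrix (Fin n) (Fin n) L) (hP : IsUnit P) :
    {x : k | ¬ IsUnit (P * Matrix.scalar (Fin n) ((i x + θ) / (i x - θ)) - M)}.Finite := by
  classical
  have hθ0 : θ ≠ 0 := by
    rintro rfl
    apply hd
    rw [zero_pow two_ne_zero] at hθ
    have h1 : d = 0 := (map_eq_zero i).mp hθ.symm
    rw [h1]
    exact ⟨0, by simp⟩
  have hne : ∀ x : k, i x - θ ≠ 0 := by
    intro x h
    apply hd
    refine ⟨x, i.injective ?_⟩
    rw [← hθ, ← sub_eq_zero.mp h, map_mul, sq]
  have hinj : Function.Injective fun x : k => (i x + θ) / (i x - θ) := by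
    intro x y hxy
    simp only at hxy
    rw [div_eq_div_iff (hne x) (hne y)] at hxy
    have h1 : (2 * θ) * (i y - i x) = 0 := by linear_combination hxy
    have h2 := (mul_eq_zero.mp h1).resolve_left (mul_ne_zero two_ne_zero hθ0)
    exact i.injective (sub_eq_zero.mp h2).symm
  obtain ⟨u, hu⟩ := hP
  have hfin : {t : L | ((((u⁻¹ : (Matrix (Fin n) (Fin n) L)ˣ) : Matrix (Fin n) (Fin n) L) *
      M).charpoly).IsRoot t}.Finite :=
    Polynomial.finite_setOfPred_isRoot (Matrix.charpoly_monic _).ne_zero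
  refine (hfin.preimage hinj.injOn).subset fun x hx => ?_
  by_contra hcon
  apply hx
  have h3 : IsUnit (Matrix.scalar (Fin n) ((i x + θ) / (i x - θ)) -
      (((u⁻¹ : (Matrix (Fin n) (Fin n) L)ˣ) : Matrix (Fin n) (Fin n) L) * M)) := by
    rw [Matrix.isUnit_iff_isUnit_det, ← Matrix.eval_charpoly]
    exact (show _ ≠ (0 : L) from hcon).isUnit
  have h4 : P * Matrix.scalar (Fin n) ((i x + θ) / (i x - θ)) - M = P *
      (Matrix.scalar (Fin n) ((i x + θ) / (i x - θ)) -
      (((u⁻¹ : (Matrix (Fin n) (Fin n) L)ˣ) : Matrix (Fin n) (Fin n) L) * M)) := by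
    rw [mul_sub, ← mul_assoc, ← hu, Units.mul_inv, one_mul]
  rw [h4]
  exact (hu ▸ u.isUnit).mul h3

end bad

section twist

variable {D : Type} [DivisionRing D] [StarRing D]

/-- Density after a twist by a central element. -/
theorem sphere_twist [CharZero D] {J : Type} (C : J → CData D)
    (hsim : ∀ X : ∀ p, (C p).E, ∃ x : ℕ → D, ∀ p, (C p).cv x (X p)) {b g c : D}
    (hb : star b = b) (hg : star g = g) {z₀ : D × D} (hz₀ : bform b g z₀ z₀ = c)
    {w : D} (hww : w * star w = 1) (hww' : star w * w = 1) (hcw : ∀ x, w * x = x * w)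
    (Z : ∀ p, (C p).E × (C p).E) (hZ : ∀ p, BB (C p) b g (Z p) (Z p) = (C p).φ c)
    (hinv : ∀ p, IsUnit ((C p).φ (c * w) -
      BB (C p) b g ((C p).φ z₀.1, (C p).φ z₀.2) (Z p))) :
    ∃ z : ℕ → D × D, (∀ j, bform b g (z j) (z j) = c) ∧
      ∀ p, (C p).cv (fun j => (z j).1) (Z p).1 ∧ (C p).cv (fun j => (z j).2) (Z p).2 := by
  have hcs : star c = c := by rw [← hz₀, bb_star hb hg]
  have hcw' : ∀ x, star w * x = x * star w := by
    intro x
    have h1 := congrArg star (hcw (star x))
    rw [star_mul, star_mul, star_star] at h1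
    exact h1.symm
  -- the twisted form
  have hBB : ∀ p (X Y : (C p).E × (C p).E), BB (C p) b g X ((C p).φ w * Y.1, (C p).φ w * Y.2) =
      BB (C p) b g X Y * (C p).φ (star w) := by
    intro p X Y
    simp only [BB, (C p).σ_mul, (C p).σ_φ]
    noncomm_ring
  choose u hu using hinv
  obtain ⟨z, hz, hz'⟩ := sphere C hsim hb hg hz₀
    (fun p => ((C p).φ w * (Z p).1, (C p).φ w * (Z p).2)) (fun p => by
      have h1 : BB (C p) b g ((C p).φ w * (Z p).1, (C p).φ w * (Z p).2)
          ((C p).φ w * (Z p).1, (C p).φ w * (Z p).2) =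
          (C p).φ w * BB (C p) b g (Z p) (Z p) * (C p).φ (star w) := by
        rw [hBB]
        simp only [BB]
        noncomm_ring
      rw [h1, hZ, ← map_mul, ← map_mul, hcw, mul_assoc, hww, mul_one])
    (fun p => (C p).φ w * (((u p)⁻¹ : ((C p).E)ˣ) : (C p).E)) (fun p => by
      have h1 : (C p).φ c - BB (C p) b g ((C p).φ z₀.1, (C p).φ z₀.2)
          ((C p).φ w * (Z p).1, (C p).φ w * (Z p).2) =
          ((C p).φ (c * w) - BB (C p) b g ((C p).φ z₀.1, (C p).φ z₀.2) (Z p)) *
            (C p).φ (star w) := by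
        rw [hBB, sub_mul, ← map_mul, mul_assoc c, hww, mul_one]
      rw [h1, mul_assoc, ← mul_assoc ((C p).φ (star w)), ← map_mul, hww', map_one, one_mul,
        ← hu p, Units.mul_inv])
  refine ⟨fun j => star w • z j, fun j => ?_, fun p => ?_⟩
  · have h1 : bform b g (star w • z j) (star w • z j) = star w * bform b g (z j) (z j) * w := by
      simp only [bform, Prod.smul_fst, Prod.smul_snd, smul_eq_mul, star_mul, star_star]
      noncomm_ring
    rw [h1, hz, hcw', mul_assoc, hww', mul_one]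
  · have h1 := (C p).mul ((C p).const (star w)) (hz' p).1
    have h2 := (C p).mul ((C p).const (star w)) (hz' p).2
    rw [← mul_assoc, ← map_mul, hww', map_one, one_mul] at h1 h2
    exact ⟨h1, h2⟩

end twist

section model

variable {k K D : Type} [Field k] [NumberField k] [Field K] [StarRing K]
  [DivisionRing D] [StarRing D] [Algebra k K] [Algebra k D] [Algebra K D] [IsScalarTower k K D]
  {d : kˣ} {s : K}

/-- A matrix model of a completion. -/
structure CMod (k : Type) {K D : Type} [Field k] [Field K] [DivisionRing D] [StarRing D]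
    [Algebra k D] [Algebra K D] (s : K) (C : CData D) (n : ℕ) where
  L : Type
  [field : Field L]
  [char : CharZero L]
  i : k →+* L
  θ : L
  ρ : C.E ≃+* Matrix (Fin n) (Fin n) L
  hk : ∀ x : k, ρ (C.φ (algebraMap k D x)) = Matrix.scalar (Fin n) (i x)
  hs : ρ (C.φ (algebraMap K D s)) = Matrix.scalar (Fin n) θ

attribute [instance] CMod.field CMod.char

theorem CMod.bad (hS : Setting k K D d s) {n : ℕ} (hn : 0 < n) {C : CData D}
    (M : CMod k s C n) {c : D} (hc : c ≠ 0) (X : C.E) :
    {x : k | ¬ IsUnit (C.φ (c * algebraMap K D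
      ((algebraMap k K x + s) * (algebraMap k K x - s)⁻¹)) - X)}.Finite := by
  have : Nonempty (Fin n) := ⟨⟨0, hn⟩⟩
  have hθ : M.θ ^ 2 = M.i d := by
    have h1 : M.ρ (C.φ (algebraMap K D (s ^ 2))) = Matrix.scalar (Fin n) (M.θ ^ 2) := by
      rw [map_pow, map_pow, map_pow, M.hs, map_pow]
    rw [hS.sq, ← IsScalarTower.algebraMap_apply, M.hk] at h1
    exact (Matrix.scalar_inj.mp h1).symm
  have hne : ∀ x : k, algebraMap k K x - s ≠ 0 := by
    intro x h
    apply hS.ns
    refine ⟨x, (algebraMap k K).injective ?_⟩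
    rw [← hS.sq, ← sub_eq_zero.mp h, map_mul, sq]
  have hne' : ∀ x : k, M.i x - M.θ ≠ 0 := by
    intro x h
    apply hS.ns
    refine ⟨x, M.i.injective ?_⟩
    rw [← hθ, ← sub_eq_zero.mp h, map_mul, sq]
  have hcu : IsUnit (M.ρ (C.φ c)) := ((isUnit_iff_ne_zero.mpr hc).map C.φ).map M.ρ
  refine (finite_bad_twist M.i hθ hS.ns (M.ρ (C.φ c)) (M.ρ X) hcu).subset fun x hx => ?_
  intro hcon
  apply hx
  have h1 : M.ρ (C.φ (c * algebraMap K D ((algebraMap k K x + s) * (algebraMap k K x - s)⁻¹)) - X) =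
      M.ρ (C.φ c) * Matrix.scalar (Fin n) ((M.i x + M.θ) / (M.i x - M.θ)) - M.ρ X := by
    rw [map_sub, map_mul, map_mul]
    congr 2
    have h2 : ∀ y : K, M.ρ (C.φ (algebraMap K D (y * (algebraMap k K x - s)))) =
        M.ρ (C.φ (algebraMap K D y)) * Matrix.scalar (Fin n) (M.i x - M.θ) := by
      intro y
      rw [map_mul, map_mul, map_mul, map_sub, map_sub, map_sub, M.hs,
        ← IsScalarTower.algebraMap_apply, M.hk, map_sub]
    have h3 := h2 ((algebraMap k K x + s) * (algebraMap k K x - s)⁻¹)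
    rw [mul_assoc, inv_mul_cancel₀ (hne x), mul_one, map_add, map_add, map_add, M.hs,
      ← IsScalarTower.algebraMap_apply, M.hk, ← map_add] at h3
    have h4 : Matrix.scalar (Fin n) (M.i x + M.θ) =
        Matrix.scalar (Fin n) ((M.i x + M.θ) / (M.i x - M.θ)) *
          Matrix.scalar (Fin n) (M.i x - M.θ) := by
      rw [← map_mul, div_mul_cancel₀ _ (hne' x)]
    rw [h4] at h3
    have h5 : IsUnit (Matrix.scalar (Fin n) (M.i x - M.θ)) :=
      (isUnit_iff_ne_zero.mpr (hne' x)).map (Matrix.scalar (Fin n))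
    exact (h5.mul_right_cancel h3).symm
  have h6 : IsUnit (M.ρ (C.φ (c * algebraMap K D
      ((algebraMap k K x + s) * (algebraMap k K x - s)⁻¹)) - X)) := by
    rw [h1]; exact hcon
  have h7 := h6.map M.ρ.symm
  rwa [RingEquiv.symm_apply_apply] at h7

/-- **Density of the vectors of given length**, at several places simultaneously. -/
theorem sphere_dense (hS : Setting k K D d s) {n : ℕ} (hn : 0 < n) {J : Type} [Finite J]
    (C : J → CData D) (M : ∀ p, CMod k s (C p) n)
    (hsim : ∀ X : ∀ p, (C p).E, ∃ x : ℕ → D, ∀ p, (C p).cv x (X p)) {b g c : D}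
    (hb : star b = b) (hg : star g = g) (hc : c ≠ 0) {z₀ : D × D} (hz₀ : bform b g z₀ z₀ = c)
    (Z : ∀ p, (C p).E × (C p).E) (hZ : ∀ p, BB (C p) b g (Z p) (Z p) = (C p).φ c) :
    ∃ z : ℕ → D × D, (∀ j, bform b g (z j) (z j) = c) ∧
      ∀ p, (C p).cv (fun j => (z j).1) (Z p).1 ∧ (C p).cv (fun j => (z j).2) (Z p).2 := by
  have : CharZero D := charZero_of_injective_algebraMap (algebraMap k D).injective
  have hne : ∀ x : k, algebraMap k K x - s ≠ 0 := by
    intro x h
    apply hS.ns
    refine ⟨x, (algebraMap k K).injective ?_⟩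
    rw [← hS.sq, ← sub_eq_zero.mp h, map_mul, sq]
  have hne2 : ∀ x : k, algebraMap k K x + s ≠ 0 := by
    intro x h
    have h1 := congrArg star h
    rw [star_add, (hS.fix _).mpr ⟨x, rfl⟩, hS.star_s, star_zero, ← sub_eq_add_neg] at h1
    exact hne x h1
  obtain ⟨x, hx⟩ : ∃ x : k, ∀ p, IsUnit ((C p).φ (c * algebraMap K D
      ((algebraMap k K x + s) * (algebraMap k K x - s)⁻¹)) -
      BB (C p) b g ((C p).φ z₀.1, (C p).φ z₀.2) (Z p)) := by
    have h1 := Set.finite_iUnion fun p => (M p).bad hS hn hc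
      (BB (C p) b g ((C p).φ z₀.1, (C p).φ z₀.2) (Z p))
    obtain ⟨x, -, hx⟩ := (Set.infinite_univ (α := k)).sdiff h1 |>.nonempty
    refine ⟨x, fun p => ?_⟩
    by_contra hcon
    exact hx (Set.mem_iUnion.mpr ⟨p, hcon⟩)
  have hst : star (algebraMap k K x + s) = algebraMap k K x - s := by
    rw [star_add, (hS.fix _).mpr ⟨x, rfl⟩, hS.star_s, ← sub_eq_add_neg]
  have hst' : star (algebraMap k K x - s) = algebraMap k K x + s := by
    rw [← hst, star_star]
  have hw : ((algebraMap k K x + s) * (algebraMap k K x - s)⁻¹) *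
      star ((algebraMap k K x + s) * (algebraMap k K x - s)⁻¹) = 1 := by
    rw [star_mul', star_inv₀, hst, hst']
    have h1 := hne x
    have h2 := hne2 x
    field_simp
  have halg : ∀ y : K, star (algebraMap K D y) = algebraMap K D (star y) := by
    intro y
    rw [Algebra.algebraMap_eq_smul_one, hS.star_smul, star_one, ← Algebra.algebraMap_eq_smul_one]
  refine sphere_twist C hsim hb hg hz₀
    (w := algebraMap K D ((algebraMap k K x + s) * (algebraMap k K x - s)⁻¹)) ?_ ?_
    (fun y => Algebra.commutes _ y) Z hZ hx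
  · rw [halg, ← map_mul, hw, map_one]
  · rw [halg, ← map_mul, mul_comm, hw, map_one]

end model

end Vale.Agent.P011.Two2
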