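import Vale.Agent.P011.Two2.Defs
import Vale.Agent.P011.Three.Psi
import Vale.Agent.P011.T2.Descent

/-!
A path of flags in a sesquilinear space of rank three, and the resulting relation between the
classes of quasi-reflections of a hermitian plane.
-/

namespace Vale.Agent.P011.Two2

open Vale.Agent.P011S Vale.Agent.P011.Three
open Vale.Agent.P011.T2 (HF)

/-! ### Cancellation -/

section witt

variable {D M : Type} [DivisionRing D] [StarRing D] [AddCommGroup M] [Module D M]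

/-- Two vectors of the same nonzero length are conjugate up to sign. -/
theorem witt (B : HF D M) (h2 : (2 : D) ≠ 0) {u f : M} (h : B.h u u = B.h f f)
    (h0 : B.h u u ≠ 0) :
    ∃ τ : M → M, (∀ v v', B.h (τ v) (τ v') = B.h v v') ∧ ∀ v, B.h v u = 0 → B.h (τ v) f = 0 := by
  -- a sign for which `u` and `± f` are not orthogonal to the difference
  obtain ⟨f', hf', hf0, hff⟩ : ∃ f', B.h f' f' = B.h u u ∧ B.h u (u - f') ≠ 0 ∧
      ∀ v, B.h v f' = 0 → B.h v f = 0 := by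
    by_cases h1 : B.h u (u - f) = 0
    · refine ⟨-f, by rw [B.neg_left, B.neg_right, neg_neg, h], ?_, fun v hv => ?_⟩
      · rw [sub_neg_eq_add, B.add_right]
        rw [B.sub_right, sub_eq_zero] at h1
        rw [← h1, ← two_mul]
        exact mul_ne_zero h2 h0
      · rwa [B.neg_right, neg_eq_zero] at hv
    · exact ⟨f, h.symm, h1, fun v hv => hv⟩
  obtain ⟨d, hd⟩ : ∃ d, d = u - f' := ⟨_, rfl⟩
  obtain ⟨κ, hκ⟩ : ∃ κ, κ = B.h u d := ⟨_, rfl⟩
  have hκ0 : κ ≠ 0 := by rw [hκ, hd]; exact hf0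
  have hκs : star κ ≠ 0 := star_ne_zero.mpr hκ0
  have hκd : κ + star κ = B.h d d := by
    rw [hκ, B.star_h, hd]
    simp only [B.sub_left, B.sub_right, hf']
    abel
  obtain ⟨τ, hτ⟩ : ∃ τ : M → M, ∀ v, τ v = v - (B.h v d * κ⁻¹) • d := ⟨_, fun _ => rfl⟩
  have hτu : τ u = f' := by
    rw [hτ, ← hκ, mul_inv_cancel₀ hκ0, one_smul, hd]
    abel
  have hτB : ∀ v v', B.h (τ v) (τ v') = B.h v v' := by
    intro v v'
    rw [hτ, hτ, B.sub_left, B.sub_right, B.sub_right, B.smul_left, B.smul_left, B.smul_right,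
      B.smul_right, ← hκd, star_mul, star_inv₀, B.star_h v' d]
    have h1 : B.h v d * κ⁻¹ * ((κ + star κ) * ((star κ)⁻¹ * B.h d v'))
        = B.h v d * ((star κ)⁻¹ * B.h d v') + B.h v d * κ⁻¹ * B.h d v' := by
      rw [add_mul, mul_add, mul_inv_cancel_left₀ hκs, mul_assoc (B.h v d),
        inv_mul_cancel_left₀ hκ0]
    rw [h1]
    abel
  refine ⟨τ, hτB, fun v hv => hff _ ?_⟩
  rw [← hτu, hτB, hv]

end witt

/-! ### Nondegeneracy -/

section nd

variable {D : Type} [DivisionRing D] [StarRing D] {z z₂ r : D}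

theorem ee_eq (z z₂ r : D) : ee z z₂ r = (z + star z) + ee' z z₂ r := by
  rw [ee, ee']; abel

omit [StarRing D] in
theorem add_ee' (z z₂ r : D) : z + ee' z z₂ r + z₂ = z * r := by
  rw [ee']; abel

theorem star_re (z : D) : star (z + star z) = z + star z := by
  rw [star_add, star_star, add_comm]

/-- the complement of `x` in terms of `x₂` -/
theorem b₀_eq (h : z + star z ≠ 0) :
    b₀ z z₂ r = z₂ + star z₂ - star (ee' z z₂ r) * (z + star z)⁻¹ * ee' z z₂ r := by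
  rw [b₀, ee_eq]
  obtain ⟨l, hl⟩ : ∃ l, l = z + star z := ⟨_, rfl⟩
  obtain ⟨e, he⟩ : ∃ e, e = ee' z z₂ r := ⟨_, rfl⟩
  have hzr : z * r = z + e + z₂ := by rw [he, add_ee']
  rw [← hl, ← he, hzr]
  rw [← hl] at h
  have hls : star l = l := by rw [hl, star_re]
  rw [star_add l e, hls]
  have e1 : (l + star e) * l⁻¹ * (l + e) = l + e + star e + star e * l⁻¹ * e := by
    rw [add_mul l, mul_inv_cancel₀ h, add_mul, one_mul, mul_add (star e * l⁻¹),
      inv_mul_cancel_right₀ h]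
    abel
  rw [e1]
  simp only [star_add]
  rw [hl]
  abel

theorem ND.z0 (h : ND z z₂ r) : z ≠ 0 := fun h0 => h.1 (by rw [h0, star_zero, add_zero])

theorem ND.zr0 (h : ND z z₂ r) : z * r ≠ 0 := fun h0 => h.2.1 (by rw [h0, star_zero, add_zero])

theorem ND.r0 (h : ND z z₂ r) : r ≠ 0 := right_ne_zero_of_mul h.zr0

theorem ND.z₂0 (h : ND z z₂ r) : z₂ ≠ 0 := fun h0 => h.2.2.1 (by rw [h0, star_zero, add_zero])

/-- the complement of `x₂` is nonzero -/
theorem ND.b₂0 (h : ND z z₂ r) : b₂ z z₂ r ≠ 0 := by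
  intro h0
  apply h.2.2.2.2.2
  rw [b₀_eq h.1]
  rw [b₂] at h0
  obtain ⟨l, hl⟩ : ∃ l, l = z + star z := ⟨_, rfl⟩
  obtain ⟨q, hq⟩ : ∃ q, q = z₂ + star z₂ := ⟨_, rfl⟩
  obtain ⟨e, he⟩ : ∃ e, e = ee' z z₂ r := ⟨_, rfl⟩
  have hl0 : l ≠ 0 := by rw [hl]; exact h.1
  have hq0 : q ≠ 0 := by rw [hq]; exact h.2.2.1
  rw [← hl, ← hq, ← he] at h0 ⊢
  rw [sub_eq_zero] at h0 ⊢
  have he0 : e ≠ 0 := by
    intro h1
    apply hl0
    rw [h0, h1, zero_mul, zero_mul]
  have hes : star e ≠ 0 := star_ne_zero.mpr he0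
  rw [h0, mul_inv_rev, mul_inv_rev, inv_inv, mul_inv_cancel_left₀ hes, mul_assoc,
    inv_mul_cancel₀ he0, mul_one]

theorem ND.mm0 (h : ND z z₂ r) : mm z z₂ r ≠ 0 :=
  mul_ne_zero (mul_ne_zero (star_ne_zero.mpr h.z0) (inv_ne_zero h.b₂0)) h.z0

/-- the complement of `x + x₂` is nonzero -/
theorem ND.bb0 (h : ND z z₂ r) : bb z z₂ r ≠ 0 := by
  intro h0
  apply h.2.2.2.2.2
  rw [b₀]
  rw [bb] at h0
  obtain ⟨l, hl⟩ : ∃ l, l = z + star z := ⟨_, rfl⟩
  obtain ⟨q, hq⟩ : ∃ q, q = z * r + star (z * r) := ⟨_, rfl⟩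
  obtain ⟨e, he⟩ : ∃ e, e = ee z z₂ r := ⟨_, rfl⟩
  have he0 : e ≠ 0 := by rw [he]; exact h.2.2.2.2.1
  have hes : star e ≠ 0 := star_ne_zero.mpr he0
  rw [← hl, ← hq, ← he] at h0 ⊢
  rw [sub_eq_zero] at h0 ⊢
  rw [h0, mul_inv_rev, mul_inv_rev, inv_inv, mul_inv_cancel_left₀ hes, mul_assoc,
    inv_mul_cancel₀ he0, mul_one]

theorem star_conj (e z : D) :
    star (star e * (z + star z)⁻¹ * e) = star e * (z + star z)⁻¹ * e := by
  rw [star_mul, star_mul, star_star, star_inv₀, star_re, mul_assoc]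

theorem star_b₀ : star (b₀ z z₂ r) = b₀ z z₂ r := by
  rw [b₀, star_sub, star_re, star_conj]

theorem star_bb : star (bb z z₂ r) = bb z z₂ r := by
  rw [bb, star_sub, star_re, star_mul, star_mul, star_star, star_inv₀, star_re, mul_assoc]

theorem star_b₂ : star (b₂ z z₂ r) = b₂ z z₂ r := by
  rw [b₂, star_sub, star_re, star_mul, star_mul, star_star, star_inv₀, star_re, mul_assoc]

theorem star_mm : star (mm z z₂ r) = mm z z₂ r := by
  rw [mm, star_mul, star_mul, star_star, star_inv₀, star_b₂, mul_assoc]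

end nd

/-! ### The good plane `{v : W(v, y) = 0}` -/

section plane

variable {D V : Type} [DivisionRing D] [StarRing D] [AddCommGroup V] [Module D V]

/-- The form `h ⊥ ⟨b⟩` on `V × D`. -/
def ext (H : AForm D V) (b : D) (hb : star b = b) : HF D (V × D) where
  h u v := H.h u.1 v.1 + u.2 * b * star v.2
  add_left u v w := by
    rw [Prod.fst_add, Prod.snd_add, H.add_left, add_mul, add_mul]
    abel
  smul_left a u v := by
    rw [Prod.smul_fst, Prod.smul_snd, H.smul_left, smul_eq_mul, mul_add]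
    simp only [mul_assoc]
  star_h u v := by
    rw [star_add, H.star_h, star_mul, star_mul, star_star, hb, mul_assoc]

theorem ext_h (H : AForm D V) (b : D) (hb : star b = b) (u v : V × D) :
    (ext H b hb).h u v = H.h u.1 v.1 + u.2 * b * star v.2 := rfl

/-- Two vectors of `h ⊥ ⟨b⟩` orthogonal to a vector of length `c b c*` are isometric to two
vectors of `h`. -/
theorem exists_iso (H : AForm D V) (h2 : (2 : D) ≠ 0) {b c : D} (hb : star b = b) (hb0 : b ≠ 0)
    (hc : c ≠ 0) {u v₁ v₂ : V × D} (hu : (ext H b hb).h u u = c * b * star c)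
    (h₁ : (ext H b hb).h v₁ u = 0) (h₂ : (ext H b hb).h v₂ u = 0) :
    ∃ a₁ a₂ : V, H.h a₁ a₁ = (ext H b hb).h v₁ v₁ ∧ H.h a₂ a₂ = (ext H b hb).h v₂ v₂ ∧
      H.h a₁ a₂ = (ext H b hb).h v₁ v₂ := by
  have hcs : star c ≠ 0 := star_ne_zero.mpr hc
  obtain ⟨τ, hτ, hτ'⟩ := witt (ext H b hb) h2 (u := u) (f := (0, c))
    (by rw [hu, ext_h]; simp) (by rw [hu]; exact mul_ne_zero (mul_ne_zero hc hb0) hcs)
  have h3 : ∀ v, (ext H b hb).h v u = 0 → (τ v).2 = 0 := by
    intro v hv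
    have h4 := hτ' v hv
    rw [ext_h] at h4
    simp only [H.zero_right, zero_add, mul_eq_zero, hb0, hcs, or_false] at h4
    exact h4
  have e1 := h3 _ h₁
  have e2 := h3 _ h₂
  refine ⟨(τ v₁).1, (τ v₂).1, ?_, ?_, ?_⟩
  · rw [← hτ v₁ v₁, ext_h, e1, zero_mul, zero_mul, add_zero]
  · rw [← hτ v₂ v₂, ext_h, e2, zero_mul, zero_mul, add_zero]
  · rw [← hτ v₁ v₂, ext_h, e1, zero_mul, zero_mul, add_zero]

/-- The plane `U_y`. -/
theorem plane_y (H : AForm D V) (h2 : (2 : D) ≠ 0) {z z₂ r w c : D} {x y : V}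
    (hnd : ND z z₂ r) (hw : w + star w ≠ 0) (hx : H.h x x = z + star z)
    (hy : H.h y y = w + star w) (hxy : H.h x y = 0) (ht : z + w ≠ 0) (hc : c ≠ 0)
    (hcb : mm z z₂ r + star w * (w + star w)⁻¹ * w = c * b₀ z z₂ r * star c) :
    ∃ a₁ a₂ : V, H.h a₁ a₁ = w * (z + w)⁻¹ * z + star (w * (z + w)⁻¹ * z) ∧
      H.h a₂ a₂ = z₂ + star z₂ ∧ H.h a₁ a₂ = w * (z + w)⁻¹ * ee' z z₂ r := by
  obtain ⟨l, hl⟩ : ∃ l, l = z + star z := ⟨_, rfl⟩
  obtain ⟨q, hq⟩ : ∃ q, q = w + star w := ⟨_, rfl⟩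
  obtain ⟨L, hL⟩ : ∃ L, L = z₂ + star z₂ := ⟨_, rfl⟩
  obtain ⟨e, he⟩ : ∃ e, e = ee' z z₂ r := ⟨_, rfl⟩
  obtain ⟨β, hβ⟩ : ∃ β, β = b₂ z z₂ r := ⟨_, rfl⟩
  obtain ⟨b, hbd⟩ : ∃ b, b = b₀ z z₂ r := ⟨_, rfl⟩
  have hb : star b = b := by rw [hbd, star_b₀]
  have hb0 : b ≠ 0 := by rw [hbd]; exact hnd.2.2.2.2.2
  have hl0 : l ≠ 0 := by rw [hl]; exact hnd.1
  have hL0 : L ≠ 0 := by rw [hL]; exact hnd.2.2.1
  have hβ0 : β ≠ 0 := by rw [hβ]; exact hnd.b₂0
  have hβs : star β = β := by rw [hβ, star_b₂]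
  have hls : star l = l := by rw [hl, star_re]
  have hqs : star q = q := by rw [hq, star_re]
  have hLs : star L = L := by rw [hL, star_re]
  have hbe : b + star e * l⁻¹ * e = L := by
    rw [hbd, b₀_eq hnd.1, ← he, ← hl, ← hL, sub_add_cancel]
  have hβe : β = l - e * L⁻¹ * star e := by rw [hβ, b₂, ← he, ← hl, ← hL]
  have hyx : H.h y x = 0 := H.orth_symm hxy
  rw [← hq] at hw hy hcb
  rw [← hl] at hx
  rw [← he, ← hL]
  rw [← hbd, mm, ← hβ] at hcb
  -- the vectors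
  obtain ⟨X₂, hX₂⟩ : ∃ X₂ : V × D, X₂ = ((star e * l⁻¹) • x, 1) := ⟨_, rfl⟩
  obtain ⟨Y₂, hY₂⟩ : ∃ Y₂ : V × D,
    Y₂ = ((w * (z + w)⁻¹) • x - (z * (z + w)⁻¹) • y, 0) := ⟨_, rfl⟩
  obtain ⟨Y, hY⟩ : ∃ Y : V × D, Y =
    (star z * β⁻¹) • (((x, 0) : V × D) - (e * L⁻¹) • X₂) +
      (star w * q⁻¹) • ((y, 0) : V × D) := ⟨_, rfl⟩
  obtain ⟨B, hB⟩ : ∃ B, B = ext H b hb := ⟨_, rfl⟩
  have hxx : B.h (x, 0) (x, 0) = l := by rw [hB, ext_h, hx]; simp
  have hyy : B.h (y, 0) (y, 0) = q := by rw [hB, ext_h, hy]; simp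
  have hxy' : B.h (x, 0) (y, 0) = 0 := by rw [hB, ext_h, hxy]; simp
  have hyx' : B.h (y, 0) (x, 0) = 0 := by rw [hB, ext_h, hyx]; simp
  have hxX : B.h (x, 0) X₂ = e := by
    rw [hB, ext_h, hX₂, H.smul_right, hx, star_mul, star_star, star_inv₀, hls,
      mul_inv_cancel_left₀ hl0]
    simp
  have hXx : B.h X₂ (x, 0) = star e := by rw [← B.star_h, hxX]
  have hyX : B.h (y, 0) X₂ = 0 := by
    rw [hB, ext_h, hX₂, H.smul_right, hyx]
    simp
  have hXy : B.h X₂ (y, 0) = 0 := by rw [← B.star_h, hyX, star_zero]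
  have hXX : B.h X₂ X₂ = L := by
    rw [hB, ext_h, hX₂, H.smul_right, H.smul_left, hx, star_mul, star_star, star_inv₀, hls]
    simp only [one_mul, star_one, mul_one]
    rw [← hbe, mul_assoc, mul_assoc, mul_inv_cancel_left₀ hl0, mul_assoc, add_comm]
  have hY₂' : Y₂ = (w * (z + w)⁻¹) • ((x, 0) : V × D) - (z * (z + w)⁻¹) • ((y, 0) : V × D) := by
    rw [hY₂]
    ext
    · simp
    · simp
  have key : w * (z + w)⁻¹ * z = z * (z + w)⁻¹ * w := by
    have h3 : w = (z + w) - z := by abel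
    have h4 : w * (z + w)⁻¹ * z = z - z * (z + w)⁻¹ * z := by
      nth_rewrite 1 [h3]
      rw [sub_mul, mul_inv_cancel₀ ht, sub_mul, one_mul]
    have h5 : z * (z + w)⁻¹ * w = z - z * (z + w)⁻¹ * z := by
      nth_rewrite 2 [h3]
      rw [mul_sub, inv_mul_cancel_right₀ ht]
    rw [h4, h5]
  -- `W(·, y)`
  have hxY : B.h (x, 0) Y = z := by
    rw [hY, B.add_right, B.smul_right, B.smul_right, B.sub_right, B.smul_right, hxx, hxX, hxy',
      zero_mul, add_zero, star_mul, star_mul, star_star, star_inv₀, star_inv₀, hβs, hLs,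
      ← mul_assoc e, ← hβe, mul_inv_cancel_left₀ hβ0]
  have hyY : B.h (y, 0) Y = w := by
    rw [hY, B.add_right, B.smul_right, B.smul_right, B.sub_right, B.smul_right, hyx', hyX, hyy,
      zero_mul, sub_zero, zero_mul, zero_add, star_mul, star_star, star_inv₀, hqs,
      mul_inv_cancel_left₀ hw]
  have hXY : B.h X₂ Y = 0 := by
    rw [hY, B.add_right, B.smul_right, B.smul_right, B.sub_right, B.smul_right, hXx, hXX, hXy,
      zero_mul, add_zero, star_mul, star_inv₀, hLs, mul_inv_cancel_left₀ hL0, sub_self, zero_mul]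
  have hYY : B.h Y Y = c * b * star c := by
    rw [← hcb]
    nth_rewrite 1 [hY]
    rw [B.add_left, B.smul_left, B.smul_left, B.sub_left, B.smul_left, hxY, hyY, hXY, mul_zero,
      sub_zero]
  have hY₂Y : B.h Y₂ Y = 0 := by
    rw [hY₂', B.sub_left, B.smul_left, B.smul_left, hxY, hyY, key, sub_self]
  -- the values
  have hts : star z + star w ≠ 0 := by
    rw [← star_add]; exact star_ne_zero.mpr ht
  have hY₂X : B.h Y₂ X₂ = w * (z + w)⁻¹ * e := by
    rw [hY₂', B.sub_left, B.smul_left, B.smul_left, hxX, hyX, mul_zero, sub_zero]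
  have hYY₂ : B.h Y₂ Y₂ = w * (z + w)⁻¹ * z + star (w * (z + w)⁻¹ * z) := by
    rw [hY₂', B.sub_left, B.sub_right, B.sub_right]
    simp only [B.smul_left, B.smul_right, hxx, hxy', hyx', hyy, zero_mul, mul_zero, sub_zero,
      zero_sub, sub_neg_eq_add]
    obtain ⟨t, htd⟩ : ∃ t, t = z + w := ⟨_, rfl⟩
    obtain ⟨u, hu⟩ : ∃ u, u = t⁻¹ := ⟨_, rfl⟩
    obtain ⟨u', hu'⟩ : ∃ u', u' = star u := ⟨_, rfl⟩
    have f1 : u * t = 1 := by rw [hu, inv_mul_cancel₀ (by rw [htd]; exact ht)]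
    have f2 : t * u = 1 := by rw [hu, mul_inv_cancel₀ (by rw [htd]; exact ht)]
    have f3 : star t * u' = 1 := by rw [hu', ← star_mul, f1, star_one]
    have f4 : u' * star t = 1 := by rw [hu', ← star_mul, f2, star_one]
    rw [← htd, ← hu]
    have key' : w * u * z = z * u * w := by rw [hu, htd]; exact key
    have key2 : star z * u' * star w = star w * u' * star z := by
      have := congrArg star key'
      simpa only [star_mul, ← hu', ← mul_assoc] using this
    simp only [star_mul, ← hu']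
    have hz : z = t - w := by rw [htd]; abel
    have hzs : star z = star t - star w := by rw [hz, star_sub]
    calc w * u * (l * (u' * star w)) + z * u * (q * (u' * star z))
        = w * u * z * u' * star w + w * u * (star z * u' * star w) + z * u * w * (u' * star z)
          + z * u * (star w * u' * star z) := by rw [hl, hq]; noncomm_ring
      _ = w * u * z * (u' * (star w + star z)) + (w + z) * u * (star w * u' * star z) := by
          rw [key2, ← key']; noncomm_ring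
      _ = w * u * z * (u' * star t) + t * u * (star w * u' * star z) := by
          rw [htd, star_add, add_comm (star w), add_comm w z]
      _ = w * u * z + star z * (u' * star w) := by
          rw [f4, f2, mul_one, one_mul, ← key2]
          simp only [mul_assoc]
  obtain ⟨a₁, a₂, h₁, h₂, h₃⟩ := exists_iso H h2 hb hb0 hc (u := Y) (v₁ := Y₂) (v₂ := X₂)
    (by rw [← hB]; exact hYY) (by rw [← hB]; exact hY₂Y) (by rw [← hB]; exact hXY)
  rw [← hB] at h₁ h₂ h₃
  exact ⟨a₁, a₂, by rw [h₁, hYY₂], by rw [h₂, hXX], by rw [h₃, hY₂X]⟩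

end plane

/-! ### The path -/

section path

variable {D V A : Type} [DivisionRing D] [StarRing D] [AddCommGroup V] [Module D V]
  [CommGroup A] {H : AForm D V} {χ : H.isom →* A}

/-- **The path lemma.** -/
theorem path (h20 : (2 : D) ≠ 0) {z z₂ r w g c : D} {x y x' y' : V}
    (hnd : ND z z₂ r) (hw : w + star w ≠ 0)
    (hx : H.h x x = z + star z) (hy : H.h y y = w + star w) (hxy : H.h x y = 0)
    (hx' : H.h x' x' = z * r + star (z * r)) (hy' : H.h y' y' = bb z z₂ r + (w + star w))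
    (hxy' : H.h x' y' = 0)
    (_hg : g ≠ 0) (hgz : star r * z₂ + star (star r * z₂) = g * (z + star z) * star g)
    (hc : c ≠ 0)
    (hcb : mm z z₂ r + star w * (w + star w)⁻¹ * w = c * b₀ z z₂ r * star c) :
    psi H χ z * psi H χ z₂ = psi H χ (z * r) * psi H χ (star r * z₂) := by
  have hz0 : z ≠ 0 := hnd.z0
  have hr0 : r ≠ 0 := hnd.r0
  have hzr0 : z * r ≠ 0 := hnd.zr0
  have hz₂0 : z₂ ≠ 0 := hnd.z₂0
  have hw0 : w ≠ 0 := fun h => hw (by rw [h, star_zero, add_zero])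
  have hyx : H.h y x = 0 := H.orth_symm hxy
  have hyx' : H.h y' x' = 0 := H.orth_symm hxy'
  have hrs : star r ≠ 0 := star_ne_zero.mpr hr0
  -- `t = z + w`
  obtain ⟨t, ht⟩ : ∃ t, t = z + w := ⟨_, rfl⟩
  have hts : t + star t = H.h (x + y) (x + y) := by
    rw [H.add_left, H.add_right, H.add_right, hx, hy, hxy, hyx, ht, star_add]
    abel
  have ht0 : t ≠ 0 := by
    intro h0
    rw [h0, star_zero, add_zero] at hts
    have h1 := H.anis hts.symm
    have h2 : H.h x (x + y) = 0 := by rw [h1, H.zero_right]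
    rw [H.add_right, hxy, add_zero, hx] at h2
    exact hnd.1 h2
  -- the first move
  have m1 : psi H χ z * psi H χ w = psi H χ t * psi H χ (w * t⁻¹ * z) :=
    psi_block hx.symm hy.symm (by rw [hxy, ht]; abel) hz0 hw0 ht0
  have key : w * t⁻¹ * z = z * t⁻¹ * w := by
    have h3 : w = t - z := by rw [ht]; abel
    have h4 : w * t⁻¹ * z = z - z * t⁻¹ * z := by
      nth_rewrite 1 [h3]
      rw [sub_mul, mul_inv_cancel₀ ht0, sub_mul, one_mul]
    have h5 : z * t⁻¹ * w = z - z * t⁻¹ * z := by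
      nth_rewrite 1 [h3]
      rw [mul_sub, inv_mul_cancel_right₀ ht0]
    rw [h4, h5]
  -- `p` and `s`
  obtain ⟨p, hp⟩ : ∃ p, p = z₂ * r⁻¹ := ⟨_, rfl⟩
  have hp0 : p ≠ 0 := by rw [hp]; exact mul_ne_zero hz₂0 (inv_ne_zero hr0)
  have hpr : p * r = z₂ := by rw [hp, inv_mul_cancel_right₀ hr0]
  have hrp : star r * p * r = star r * z₂ := by rw [mul_assoc, hpr]
  obtain ⟨g', hg'⟩ : ∃ g', g' = (star r)⁻¹ * g := ⟨_, rfl⟩
  have hpp : p + star p = H.h (g' • x) (g' • x) := by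
    have h1 : star r * (p + star p) * r = g * (z + star z) * star g := by
      rw [← hgz, mul_add, add_mul, hrp, star_mul, star_star]
      congr 1
      rw [mul_assoc, ← hpr, star_mul, mul_assoc]
    have h2 : p + star p = (star r)⁻¹ * (star r * (p + star p) * r) * r⁻¹ := by
      rw [mul_assoc (star r), inv_mul_cancel_left₀ hrs, mul_inv_cancel_right₀ hr0]
    rw [h2, h1, H.smul_left, H.smul_right, hx, hg', star_mul, star_inv₀, star_star]
    simp only [mul_assoc]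
  have hgy : H.h (g' • x) y = 0 := by rw [H.smul_left, hxy, mul_zero]
  have hyg : H.h y (g' • x) = 0 := H.orth_symm hgy
  obtain ⟨s, hs⟩ : ∃ s, s = p + w := ⟨_, rfl⟩
  have hss : s + star s = H.h (g' • x + y) (g' • x + y) := by
    rw [H.add_left, H.add_right, H.add_right, ← hpp, hy, hgy, hyg, hs, star_add]
    abel
  have hs0 : s ≠ 0 := by
    intro h0
    rw [h0, star_zero, add_zero] at hss
    have h1 := H.anis hss.symm
    have h2 : H.h y (g' • x + y) = 0 := by rw [h1, H.zero_right]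
    rw [H.add_right, hyg, zero_add, hy] at h2
    exact hw h2
  -- the fourth move
  have m4 : psi H χ p * psi H χ w = psi H χ s * psi H χ (w * s⁻¹ * p) :=
    psi_block hpp hy.symm (by rw [hgy, hs]; abel) hp0 hw0 hs0
  have key4 : w * s⁻¹ * p = p * s⁻¹ * w := by
    have h3 : w = s - p := by rw [hs]; abel
    have h4 : w * s⁻¹ * p = p - p * s⁻¹ * p := by
      nth_rewrite 1 [h3]
      rw [sub_mul, mul_inv_cancel₀ hs0, sub_mul, one_mul]
    have h5 : p * s⁻¹ * w = p - p * s⁻¹ * p := by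
      nth_rewrite 1 [h3]
      rw [mul_sub, inv_mul_cancel_right₀ hs0]
    rw [h4, h5]
  -- the second move
  obtain ⟨a₁, a₂, ha₁, ha₂, ha₃⟩ := plane_y H h20 hnd hw hx hy hxy (by rw [← ht]; exact ht0) hc hcb
  rw [← ht] at ha₁ ha₃
  obtain ⟨t₂, ht₂⟩ : ∃ t₂, t₂ = z * t⁻¹ * s * r := ⟨_, rfl⟩
  have ht₂0 : t₂ ≠ 0 := by
    rw [ht₂]
    exact mul_ne_zero (mul_ne_zero (mul_ne_zero hz0 (inv_ne_zero ht0)) hs0) hr0
  have ht₂' : t₂ = w * t⁻¹ * z + w * t⁻¹ * ee' z z₂ r + z₂ := by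
    have h1 : w * t⁻¹ * z + w * t⁻¹ * ee' z z₂ r + z₂ =
        (w * t⁻¹ * z) * r + (1 - w * t⁻¹) * z₂ := by
      rw [ee']; noncomm_ring
    have h2 : (1 : D) - w * t⁻¹ = z * t⁻¹ := by
      have h3 : (1 : D) = t * t⁻¹ := (mul_inv_cancel₀ ht0).symm
      rw [h3]
      nth_rewrite 1 [ht]
      rw [add_mul]
      abel
    rw [h1, h2, key, ht₂, hs, ← hpr]
    noncomm_ring
  have m2 : psi H χ (w * t⁻¹ * z) * psi H χ z₂ = psi H χ t₂ * psi H χ (z₂ * t₂⁻¹ * (w * t⁻¹ * z)) :=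
    psi_block ha₁.symm ha₂.symm (by rw [ha₃]; exact ht₂')
      (mul_ne_zero (mul_ne_zero hw0 (inv_ne_zero ht0)) hz0) hz₂0 ht₂0
  have e2 : z₂ * t₂⁻¹ * (w * t⁻¹ * z) = p * s⁻¹ * w := by
    rw [key, ht₂, mul_inv_rev, mul_inv_rev, mul_inv_rev, inv_inv, ← hpr]
    calc p * r * (r⁻¹ * (s⁻¹ * (t * z⁻¹))) * (z * t⁻¹ * w)
        = p * (r * r⁻¹) * s⁻¹ * (t * (z⁻¹ * z) * t⁻¹) * w := by simp only [mul_assoc]
      _ = _ := by rw [mul_inv_cancel₀ hr0, inv_mul_cancel₀ hz0, mul_one, mul_one,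
                    mul_inv_cancel₀ ht0, mul_one]
  -- the third move
  obtain ⟨Y, hY⟩ : ∃ Y : V, Y = y' + (ee z z₂ r * (z * r + star (z * r))⁻¹) • x' := ⟨_, rfl⟩
  obtain ⟨l₁, hl₁⟩ : ∃ l₁, l₁ = z * r + star (z * r) := ⟨_, rfl⟩
  have hl₁0 : l₁ ≠ 0 := by rw [hl₁]; exact hnd.2.1
  have hl₁s : star l₁ = l₁ := by rw [hl₁, star_re]
  have hYx : H.h Y x' = ee z z₂ r := by
    rw [hY, H.add_left, hyx', zero_add, H.smul_left, hx', inv_mul_cancel_right₀ hnd.2.1]
  have hxY : H.h x' Y = star (ee z z₂ r) := by rw [← H.star_h, hYx]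
  have hYY : H.h Y Y = t + star t := by
    nth_rewrite 2 [hY]
    rw [H.add_right, H.smul_right, hYx]
    have h1 : H.h Y y' = bb z z₂ r + (w + star w) := by
      rw [hY, H.add_left, H.smul_left, hxy', mul_zero, add_zero, hy']
    rw [h1, bb, ← hl₁, star_mul, star_inv₀, hl₁s, ht, star_add, ← mul_assoc]
    abel
  obtain ⟨u, hu⟩ : ∃ u, u = z * t⁻¹ := ⟨_, rfl⟩
  have hut : u * t = z := by rw [hu, inv_mul_cancel_right₀ ht0]
  have hus : star u = (star t)⁻¹ * star z := by rw [hu, star_mul, star_inv₀]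
  have hts0 : star t ≠ 0 := star_ne_zero.mpr ht0
  have htu : star t * star u = star z := by rw [← star_mul, hut]
  -- the vectors
  have hy₁ : z * star u + star (z * star u) = H.h (u • Y) (u • Y) := by
    rw [H.smul_left, H.smul_right, hYY, add_mul, mul_add, ← mul_assoc, hut, star_mul, star_star,
      htu]
  have hsu : t₂ = u * s * r := by rw [ht₂, hu]
  have hyy₁ : H.h (u • Y) (x' - u • Y) = z * r - z * star u - t₂ := by
    rw [H.sub_right, ← hy₁, H.smul_left, hYx, star_mul, star_star, hsu]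
    have h1 : u * ee z z₂ r - u * star z = u * (z * r) - u * z₂ := by
      rw [ee]; noncomm_ring
    have h2 : z * r = u * (z * r) + u * w * r := by
      have h3 : z = u * z + u * w := by rw [← mul_add, ← ht, hut]
      nth_rewrite 1 [h3]
      noncomm_ring
    calc u * ee z z₂ r - (z * star u + u * star z)
        = (u * ee z z₂ r - u * star z) - z * star u := by abel
      _ = u * (z * r) - u * z₂ - z * star u := by rw [h1]
      _ = (u * (z * r) + u * w * r) - z * star u - u * (p + w) * r := by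
          rw [← hpr]; noncomm_ring
      _ = _ := by rw [← h2, hs]
  have hyy₂ : t₂ + star t₂ = H.h (x' - u • Y) (x' - u • Y) := by
    have h1 : H.h (x' - u • Y) (u • Y) = star (z * r - z * star u - t₂) := by
      rw [← hyy₁, H.star_h]
    have h2 : H.h x' (x' - u • Y) = z * r + star (z * r) - H.h x' (u • Y) := by
      rw [H.sub_right, hx']
    have h3 : H.h x' (u • Y) = H.h (x' - u • Y) (u • Y) + H.h (u • Y) (u • Y) := by
      rw [H.sub_left]; abel
    have h4 : H.h (x' - u • Y) (x' - u • Y) = H.h x' (x' - u • Y) - H.h (u • Y) (x' - u • Y) :=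
      H.sub_left _ _ _
    rw [h4, h2, h3, h1, hyy₁, ← hy₁]
    simp only [star_sub]
    abel
  have m3 : psi H χ (z * star u) * psi H χ t₂ =
      psi H χ (z * r) * psi H χ (t₂ * (z * r)⁻¹ * (z * star u)) :=
    psi_block hy₁ hyy₂ (by rw [hyy₁]; abel)
      (mul_ne_zero hz0 (star_ne_zero.mpr (by rw [hu]; exact mul_ne_zero hz0 (inv_ne_zero ht0))))
      ht₂0 hzr0
  have hu0 : u ≠ 0 := by rw [hu]; exact mul_ne_zero hz0 (inv_ne_zero ht0)
  have e3 : z * star u = u * t * star u := by rw [hut]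
  have e4 : t₂ * (z * r)⁻¹ * (z * star u) = u * s * star u := by
    rw [hsu, mul_inv_rev]
    calc u * s * r * (r⁻¹ * z⁻¹) * (z * star u)
        = u * s * (r * r⁻¹) * (z⁻¹ * z) * star u := by simp only [mul_assoc]
      _ = _ := by rw [mul_inv_cancel₀ hr0, inv_mul_cancel₀ hz0, mul_one, mul_one]
  rw [e4, e3, psi_conj hu0 hts, psi_conj hu0 hss] at m3
  rw [e2, ← key4] at m2
  -- `psi p = psi (star r * z₂)`
  have e5 : psi H χ (star r * z₂) = psi H χ p := by
    have h1 := psi_conj (χ := χ) hrs hpp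
    rw [star_star, hrp] at h1
    exact h1
  rw [e5]
  -- conclusion
  have h6 : psi H χ z * psi H χ z₂ * psi H χ w = psi H χ (z * r) * psi H χ p * psi H χ w := by
    calc psi H χ z * psi H χ z₂ * psi H χ w
        = (psi H χ z * psi H χ w) * psi H χ z₂ := by rw [mul_assoc, mul_comm (psi H χ z₂), mul_assoc]
      _ = psi H χ t * (psi H χ (w * t⁻¹ * z) * psi H χ z₂) := by rw [m1, mul_assoc]
      _ = (psi H χ t * psi H χ t₂) * psi H χ (w * s⁻¹ * p) := by
          rw [m2, ← mul_assoc (psi H χ t)]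
      _ = psi H χ (z * r) * (psi H χ s * psi H χ (w * s⁻¹ * p)) := by rw [m3, mul_assoc]
      _ = _ := by rw [← m4, mul_assoc]
  exact mul_right_cancel h6

end path

end Vale.Agent.P011.Two2
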