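import Vale.Agent.P011.Three.Sig
import Vale.Agent.P011.Even.RealSide

/-!
Cancellation of signatures at a real place.
-/

open Module Matrix
open scoped ComplexOrder

set_option linter.unusedSectionVars false
set_option linter.unusedVariables false

namespace Vale.Agent.P011.Two2

open Vale.Agent.P011S Vale.Agent.P011.RP Vale.Agent.P011.Three Vale.Agent.P011.Even

section mat

variable {ι : Type} [Fintype ι] [DecidableEq ι]

/-- The number of positive directions does not depend on the basis. -/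
theorem sylvester_le {G T T' : Matrix ι ι ℂ} (hT : IsUnit T) {η η' : ι → ℤˣ}
    (h : T * G * Tᴴ = Matrix.diagonal fun i => ((((η i : ℤˣ) : ℤ) : ℝ) : ℂ))
    (h' : T' * G * T'ᴴ = Matrix.diagonal fun i => ((((η' i : ℤˣ) : ℤ) : ℝ) : ℂ)) :
    Fintype.card {i // η' i = 1} ≤ Fintype.card {i // η i = 1} := by
  classical
  have h1 : ((T'.submatrix (Subtype.val : {i // η' i = 1} → ι) id) * G *
      (T'.submatrix (Subtype.val : {i // η' i = 1} → ι) id)ᴴ).PosDef := by
    have h2 : (T'.submatrix (Subtype.val : {i // η' i = 1} → ι) id) * G *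
        (T'.submatrix (Subtype.val : {i // η' i = 1} → ι) id)ᴴ =
        (T' * G * T'ᴴ).submatrix Subtype.val Subtype.val := by
      ext a b
      simp [Matrix.mul_apply, Matrix.submatrix_apply]
    have h3 : (T' * G * T'ᴴ).submatrix (Subtype.val : {i // η' i = 1} → ι) Subtype.val =
        Matrix.diagonal fun _ => (1 : ℂ) := by
      rw [h']
      ext a b
      rw [Matrix.submatrix_apply, Matrix.diagonal_apply, Matrix.diagonal_apply]
      by_cases hab : a = b
      · subst hab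
        rw [if_pos rfl, if_pos rfl, a.2]
        simp
      · rw [if_neg hab, if_neg fun h => hab (Subtype.ext h)]
    rw [h2, h3]
    exact Matrix.PosDef.diagonal fun _ => by simp
  have h4 := count_le hT h h1
  have h5 : Fintype.card {i // ((((η i : ℤˣ) : ℤ) : ℝ)) ≤ 0} =
      Fintype.card {i // ¬ η i = 1} := by
    apply Fintype.card_congr
    refine Equiv.subtypeEquivRight fun i => ?_
    rcases Int.units_eq_one_or (η i) with h6 | h6
    · rw [h6]; simp
    · rw [h6]
      constructor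
      · intro _ h7
        exact absurd h7 (by decide)
      · intro _
        simp
  rw [h5, Fintype.card_subtype_compl] at h4
  have h6 := Fintype.card_subtype_le fun i => η i = 1
  omega

/-- Families of signs with the same number of positive signs. -/
theorem exists_perm {η η' : ι → ℤˣ}
    (h : Fintype.card {i // η' i = 1} = Fintype.card {i // η i = 1}) :
    ∃ σ : Equiv.Perm ι, ∀ i, η (σ i) = η' i := by
  classical
  have e1 : {i // η' i = 1} ≃ {i // η i = 1} := Fintype.equivOfCardEq h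
  have h2 : Fintype.card {i // ¬ η' i = 1} = Fintype.card {i // ¬ η i = 1} := by
    rw [Fintype.card_subtype_compl, Fintype.card_subtype_compl, h]
  have e2 : {i // ¬ η' i = 1} ≃ {i // ¬ η i = 1} := Fintype.equivOfCardEq h2
  refine ⟨Equiv.subtypeCongr e1 e2, fun i => ?_⟩
  by_cases hi : η' i = 1
  · rw [hi]
    have : (Equiv.subtypeCongr e1 e2) i = e1 ⟨i, hi⟩ := by
      simp [Equiv.subtypeCongr, Equiv.sumCompl, hi]
    rw [this]
    exact (e1 ⟨i, hi⟩).2
  · have : (Equiv.subtypeCongr e1 e2) i = e2 ⟨i, hi⟩ := by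
      simp [Equiv.subtypeCongr, Equiv.sumCompl, hi]
    rw [this, (Int.units_eq_one_or _).resolve_left hi,
      (Int.units_eq_one_or _).resolve_left (e2 ⟨i, hi⟩).2]

/-- Congruent diagonal matrices of signs. -/
theorem perm_cong {η η' : ι → ℤˣ} {σ : Equiv.Perm ι} (h : ∀ i, η (σ i) = η' i) :
    ∃ Q : Matrix ι ι ℂ, IsUnit Q ∧
      Q * (Matrix.diagonal fun i => ((((η i : ℤˣ) : ℤ) : ℝ) : ℂ)) * Qᴴ =
        Matrix.diagonal fun i => ((((η' i : ℤˣ) : ℤ) : ℝ) : ℂ) := by
  classical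
  refine ⟨(1 : Matrix ι ι ℂ).submatrix σ id, ?_, ?_⟩
  · refine ⟨⟨(1 : Matrix ι ι ℂ).submatrix σ id, (1 : Matrix ι ι ℂ).submatrix id σ, ?_, ?_⟩, rfl⟩
    · rw [← Matrix.submatrix_mul _ _ _ _ _ Function.bijective_id, one_mul]
      ext a b
      simp [Matrix.one_apply]
    · rw [← Matrix.submatrix_mul _ _ _ _ _ σ.bijective, one_mul]
      ext a b
      simp [Matrix.one_apply]
  · rw [Matrix.conjTranspose_submatrix, Matrix.conjTranspose_one]
    have e1 : (1 : Matrix ι ι ℂ).submatrix σ id *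
        (Matrix.diagonal fun i => ((((η i : ℤˣ) : ℤ) : ℝ) : ℂ)) *
        (1 : Matrix ι ι ℂ).submatrix id σ =
        (Matrix.diagonal fun i => ((((η i : ℤˣ) : ℤ) : ℝ) : ℂ)).submatrix σ σ := by
      ext a b
      simp only [Matrix.mul_apply, Matrix.submatrix_apply, Matrix.one_apply,
        Matrix.diagonal_apply, id_eq, ite_mul, one_mul, zero_mul, mul_ite, mul_one, mul_zero,
        Finset.mem_univ, if_true, Finset.sum_ite_eq']
      by_cases hab : σ a = σ b
      · rw [if_pos hab, if_pos hab, hab]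
      · rw [if_neg hab, if_neg hab]
    rw [e1]
    ext a b
    rw [Matrix.submatrix_apply, Matrix.diagonal_apply, Matrix.diagonal_apply]
    by_cases hab : a = b
    · subst hab
      rw [if_pos rfl, if_pos rfl, h]
    · rw [if_neg hab, if_neg fun h => hab (σ.injective h)]

end mat

section sig

variable {K D : Type} [Field K] [NumberField K] [StarRing K] [DivisionRing D] [StarRing D]
  [Algebra K D] [StarModule K D] [FiniteDimensional K D] [Algebra.IsCentral K D] {n : ℕ}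

/-- Diagonalisation of a plane at the real place. -/
theorem diag_two (R : RData K D n) (H : Matrix (Fin 2) (Fin 2) D) {v : Fin 2 → Fin 2 → D}
    (hv : ∀ a b, a ≠ b → rowH H (v a) (v b) = 0) {S : Fin 2 → Matrix (Fin n) (Fin n) ℂ}
    {η : Fin 2 → Fin n → ℤˣ}
    (hS : ∀ a, S a * (R.f (rowH H (v a) (v a)) * R.A) * (S a)ᴴ =
      Matrix.diagonal fun i => ((((η a i : ℤˣ) : ℤ) : ℝ) : ℂ)) :
    ∃ T : Matrix (Fin 2 × Fin n) (Fin 2 × Fin n) ℂ, IsUnit T ∧ T * R.Gam H * Tᴴ =
      Matrix.diagonal fun y => ((((η y.1 y.2 : ℤˣ) : ℤ) : ℝ) : ℂ) := by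
  classical
  obtain ⟨T, hT⟩ : ∃ T : Matrix (Fin 2 × Fin n) (Fin 2 × Fin n) ℂ,
      T = Matrix.of fun y j => (S y.1 * U1 R (v y.1)) y.2 j := ⟨_, rfl⟩
  have h1 : T * R.Gam H * Tᴴ = Matrix.diagonal fun y => ((((η y.1 y.2 : ℤˣ) : ℤ) : ℝ) : ℂ) := by
    ext ⟨a, p⟩ ⟨b, q⟩
    have h2 : (T * R.Gam H * Tᴴ) (a, p) (b, q) =
        ((S a * U1 R (v a)) * R.Gam H * (S b * U1 R (v b))ᴴ) p q := by
      rw [hT]
      rfl
    have h3 : (S a * U1 R (v a)) * R.Gam H * (S b * U1 R (v b))ᴴ =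
        S a * (R.f (rowH H (v a) (v b)) * R.A) * (S b)ᴴ := by
      rw [← U1_gram, Matrix.conjTranspose_mul]
      simp only [Matrix.mul_assoc]
    rw [h2, h3, Matrix.diagonal_apply]
    by_cases hab : a = b
    · subst hab
      rw [hS, Matrix.diagonal_apply]
      simp [Prod.ext_iff]
    · rw [hv a b hab, map_zero, zero_mul, Matrix.mul_zero, Matrix.zero_mul, if_neg]
      · rfl
      · intro h
        exact hab (Prod.ext_iff.mp h).1
  refine ⟨T, ?_, h1⟩
  rw [Matrix.isUnit_iff_isUnit_det, isUnit_iff_ne_zero]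
  intro h2
  have h3 := congrArg Matrix.det h1
  rw [Matrix.det_mul, Matrix.det_mul, h2, zero_mul, zero_mul, Matrix.det_diagonal] at h3
  have h4 : ∏ y : Fin 2 × Fin n, ((((η y.1 y.2 : ℤˣ) : ℤ) : ℝ) : ℂ) ≠ 0 :=
    Finset.prod_ne_zero_iff.mpr fun y _ => by
      rcases Int.units_eq_one_or (η y.1 y.2) with h6 | h6 <;> rw [h6] <;> simp
  exact h4 h3.symm

/-- Cancellation at a real place. -/
theorem congAt_cancel (hn : 0 < n) (hdeg : finrank K D = n ^ 2) (R : RData K D n)
    {H : Matrix (Fin 2) (Fin 2) D} (hH : IsAnisotropicForm H) {x y x' y' : Fin 2 → D}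
    (hx : x ≠ 0) (hy : y ≠ 0) (hx' : x' ≠ 0) (hy' : y' ≠ 0) (h : rowH H x y = 0)
    (h' : rowH H x' y' = 0) (hc : R.CongAt (rowH H x x) (rowH H x' x')) :
    R.CongAt (rowH H y y) (rowH H y' y') := by
  classical
  have han : ∀ w : Fin 2 → D, w ≠ 0 → rowH H w w ≠ 0 := by
    intro w hw h0
    apply hw
    have h1 := hH.2 (star w) (by rw [col_row, star_star]; exact h0)
    rw [← star_star w, h1, star_zero]
  have hst : ∀ u w : Fin 2 → D, star (rowH H u w) = rowH H w u := fun u w =>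
    (rowF H hH.1).star_h u w
  have hsd : ∀ w : Fin 2 → D, w ≠ 0 → ∃ (S : Matrix (Fin n) (Fin n) ℂ) (η : Fin n → ℤˣ),
      IsUnit S ∧ S * (R.f (rowH H w w) * R.A) * Sᴴ =
        Matrix.diagonal fun i => ((((η i : ℤˣ) : ℤ) : ℝ) : ℂ) := by
    intro w hw
    refine exists_sign_diag (R.isHermitian (hst w w)) ?_
    exact (f_unit R (han w hw)).mul R.unit
  obtain ⟨S₁, η₁, hS₁, hd₁⟩ := hsd x hx
  obtain ⟨S₂, η₂, hS₂, hd₂⟩ := hsd y hy
  obtain ⟨S₃, η₃, hS₃, hd₃⟩ := hsd y' hy'
  obtain ⟨Q, hQ, hQe⟩ := cong_symm hc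
  obtain ⟨T, hT, hTe⟩ := diag_two R H (v := ![x, y]) (S := ![S₁, S₂]) (η := ![η₁, η₂])
    (by
      intro a b hab
      fin_cases a <;> fin_cases b
      · exact absurd rfl hab
      · exact h
      · show rowH H y x = 0
        rw [← hst, h, star_zero]
      · exact absurd rfl hab)
    (by
      intro a
      fin_cases a
      · exact hd₁
      · exact hd₂)
  obtain ⟨T', hT', hTe'⟩ := diag_two R H (v := ![x', y']) (S := ![S₁ * Q, S₃])
    (η := ![η₁, η₃])
    (by
      intro a b hab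
      fin_cases a <;> fin_cases b
      · exact absurd rfl hab
      · exact h'
      · show rowH H y' x' = 0
        rw [← hst, h', star_zero]
      · exact absurd rfl hab)
    (by
      intro a
      fin_cases a
      · show S₁ * Q * (R.f (rowH H x' x') * R.A) * (S₁ * Q)ᴴ =
          Matrix.diagonal fun i => ((((η₁ i : ℤˣ) : ℤ) : ℝ) : ℂ)
        rw [← hd₁, ← hQe, Matrix.conjTranspose_mul]
        simp only [Matrix.mul_assoc]
      · exact hd₃)
  have h1 := sylvester_le (η := fun y : Fin 2 × Fin n => ![η₁, η₂] y.1 y.2)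
    (η' := fun y : Fin 2 × Fin n => ![η₁, η₃] y.1 y.2) hT hTe hTe'
  have h2 := sylvester_le (η' := fun y : Fin 2 × Fin n => ![η₁, η₂] y.1 y.2)
    (η := fun y : Fin 2 × Fin n => ![η₁, η₃] y.1 y.2) hT' hTe' hTe
  have hcard : ∀ ζ ζ' : Fin n → ℤˣ,
      Fintype.card {y : Fin 2 × Fin n // ![ζ, ζ'] y.1 y.2 = 1} =
        Fintype.card {i // ζ i = 1} + Fintype.card {i // ζ' i = 1} := by
    intro ζ ζ'
    rw [Fintype.card_subtype, Fintype.card_subtype, Fintype.card_subtype,
      Finset.card_filter, Finset.card_filter, Finset.card_filter, Fintype.sum_prod_type,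
      Fin.sum_univ_two]
    rfl
  rw [hcard, hcard] at h1 h2
  obtain ⟨σ, hσ⟩ := exists_perm (η := η₂) (η' := η₃) (by omega)
  obtain ⟨Z, hZ, hZe⟩ := perm_cong hσ
  rw [← hd₂, ← hd₃] at hZe
  obtain ⟨V, hV1, hV2⟩ : ∃ V : Matrix (Fin n) (Fin n) ℂ, V * S₃ = 1 ∧ S₃ * V = 1 := by
    obtain ⟨U, rfl⟩ := hS₃
    exact ⟨_, U.inv_mul, U.mul_inv⟩
  have hV3 : S₃ᴴ * Vᴴ = 1 := by
    rw [← Matrix.conjTranspose_mul, hV1, Matrix.conjTranspose_one]
  have hVu : IsUnit V := ⟨⟨V, S₃, hV1, hV2⟩, rfl⟩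
  refine ⟨V * Z * S₂, (hVu.mul hZ).mul hS₂, ?_⟩
  rw [Matrix.conjTranspose_mul, Matrix.conjTranspose_mul]
  calc V * Z * S₂ * (R.f (rowH H y y) * R.A) * (S₂ᴴ * (Zᴴ * Vᴴ))
      = V * (Z * (S₂ * (R.f (rowH H y y) * R.A) * S₂ᴴ) * Zᴴ) * Vᴴ := by
        simp only [Matrix.mul_assoc]
    _ = (V * S₃) * (R.f (rowH H y' y') * R.A) * (S₃ᴴ * Vᴴ) := by
        rw [hZe]; simp only [Matrix.mul_assoc]
    _ = _ := by rw [hV1, hV3, Matrix.one_mul, Matrix.mul_one]

end sig

end Vale.Agent.P011.Two2
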