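import Vale.Agent.P011.Two2.Tern
import Vale.Agent.P011.Two2.EvalPos
import Vale.Agent.P011.Two2.Defs2
import Vale.Agent.P011.Two.PncAb
import Vale.Agent.P011.RP.Universal

/-!
The second step: representation of a form of rank one by `m + w* r⁻¹ w` with `w + w* = r`.
-/

open Module Matrix Polynomial NumberField IsDedekindDomain
open Vale.Agent.P011.RP (RData HasR1 HasR2 Complete)

namespace Vale.Agent.P011.Two2

open Vale.Agent.P011.Arith Vale.Agent.P011.Even Vale.Agent.P011.Two

variable {k K D : Type} [Field k] [NumberField k] [Field K] [NumberField K] [StarRing K]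
    [DivisionRing D] [StarRing D] [Algebra k K] [Algebra k D] [Algebra K D] [IsScalarTower k K D]
    {d : kˣ} {s : K} {n : ℕ}

omit [Algebra k D] [IsScalarTower k K D] in
/-- Elements in the same norm class. -/
theorem exists_normK (hS : Setting k K D d s) (ν ν' : kˣ) (h : ν' * ν ∈ NF d) :
    ∃ z : K, z ≠ 0 ∧ algebraMap k K ν' = z * star z * algebraMap k K ν := by
  have hfixk : ∀ a : k, star (algebraMap k K a) = algebraMap k K a := fun a =>
    (hS.fix _).mpr ⟨a, rfl⟩
  obtain ⟨X', Y', hXY⟩ := h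
  have hν0 : algebraMap k K ν ≠ 0 := (_root_.map_ne_zero _).mpr ν.ne_zero
  have hν0' : algebraMap k K ν' ≠ 0 := (_root_.map_ne_zero _).mpr ν'.ne_zero
  obtain ⟨z, hz⟩ : ∃ z : K, z = (algebraMap k K X' + algebraMap k K Y' * s) *
    (algebraMap k K ν)⁻¹ := ⟨_, rfl⟩
  have h1 : star z = (algebraMap k K X' - algebraMap k K Y' * s) * (algebraMap k K ν)⁻¹ := by
    rw [hz, star_mul', star_inv₀, star_add, star_mul', hfixk, hfixk, hfixk, hS.star_s,
      mul_neg, sub_eq_add_neg]
  have h2 : (algebraMap k K X' + algebraMap k K Y' * s) *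
      (algebraMap k K X' - algebraMap k K Y' * s) =
      algebraMap k K ν' * algebraMap k K ν := by
    rw [← map_mul, ← Units.val_mul, hXY, map_sub, map_mul, map_pow, map_pow, ← hS.sq]
    ring
  have h3 : z * star z * algebraMap k K ν = algebraMap k K ν' := by
    rw [h1, hz]
    field_simp
    rw [h2, mul_comm]
  refine ⟨z, ?_, h3.symm⟩
  rintro rfl
  rw [zero_mul, zero_mul] at h3
  exact hν0' h3.symm

/-- The norm of a norm is a norm. -/
theorem nrm_mem_NF {F E : Type} [Field F] [NumberField F] [Field E] [NumberField E]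
    [Algebra F E] {d : Fˣ} {c : Eˣ} (h : c ∈ NF (inc F E d)) : nrm F E c ∈ NF d := by
  apply mem_NF_of_bad
  ext p
  simp only [Set.mem_empty_iff_false, iff_false]
  refine nrm_good fun q _ => ?_
  rw [notMem_bad]
  exact Subgroup.mem_sup_left h

omit [NumberField k] in
/-- A member of a complete family above a given real place. -/
theorem exists_index (hS : Setting k K D d s) (hn : 0 < n) (hdeg : finrank K D = n ^ 2)
    {ι : Type} {R : ι → RData K D n} (hc : Complete R) {φ : k →+* ℝ} (hφ : φ d < 0) :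
    ∃ i, ∀ a, (R i).s (algebraMap k K a) = ((φ a : ℝ) : ℂ) := by
  obtain ⟨R', hR'⟩ := exists_rdata_of (D := D) hS hn hdeg hφ
  obtain ⟨i, hi | hi⟩ := hc R'.s R'.hs
  · exact ⟨i, fun a => by rw [hi]; exact hR' a⟩
  · refine ⟨i, fun a => ?_⟩
    rw [hi, hR', Complex.star_def, Complex.conj_ofReal]

/-- STEP b. -/
theorem stepB (hS : Setting k K D d s) (hn : 2 ≤ n) (hdeg : finrank K D = n ^ 2)
    {Ω : Type} [Field Ω] [Algebra K Ω] (f : D →ₐ[K] Matrix (Fin n) (Fin n) Ω)
    {ι : Type} [Fintype ι] {R : ι → RData K D n} (hc : Complete R)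
    {m r b₀ : D} (hm : star m = m) (hr : star r = r) (hb₀ : star b₀ = b₀)
    (hm0 : m ≠ 0) (hr0 : r ≠ 0) (hb0 : b₀ ≠ 0)
    (hmp : ∀ i, (R i).PosAt m) (hbp : ∀ i, (R i).PosAt b₀) (hmr : ∀ i, (R i).PosAt (4 * m + r))
    {νr νb a : kˣ} (hνr : (f r).det = algebraMap K Ω (algebraMap k K νr))
    (hνb : (f b₀).det = algebraMap K Ω (algebraMap k K νb)) (ha : νr * νb * a ∈ NF d)
    {V : Set (HeightOneSpectrum (𝓞 k))} (hV : Ctrl d a V) (hnice : Nice k d n V (m⁻¹ * r)) :
    ∃ w c : D, c ≠ 0 ∧ w + star w = r ∧ m + star w * r⁻¹ * w = c * b₀ * star c := by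
  classical
  have hn0 : 0 < n := by omega
  have := hS.fin
  have := hS.cen
  have hfk := hS.fin_k
  have hSM : StarModule K D := ⟨hS.star_smul⟩
  have hchar : CharZero D := charZero_of_injective_algebraMap (algebraMap K D).injective
  have hK : ∃ x : K, star x ≠ x := by
    refine ⟨s, fun h => ?_⟩
    rw [hS.star_s] at h
    have h1 : (2 : K) * s = 0 := by linear_combination -h
    exact (mul_ne_zero two_ne_zero hS.s_ne) h1
  have hR1 : HasR1 K D n := hasR1 hK hn0 hdeg
  obtain ⟨hli, hsplit0, hreal0⟩ := hnice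
  obtain ⟨z, hzd⟩ : ∃ z, z = m⁻¹ * r := ⟨_, rfl⟩
  rw [← hzd] at hli hsplit0 hreal0
  have hmz : m * z = r := by rw [hzd, mul_inv_cancel_left₀ hm0]
  have hz : star z = m * z * m⁻¹ := by
    rw [hmz, hzd, star_mul, star_inv₀, hm, hr]
  have hz0 : z ≠ 0 := by rw [hzd]; exact mul_ne_zero (inv_ne_zero hm0) hr0
  -- reduced norms
  obtain ⟨f0⟩ := Vale.Agent.P011S.exists_split (K := K) (D := D) hdeg (AlgebraicClosure K)
  have hνr0 := det_compare hn0 hdeg f f0 r hνr
  have hνb0 := det_compare hn0 hdeg f f0 b₀ hνb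
  have hdet : ∀ x : D, x ≠ 0 → (f0 x).det ≠ 0 := by
    intro x hx h0
    have h1 : f0 x * f0 x⁻¹ = 1 := by rw [← map_mul, mul_inv_cancel₀ hx, map_one]
    have h2 := congrArg Matrix.det h1
    rw [Matrix.det_mul, h0, zero_mul, Matrix.det_one] at h2
    exact zero_ne_one h2
  obtain ⟨νm, hνm⟩ : ∃ ν : kˣ, (f0 m).det = algebraMap K (AlgebraicClosure K)
      (algebraMap k K ν) := by
    obtain ⟨ν, hν⟩ := exists_nrd hn0 hdeg f0 m
    obtain ⟨ν', rfl⟩ := (hS.fix ν).mp (star_nrd hn0 hdeg hS.star_alg f0 hm hν)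
    refine ⟨Units.mk0 ν' ?_, hν⟩
    rintro rfl
    rw [map_zero, map_zero] at hν
    exact hdet m hm0 hν
  -- the field
  obtain ⟨E, _, _, _, j, g, hjg, hgen⟩ := exists_gen (Module.finBasis k D) z
  obtain ⟨hmn, hmK⟩ := minpoly_map hS hn0 hdeg f0 hm0 hz hli
  have hjinj : Function.Injective j := j.toRingHom.injective
  have hjp : ∀ p : k[X], j (aeval g p) = aeval z p := by
    intro p
    rw [← Polynomial.aeval_algHom_apply, hjg]
  have hgmin : minpoly k g = minpoly k z := by rw [← hjg, minpoly.algHom_eq j hjinj g]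
  have hfinE : FiniteDimensional k E := Module.Finite.of_injective j.toLinearMap hjinj
  have hE : finrank k E = n := by
    have h1 : IntermediateField.adjoin k {g} = ⊤ := by
      rw [eq_top_iff]
      intro l _
      obtain ⟨p, rfl⟩ := hgen l
      exact IntermediateField.algebra_adjoin_le_adjoin k {g} (by
        rw [Algebra.adjoin_singleton_eq_range_aeval]
        exact ⟨p, rfl⟩)
    have h2 : finrank k (IntermediateField.adjoin k {g}) = (minpoly k g).natDegree :=
      IntermediateField.adjoin.finrank (Algebra.IsIntegral.isIntegral g)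
    rw [h1, IntermediateField.finrank_top', hgmin, hmn] at h2
    exact h2
  have hstarj : ∀ x : E, star (j x) = m * j x * m⁻¹ := by
    intro x
    obtain ⟨p, rfl⟩ := hgen x
    rw [hjp]
    exact star_aeval' hS hm0 hz p
  -- the central element
  obtain ⟨S, hSdef⟩ : ∃ S, S = algebraMap K D s := ⟨_, rfl⟩
  have hSc : ∀ x : D, S * x = x * S := fun x => by rw [hSdef]; exact Algebra.commutes s x
  have hSs : star S = -S := by rw [hSdef]; exact star_S hS
  have hSS : S * S = algebraMap k D d := by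
    rw [hSdef, ← map_mul, ← pow_two, hS.sq, ← IsScalarTower.algebraMap_apply]
  have hS0 : S ≠ 0 := by
    rw [hSdef]
    exact (_root_.map_ne_zero (algebraMap K D)).mpr hS.s_ne
  have hD2 : (2 : D) ≠ 0 := two_ne_zero
  have hSne : S ≠ -S := by
    intro h
    apply hS0
    have h1 : (2 : D) * S = 0 := by rw [two_mul]; nth_rewrite 1 [h]; exact neg_add_cancel S
    exact (mul_eq_zero.mp h1).resolve_left hD2
  have hdE : ¬ IsSquare (algebraMap k E (d : k)) := by
    rintro ⟨r', hr'⟩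
    have h1 : (j r' - S) * (j r' + S) = 0 := by
      have h2 : j r' * j r' = S * S := by
        rw [← map_mul, ← hr', AlgHom.commutes, hSS]
      rw [sub_mul, mul_add, mul_add, h2, hSc (j r')]
      abel
    have h3 : ∀ x : D, (x = S ∨ x = -S) → star x ≠ m * x * m⁻¹ := by
      rintro x (rfl | rfl)
      · rw [hSs, ← hSc, mul_assoc, mul_inv_cancel₀ hm0, mul_one]
        exact fun h => hSne h.symm
      · rw [star_neg, hSs, neg_neg, mul_neg, ← hSc, neg_mul, mul_assoc, mul_inv_cancel₀ hm0,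
          mul_one]
        exact hSne
    rcases mul_eq_zero.mp h1 with h | h
    · exact h3 _ (Or.inl (sub_eq_zero.mp h)) (hstarj r')
    · exact h3 _ (Or.inr (eq_neg_of_add_eq_zero_left h)) (hstarj r')
  have hmonic : (minpoly k z).Monic := minpoly.monic (Algebra.IsIntegral.isIntegral z)
  have hroots : ∀ φ : k →+* ℝ, φ d < 0 → ∃ ρ : Fin n → ℝ, Function.Injective ρ ∧
      (minpoly k z).map φ = ∏ i, (X - C (ρ i)) := fun φ hφ =>
    hreal0 φ hφ _ hmonic hmn (minpoly.aeval k z)
  have hpsi : ∀ (φ : k →+* ℝ) (ρ : Fin n → ℝ), (minpoly k z).map φ = ∏ i, (X - C (ρ i)) →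
      ∀ i, ∃ ψ : E →+* ℝ, ψ.comp (algebraMap k E) = φ ∧
        ∀ p : k[X], ψ (aeval g p) = p.eval₂ φ (ρ i) := by
    intro φ ρ hρ i
    apply exists_psi_root hgen
    rw [hgmin, ← Polynomial.eval_map, hρ, eval_prod]
    apply Finset.prod_eq_zero (Finset.mem_univ i)
    rw [eval_sub, eval_X, eval_C, sub_self]
  have hreal : ∀ φ : k →+* ℝ, φ d < 0 → ∃ ψ : E →+* ℝ, ψ.comp (algebraMap k E) = φ := by
    intro φ hφ
    obtain ⟨ρ, -, hρ⟩ := hroots φ hφ
    obtain ⟨ψ, hψ, -⟩ := hpsi φ ρ hρ ⟨0, hn0⟩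
    exact ⟨ψ, hψ⟩
  have hg0 : g ≠ 0 := by
    rintro rfl
    exact hz0 (by rw [← hjg, map_zero])
  have hplaces : ∀ v : HeightOneSpectrum (𝓞 k), ∃ w : HeightOneSpectrum (𝓞 E), Ab w v ∧
      (v ∈ V → ∀ c : Eˣ, (c : E) = g⁻¹ + 4⁻¹ → c ∉ LS (w.valuation E)) := by
    intro v
    by_cases hv : v ∈ V
    · obtain ⟨w, hw1, hw2⟩ := (hsplit0 v hv E g hE (by rw [hgmin]; exact hmn)
        (by rw [hgmin]; exact minpoly.aeval k z)).2
      exact ⟨w, hw1, fun _ => hw2⟩
    · obtain ⟨w, hw⟩ := exists_above (E := E) v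
      exact ⟨w, hw, fun h => absurd h hv⟩
  choose ab hab hab2 using hplaces
  have hsplit : ∀ v ∈ V, TotSplit E v := fun v hv =>
    (hsplit0 v hv E g hE (by rw [hgmin]; exact hmn) (by rw [hgmin]; exact minpoly.aeval k z)).1
  -- the value to be represented
  have hth0 : g⁻¹ + 4⁻¹ ≠ 0 := by
    intro h0
    have h1 : g = algebraMap k E (-4) := by
      rw [map_neg, map_ofNat]
      have h4 : (4 : E) ≠ 0 := by norm_num
      field_simp at h0
      linear_combination h0
    have h2 : (minpoly k g).natDegree = 1 := by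
      rw [h1, minpoly.eq_X_sub_C]
      exact natDegree_X_sub_C _
    rw [hgmin, hmn] at h2
    omega
  -- classes and signs
  have hcmb : ∀ R' : RData K D n, R'.CongAt m b₀ :=
    Vale.Agent.P011.RP.of_family hn0 hdeg hc fun i =>
      Vale.Agent.P011.RP.congAt_of_pos (hmp i) (hbp i)
  have hnorm : ∀ x : E, (f0 (j x)).det =
      algebraMap K (AlgebraicClosure K) (algebraMap k K (Algebra.norm k x)) := by
    intro x
    obtain ⟨p, rfl⟩ := hgen x
    rw [hjp]
    exact det_sub hS hn0 hdeg f0 hm0 hz hli hE hgmin p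
  have hkinj : ∀ x y : k, algebraMap K (AlgebraicClosure K) (algebraMap k K x) =
      algebraMap K (AlgebraicClosure K) (algebraMap k K y) → x = y := fun x y h =>
    (algebraMap k K).injective ((algebraMap K (AlgebraicClosure K)).injective h)
  have hνmr : (νm : k) * Algebra.norm k g = νr := by
    apply hkinj
    have h1 : (f0 (m * z)).det = (f0 m).det * (f0 z).det := by rw [map_mul, Matrix.det_mul]
    rw [← hνr0, ← hmz, h1, hνm, ← hjg, hnorm, map_mul, map_mul]
  obtain ⟨al, halN, halb, hals⟩ := pnc_ab (E := E) hdE hV hsplit hreal ab hab (Units.mk0 g hg0)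
    (fun φ hφ => by
      obtain ⟨R', hR'⟩ := exists_rdata_of (D := D) hS hn0 hdeg hφ
      have h1 := nrd_pos hS hn0 hdeg f0 R' hR' (hcmb R') hνm hνb0
      have h2 : 0 < φ ((νr * νb * a : kˣ) : k) := mem_LSR.mp (NF_le_LSR hφ ha)
      rw [Units.val_mul, Units.val_mul, map_mul, map_mul, ← hνmr, map_mul] at h2
      rw [Units.val_mk0]
      have h3 : φ (νm : k) * φ (Algebra.norm k g) * φ (νb : k) * φ (a : k) =
          (φ (νb : k) * φ (νm : k)) * (φ (Algebra.norm k g) * φ (a : k)) := by ring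
      rw [h3] at h2
      exact (mul_pos_iff_of_pos_left h1).mp h2)
  obtain ⟨y, p, q, hth, hN0⟩ := ternary (F := E) (a := inc k E d) hdE al
    (Units.mk0 (g⁻¹ + 4⁻¹) hth0) (fun w hw => by
      obtain ⟨v, hv, rfl⟩ := halb w hw
      exact hab2 v hv _ rfl)
    (fun ψ hψ hal => by
      have hψd : ψ (algebraMap k E d) < 0 := hψ
      obtain ⟨φ, hφd⟩ : ∃ φ : k →+* ℝ, φ = ψ.comp (algebraMap k E) := ⟨_, rfl⟩
      have hφ0 : φ d < 0 := by rw [hφd]; exact hψd
      have h1 := hals ψ hψd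
      rw [Units.val_mk0] at h1
      have hψg : ψ g < 0 := by
        by_contra hcon
        rw [not_lt] at hcon
        have := mul_nonpos_of_nonpos_of_nonneg hal.le hcon
        linarith
      obtain ⟨i, hi⟩ := exists_index hS hn0 hdeg hc hφ0
      have hev : ∀ p : k[X], (p.map φ).eval (ψ g) = ψ (aeval g p) := by
        intro p
        rw [eval_map, hφd, Polynomial.aeval_def, Polynomial.hom_eval₂]
      have h2 := root_pos hS hn0 hdeg (R i) hi hm0 hz hli (hmp i) (q := X + C 4) (ρ := ψ g)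
        (by
          have e : m * aeval z (X + C 4 : k[X]) = 4 * m + r := by
            rw [map_add, aeval_X, aeval_C, map_ofNat, mul_add, hmz, add_comm]
            congr 1
            exact (Nat.cast_commute 4 m).symm
          rw [e]
          exact hmr i)
        (by rw [hev, ← hgmin, minpoly.aeval, map_zero])
      rw [hev, map_add, aeval_X, aeval_C, map_ofNat, map_add, map_ofNat] at h2
      rw [Units.val_mk0, map_add, map_inv₀, map_inv₀, map_ofNat]
      have h3 : (ψ g)⁻¹ + 4⁻¹ = (ψ g + 4) / (4 * ψ g) := by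
        have := hψg.ne
        field_simp
        ring
      rw [h3]
      exact div_neg_of_pos_of_neg h2 (by linarith))
  rw [Units.val_mk0] at hth
  have hincd : ((inc k E d : Eˣ) : E) = algebraMap k E d := rfl
  rw [hincd] at hth hN0
  obtain ⟨Nq, hNq⟩ : ∃ Nq : Eˣ, (Nq : E) = p ^ 2 - algebraMap k E d * q ^ 2 :=
    ⟨Units.mk0 _ hN0, rfl⟩
  have hNqN : Nq ∈ NF (inc k E d) := ⟨p, q, hNq⟩
  obtain ⟨γ, hγ⟩ : ∃ γ : Eˣ, γ = Units.mk0 g hg0 * al * Nq := ⟨_, rfl⟩
  have hγE : (γ : E) = g * (g⁻¹ + 4⁻¹ - algebraMap k E d * y ^ 2) := by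
    rw [hγ, hth, Units.val_mul, Units.val_mul, Units.val_mk0, hNq]
    ring
  -- the element
  obtain ⟨w, hw⟩ : ∃ w, w = r * (2⁻¹ + j y * S) := ⟨_, rfl⟩
  have h2c : ∀ x : D, (2 : D)⁻¹ * x = x * 2⁻¹ := fun x =>
    (Commute.inv_left₀ (Nat.cast_commute 2 x)).eq
  have hrj : r = m * j g := by rw [hjg, hmz]
  have hjc : ∀ x y : E, j x * j y = j y * j x := fun x y => by
    rw [← map_mul, mul_comm, map_mul]
  have hsw : star w = r * (2⁻¹ - j y * S) := by
    rw [hw, star_mul, star_add, star_mul, hSs, hstarj, hr, star_inv₀, star_ofNat, add_mul,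
      neg_mul, neg_mul, mul_sub, ← h2c r, sub_eq_add_neg]
    congr 2
    calc S * (m * j y * m⁻¹) * r = S * (m * j y * (m⁻¹ * r)) := by simp only [mul_assoc]
      _ = S * (m * (j y * j g)) := by rw [← hzd, ← hjg]; simp only [mul_assoc]
      _ = m * (j g * j y) * S := by rw [hSc, hjc y g]
      _ = r * (j y * S) := by rw [hrj]; simp only [mul_assoc]
  have hww : w + star w = r := by
    rw [hsw, hw, ← mul_add]
    have : (2 : D)⁻¹ + j y * S + (2⁻¹ - j y * S) = 1 := by
      have h3 : (2 : D)⁻¹ + 2⁻¹ = 1 := by rw [← two_mul, mul_inv_cancel₀ hD2]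
      rw [← h3]
      abel
    rw [this, mul_one]
  have hval : m + star w * r⁻¹ * w = m * j (γ : E) := by
    have h3 : (2⁻¹ - j y * S) * (2⁻¹ + j y * S) = j (4⁻¹ - algebraMap k E d * y ^ 2) := by
      have h4 : j y * S * (j y * S) = j (algebraMap k E d * y ^ 2) := by
        rw [map_mul, AlgHom.commutes, ← hSS, pow_two, map_mul]
        calc j y * S * (j y * S) = j y * (S * j y) * S := by simp only [mul_assoc]
          _ = j y * j y * (S * S) := by rw [hSc]; simp only [mul_assoc]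
          _ = S * S * (j y * j y) := by rw [hSS, Algebra.commutes]
      have h5 : (2 : D)⁻¹ * 2⁻¹ = j 4⁻¹ := by
        rw [map_inv₀, map_ofNat, ← _root_.mul_inv_rev]
        norm_num
      rw [sub_mul, mul_add, mul_add, h4, h5, map_sub, h2c (j y * S)]
      abel
    have h6 : star w * r⁻¹ * w = r * j (4⁻¹ - algebraMap k E d * y ^ 2) := by
      rw [hsw, hw, ← h3]
      calc r * (2⁻¹ - j y * S) * r⁻¹ * (r * (2⁻¹ + j y * S))
          = r * (2⁻¹ - j y * S) * (r⁻¹ * r) * (2⁻¹ + j y * S) := by simp only [mul_assoc]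
        _ = _ := by rw [inv_mul_cancel₀ hr0, mul_one, mul_assoc]
    rw [h6, hrj, mul_assoc, ← map_mul, hγE]
    have h7 : g * (g⁻¹ + 4⁻¹ - algebraMap k E d * y ^ 2) =
        1 + g * (4⁻¹ - algebraMap k E d * y ^ 2) := by
      field_simp
      ring
    rw [h7, map_add, map_one, mul_add, mul_one]
  -- comparison with `b₀`
  have hγ0 : j (γ : E) ≠ 0 := (_root_.map_ne_zero j).mpr γ.ne_zero
  have hsym : star (m * j (γ : E)) = m * j (γ : E) := by
    rw [star_mul, hstarj, hm, mul_assoc, inv_mul_cancel₀ hm0, mul_one]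
  have hcong : ∀ R' : RData K D n, R'.CongAt b₀ (m * j (γ : E)) := by
    intro R'
    obtain ⟨φ, hφ, hφd⟩ := exists_phi hS R'
    obtain ⟨ρ, hρi, hρ⟩ := hroots φ hφd
    refine cong_trans (cong_symm (hcmb R')) (cong_symm ?_)
    obtain ⟨P, hP⟩ := hgen (γ : E)
    rw [hP, hjp]
    refine cong_mul R' hφ hm hm0 hz (minpoly.aeval k z) hρi hρ (fun i => ?_) ?_
    · obtain ⟨ψ, hψ, hψp⟩ := hpsi φ ρ hρ i
      rw [eval_map, ← hψp, ← hP]
      have h1 : ψ (algebraMap k E d) < 0 := by
        have h2 : ψ (algebraMap k E d) = φ d := RingHom.congr_fun hψ _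
        rw [h2]
        exact hφd
      have h2 := hals ψ h1
      have h3 : 0 < ψ (Nq : E) := mem_LSR.mp (NF_le_LSR (a := inc k E d) h1 hNqN)
      rw [Units.val_mk0] at h2
      rw [hγ, Units.val_mul, Units.val_mul, Units.val_mk0, map_mul, map_mul, mul_comm (ψ g)]
      exact mul_pos h2 h3
    · rw [← hjp, ← hP]
      exact hγ0
  obtain ⟨z', hz'0, hz'⟩ := exists_normK hS νb (νr * nrm k E al * nrm k E Nq) (by
    have h1 : νr * nrm k E al * nrm k E Nq * νb =
        (νr * νb * a) * (nrm k E al * a) * nrm k E Nq * (a ^ 2)⁻¹ := by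
      have h2 : a * a * (a ^ 2)⁻¹ = 1 := by rw [← pow_two, mul_inv_cancel]
      calc νr * nrm k E al * nrm k E Nq * νb
          = νr * nrm k E al * nrm k E Nq * νb * (a * a * (a ^ 2)⁻¹) := by rw [h2, mul_one]
        _ = _ := by ac_rfl
    rw [h1]
    exact mul_mem (mul_mem (mul_mem ha halN) (nrm_mem_NF hNqN))
      (inv_mem ⟨(a : k), 0, by simp⟩))
  have hdz : (f0 (m * j (γ : E))).det =
      algebraMap K (AlgebraicClosure K) (z' * star z') * (f0 b₀).det := by
    have h1 : (f0 (m * j (γ : E))).det = (f0 m).det * (f0 (j (γ : E))).det := by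
      rw [map_mul, Matrix.det_mul]
    rw [h1, hνm, hnorm, hνb0, ← map_mul, ← map_mul, ← map_mul, ← hz']
    congr 2
    rw [hγ, Units.val_mul, Units.val_mul, Units.val_mk0, map_mul, map_mul, ← mul_assoc,
      ← mul_assoc, hνmr, Units.val_mul, Units.val_mul]
    rfl
  obtain ⟨t, ht0, ht⟩ := hR1 (AlgebraicClosure K) f0 b₀ (m * j (γ : E)) hb₀ hsym hb0
    (mul_ne_zero hm0 hγ0) ⟨z', hz'0, hdz⟩ hcong
  exact ⟨w, t, ht0, hww, by rw [hval, ht]⟩

end Vale.Agent.P011.Two2
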