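import Vale.Agent.P011.Two2.Path

/-!
Exchange of the two lines of a sesquilinear plane.
-/

namespace Vale.Agent.P011.Two2

variable {D : Type} [DivisionRing D] [StarRing D] {z z₂ r g : D}

/-- The exchange of the two lines `x` and `x₁ = x + x₂`: the line `x₁` (rescaled) comes first. -/
theorem swap (hnd : ND z z₂ r) (hne : z₂ ≠ z * r) (hg : g ≠ 0)
    (hgz : z₂ + star z₂ = g * (z * r + star (z * r)) * star g) :
    ∃ Z R u C G : D, u ≠ 0 ∧ C ≠ 0 ∧ G ≠ 0 ∧ Z = u * (z * r) * star u ∧ Z * R = z ∧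
      star R * (z₂ * r⁻¹) = C * z₂ * star C ∧ ND Z (z₂ * r⁻¹) R ∧
      Z + star Z = u * (z * r + star (z * r)) * star u ∧ b₀ Z (z₂ * r⁻¹) R = bb z z₂ r ∧
      star R * (z₂ * r⁻¹) + star (star R * (z₂ * r⁻¹)) = G * (Z + star Z) * star G := by
  have hz0 : z ≠ 0 := hnd.z0
  have hr0 : r ≠ 0 := hnd.r0
  have hT0 : z * r ≠ 0 := hnd.zr0
  obtain ⟨T, hT⟩ : ∃ T, T = z * r := ⟨_, rfl⟩
  obtain ⟨u, hu⟩ : ∃ u, u = 1 - z₂ * T⁻¹ := ⟨_, rfl⟩
  rw [← hT] at hT0 hne hgz ⊢
  have hTi : T⁻¹ = r⁻¹ * z⁻¹ := by rw [hT, mul_inv_rev]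
  have huT : u * T = T - z₂ := by rw [hu, sub_mul, one_mul, inv_mul_cancel_right₀ hT0]
  have hu0 : u ≠ 0 := by
    intro h0
    rw [h0, zero_mul] at huT
    exact hne (sub_eq_zero.mp huT.symm).symm
  have hus0 : star u ≠ 0 := star_ne_zero.mpr hu0
  obtain ⟨Z, hZ⟩ : ∃ Z, Z = u * T * star u := ⟨_, rfl⟩
  have hZ0 : Z ≠ 0 := by rw [hZ]; exact mul_ne_zero (mul_ne_zero hu0 hT0) hus0
  obtain ⟨R, hR⟩ : ∃ R, R = Z⁻¹ * z := ⟨_, rfl⟩
  have hR0 : R ≠ 0 := by rw [hR]; exact mul_ne_zero (inv_ne_zero hZ0) hz0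
  have hZR : Z * R = z := by rw [hR, mul_inv_cancel_left₀ hZ0]
  obtain ⟨p, hp⟩ : ∃ p, p = z₂ * r⁻¹ := ⟨_, rfl⟩
  have hpz : p = z₂ * T⁻¹ * z := by
    rw [hp, hTi, mul_assoc, mul_assoc, inv_mul_cancel₀ hz0, mul_one]
  have huz : u * z = z - p := by rw [hu, sub_mul, one_mul, ← hpz]
  rw [← hp]
  obtain ⟨C, hC⟩ : ∃ C, C = star R * u := ⟨_, rfl⟩
  have hC0 : C ≠ 0 := by rw [hC]; exact mul_ne_zero (star_ne_zero.mpr hR0) hu0
  -- the key identity
  have hk : p * z⁻¹ * Z = u * z₂ * star u := by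
    have h2 : u * z₂ = z₂ - z₂ * T⁻¹ * z₂ := by rw [hu, sub_mul, one_mul]
    rw [hpz, hZ, mul_inv_cancel_right₀ hz0, huT, h2, ← mul_assoc, mul_sub,
      inv_mul_cancel_right₀ hT0]
  have hRC : star R * p = C * z₂ * star C := by
    have h1 : p = p * z⁻¹ * Z * R := by
      rw [mul_assoc (p * z⁻¹), hZR, inv_mul_cancel_right₀ hz0]
    nth_rewrite 1 [h1]
    rw [hk, hC, star_mul, star_star]
    simp only [mul_assoc]
  have hl₁s : star (T + star T) = T + star T := star_re T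
  have hZs : Z + star Z = u * (T + star T) * star u := by
    rw [hZ, star_mul, star_mul, star_star, mul_add, add_mul]
    simp only [mul_assoc]
  have hl₁0 : T + star T ≠ 0 := by rw [hT]; exact hnd.2.1
  have hee : ee Z p R = u * star (ee z z₂ r) := by
    rw [ee, ee, hZR, ← hT, hZ]
    have h2 : z - p = u * z := huz.symm
    have h3 : star (T - z₂) = star T * star u := by rw [← huT, star_mul]
    have h4 : star (u * T * star u) = u * star (T - z₂) := by
      rw [star_mul, star_mul, star_star, h3]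
    calc star (u * T * star u) + z - p = u * star (T - z₂) + (z - p) := by rw [h4]; abel
      _ = u * star (T - z₂) + u * z := by rw [h2]
      _ = u * (star (T - z₂) + z) := by rw [mul_add]
      _ = _ := by
        congr 1
        rw [star_sub, star_sub, star_add, star_star]
        abel
  have hb : b₀ Z p R = bb z z₂ r := by
    rw [b₀, hee, hZR, hZs, bb, ← hT, star_mul, star_star, mul_inv_rev, mul_inv_rev]
    congr 1
    calc ee z z₂ r * star u * ((star u)⁻¹ * ((T + star T)⁻¹ * u⁻¹)) * (u * star (ee z z₂ r))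
        = ee z z₂ r * (star u * (star u)⁻¹) * (T + star T)⁻¹ * (u⁻¹ * u) * star (ee z z₂ r) := by
          simp only [mul_assoc]
      _ = _ := by rw [mul_inv_cancel₀ hus0, inv_mul_cancel₀ hu0, mul_one, mul_one]
  have hCC : star R * p + star (star R * p) = C * (z₂ + star z₂) * star C := by
    rw [hRC, star_mul, star_mul, star_star, mul_add, add_mul]
    simp only [mul_assoc]
  refine ⟨Z, R, u, C, C * g * u⁻¹, hu0, hC0,
    mul_ne_zero (mul_ne_zero hC0 hg) (inv_ne_zero hu0), hZ, hZR, hRC, ?_, hZs, hb, ?_⟩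
  · refine ⟨?_, ?_, ?_, ?_, ?_, ?_⟩
    · rw [hZs]
      exact mul_ne_zero (mul_ne_zero hu0 hl₁0) hus0
    · rw [hZR]; exact hnd.1
    · intro h0
      apply hnd.2.2.2.1
      have h1 : star r * z₂ = star r * p * r := by rw [hp, mul_assoc, inv_mul_cancel_right₀ hr0]
      rw [h1, star_mul, star_mul, star_star, mul_assoc, ← mul_add, ← add_mul, h0, zero_mul,
        mul_zero]
    · rw [hCC]
      exact mul_ne_zero (mul_ne_zero hC0 hnd.2.2.1) (star_ne_zero.mpr hC0)
    · rw [hee]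
      exact mul_ne_zero hu0 (star_ne_zero.mpr hnd.2.2.2.2.1)
    · rw [hb]; exact hnd.bb0
  · rw [hCC, hgz, hZs, star_mul, star_mul, star_inv₀]
    calc C * (g * (T + star T) * star g) * star C
        = C * g * (u⁻¹ * u) * (T + star T) * (star u * (star u)⁻¹) * (star g * star C) := by
          rw [inv_mul_cancel₀ hu0, mul_inv_cancel₀ hus0, mul_one, mul_one]
          simp only [mul_assoc]
      _ = _ := by simp only [mul_assoc]

end Vale.Agent.P011.Two2
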