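import Vale.Agent.P011.Three.Fin

/-!
The classes of the reflections do not depend on the length of the vector, as soon as the classes of
quasi-reflections are multiplicative in the Wall parameter.
-/

set_option linter.unusedSectionVars false

namespace Vale.Agent.P011.Two2

open Vale.Agent.P011S Vale.Agent.P011.Three

variable {D V A : Type} [DivisionRing D] [StarRing D] [AddCommGroup V] [Module D V]
  [CommGroup A] {H : AForm D V} (χ : H.isom →* A)

/-- The square of a quasi-reflection along a symmetric direction. -/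
theorem psi_sq_central {f u w : D} (hf : star f = f) (hf0 : f ≠ 0) {y : V} (hy : H.h y y = f)
    (hu : u + star u = 1) (hw : w + star w = 1)
    (huc : ∀ x, u * x = x * u) (hwc : ∀ x, w * x = x * w)
    (huw : w⁻¹ = u⁻¹ + u⁻¹ - u⁻¹ * u⁻¹) :
    psi H χ (f * w) = psi H χ (f * u) * psi H χ (f * u) := by
  have huc' : ∀ x, star u * x = x * star u := by
    intro x
    have := congrArg star (huc (star x))
    rw [star_mul, star_mul, star_star] at this
    exact this.symm
  have hwc' : ∀ x, star w * x = x * star w := by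
    intro x
    have := congrArg star (hwc (star x))
    rw [star_mul, star_mul, star_star] at this
    exact this.symm
  have h1 : f * u + star (f * u) = H.h y y := by
    rw [star_mul, hf, huc', ← mul_add, hu, mul_one, hy]
  have h2 : f * w + star (f * w) = H.h y y := by
    rw [star_mul, hf, hwc', ← mul_add, hw, mul_one, hy]
  rw [psi_eq h1, psi_eq h2, ← map_mul]
  congr 1
  apply Subtype.ext
  ext v
  change H.qr y (f * w) h2 v = H.qr y (f * u) h1 (H.qr y (f * u) h1 v)
  rw [H.qr_apply, H.qr_apply, H.qr_apply, H.sub_left, H.smul_left, hy]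
  have e1 : (f * w)⁻¹ = (u⁻¹ + u⁻¹ - u⁻¹ * u⁻¹) * f⁻¹ := by rw [mul_inv_rev, huw]
  have e2 : (f * u)⁻¹ = u⁻¹ * f⁻¹ := mul_inv_rev _ _
  have huic : ∀ x, u⁻¹ * x = x * u⁻¹ := fun x => by
    have h3 : Commute u x := huc x
    exact h3.inv_left₀.eq
  rw [e1, e2, sub_sub, ← add_smul]
  congr 2
  have e3 : H.h v y * (u⁻¹ * f⁻¹) * f = H.h v y * u⁻¹ := by
    rw [mul_assoc, mul_assoc u⁻¹, inv_mul_cancel₀ hf0, mul_one]
  rw [sub_mul (H.h v y), e3]
  noncomm_ring

/-- The classes of the reflections do not depend on the length. -/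
theorem psi_sym_of_mul {K : Type*} [Field K] [CharZero K] [StarRing K] [Algebra K D]
    [StarModule K D] (hK : ∃ k : K, star k ≠ k) (X : D → Prop)
    (hB : ∀ z z' r : D, X z → X z' → X (z * r) → X (z' * r) →
      psi H χ (z * r) * (psi H χ z)⁻¹ = psi H χ (z' * r) * (psi H χ z')⁻¹)
    {e : V} (he : H.h e e = 1) {f : D} {y : V} (hy : H.h y y = f) (hf0 : f ≠ 0) (hX1 : X 1)
    (hXf : X f) (hXu : ∀ u : D, u + star u = 1 → X u) (hXfu : ∀ u : D, u + star u = 1 →
      (∀ x, u * x = x * u) → X (f * u)) : psi H χ f = psi H χ 1 := by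
  have hf : star f = f := by rw [← hy, H.star_h]
  obtain ⟨k0, hk0⟩ := hK
  obtain ⟨s, hs⟩ : ∃ s, s = k0 - star k0 := ⟨_, rfl⟩
  have hs0 : s ≠ 0 := by rw [hs]; exact sub_ne_zero.mpr (Ne.symm hk0)
  have hss : star s = -s := by rw [hs, star_sub, star_star, neg_sub]
  have hs1 : 1 - s ≠ 0 := by
    intro h0
    have h1 := congrArg star h0
    rw [star_sub, star_one, star_zero, hss, sub_neg_eq_add] at h1
    have h2 : (2 : K) = 0 := by linear_combination h0 + h1
    exact two_ne_zero h2
  have hmap : ∀ x : K, star (algebraMap K D x) = algebraMap K D (star x) := fun x =>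
    (algebraMap_star_comm x).symm
  obtain ⟨u, hu⟩ : ∃ u, u = (1 - s) / 2 := ⟨_, rfl⟩
  obtain ⟨w, hw⟩ : ∃ w, w = (2 - s - s⁻¹) / 4 := ⟨_, rfl⟩
  have hw' : w = -(s⁻¹ * (1 - s) ^ 2) / 4 := by
    rw [hw]
    field_simp
    ring
  have hus : u + star u = 1 := by
    rw [hu, star_div₀, star_sub, star_one, hss, star_ofNat]
    ring
  have hws : w + star w = 1 := by
    rw [hw, star_div₀, star_sub, star_sub, star_inv₀, hss, star_ofNat, star_ofNat, inv_neg]
    ring
  have huw : w⁻¹ = u⁻¹ + u⁻¹ - u⁻¹ * u⁻¹ := by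
    rw [hw', hu]
    field_simp
    ring
  have hUs : algebraMap K D u + star (algebraMap K D u) = 1 := by
    rw [hmap, ← map_add, hus, map_one]
  have hWs : algebraMap K D w + star (algebraMap K D w) = 1 := by
    rw [hmap, ← map_add, hws, map_one]
  have hUW : (algebraMap K D w)⁻¹ = (algebraMap K D u)⁻¹ + (algebraMap K D u)⁻¹ -
      (algebraMap K D u)⁻¹ * (algebraMap K D u)⁻¹ := by
    rw [← map_inv₀, ← map_inv₀, huw, map_sub, map_add, map_mul]
  have hc : ∀ (a : K) (x : D), algebraMap K D a * x = x * algebraMap K D a := fun a x =>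
    Algebra.commutes a x
  -- the two lines
  have h1 := psi_sq_central χ hf hf0 hy hUs hWs (hc u) (hc w) hUW
  have h2 := psi_sq_central χ (star_one D) one_ne_zero he hUs hWs (hc u) (hc w) hUW
  rw [one_mul, one_mul] at h2
  have h3 := hB f 1 (algebraMap K D u) hXf hX1 (hXfu _ hUs (hc u))
    (by rw [one_mul]; exact hXu _ hUs)
  have h4 := hB f 1 (algebraMap K D w) hXf hX1 (hXfu _ hWs (hc w))
    (by rw [one_mul]; exact hXu _ hWs)
  rw [one_mul] at h3 h4
  have h5 : psi H χ (f * algebraMap K D u) = psi H χ (algebraMap K D u) *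
      (psi H χ f * (psi H χ 1)⁻¹) := by
    rw [mul_comm (psi H χ f), ← mul_assoc, ← h3, inv_mul_cancel_right]
  have h6 : psi H χ (f * algebraMap K D w) = psi H χ (algebraMap K D w) *
      (psi H χ f * (psi H χ 1)⁻¹) := by
    rw [mul_comm (psi H χ f), ← mul_assoc, ← h4, inv_mul_cancel_right]
  rw [h5, h6, h2] at h1
  have h7 : psi H χ f * (psi H χ 1)⁻¹ = 1 := by
    have h8 : psi H χ (algebraMap K D u) * psi H χ (algebraMap K D u) *
        (psi H χ f * (psi H χ 1)⁻¹) = psi H χ (algebraMap K D u) * psi H χ (algebraMap K D u) *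
        ((psi H χ f * (psi H χ 1)⁻¹) * (psi H χ f * (psi H χ 1)⁻¹)) := by
      rw [h1]
      exact mul_mul_mul_comm _ _ _ _
    have h9 := mul_left_cancel h8
    exact (mul_eq_left.mp h9.symm)
  exact mul_inv_eq_one.mp h7

end Vale.Agent.P011.Two2

namespace Vale.Agent.P011.Two2

open Module Matrix Vale.Agent.P011S Vale.Agent.P011.Three Vale.Agent.P011.RP
open Vale.Agent.P011.Two.Hi
open scoped ComplexOrder

variable {K D : Type} [Field K] [NumberField K] [StarRing K] [DivisionRing D] [StarRing D]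
  [Algebra K D] [StarModule K D] [FiniteDimensional K D] [Algebra.IsCentral K D] {n m : ℕ}

/-- The classes of the reflections along the positive lines are equal. The condition on the Wall
parameters covers both cases: with and without real places. -/
theorem sym_one_of_B (hK : ∃ k : K, star k ≠ k) (hn : 0 < n) (hdeg : finrank K D = n ^ 2)
    {ι : Type} [Fintype ι] {R : ι → RData K D n} (hc : Complete R) (hd : Dense R) (hm : 2 ≤ m)
    (hA : ∀ i, (R i).A.PosDef) {H : Matrix (Fin m) (Fin m) D} (hH : IsAnisotropicForm H)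
    (hH1 : ∀ i, PosDim (R i) H n) {A : Type} [CommGroup A] (χ : (rowA H hH).isom →* A)
    (hB : ∀ z z' r : D, (z + star z ≠ 0 ∧ InX R z) → (z' + star z' ≠ 0 ∧ InX R z') →
      (z * r + star (z * r) ≠ 0 ∧ InX R (z * r)) → (z' * r + star (z' * r) ≠ 0 ∧ InX R (z' * r)) →
      psi (rowA H hH) χ (z * r) * (psi (rowA H hH) χ z)⁻¹ =
        psi (rowA H hH) χ (z' * r) * (psi (rowA H hH) χ z')⁻¹)
    {f : D} (hf : star f = f) (hf0 : f ≠ 0) (hfX : InX R f) :
    psi (rowA H hH) χ f = psi (rowA H hH) χ 1 := by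
  have hchar : CharZero D := charZero_of_injective_algebraMap (algebraMap K D).injective
  obtain ⟨e, he⟩ := exists_unit hK hn hdeg hc hd hm hA hH hH1
  have hfpos : ∀ i, ((R i).f f * (R i).A).PosDef := by
    intro i
    have h1 := hfX i
    rw [hf, ← two_mul, map_mul, map_ofNat] at h1
    have h2 := h1.smul (show (0 : ℝ) < 2⁻¹ by norm_num)
    have h3 : (2⁻¹ : ℝ) • (2 * (R i).f f * (R i).A) = (R i).f f * (R i).A := by
      rw [mul_assoc, two_mul, smul_add, ← add_smul]
      norm_num
    rwa [h3] at h2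
  obtain ⟨y, hy⟩ := exists_len hn hdeg (Vale.Agent.P011.Even.hasR2 hK hn hdeg) hc hd hm hH hH1
    hf hf0 hfpos
  have h2 : (1 : D) + 1 ≠ 0 := by
    rw [one_add_one_eq_two]
    exact two_ne_zero
  refine psi_sym_of_mul χ hK (fun z => z + star z ≠ 0 ∧ InX R z) hB he hy hf0 ?_ ?_ ?_ ?_
  · refine ⟨by rw [star_one]; exact h2, fun i => ?_⟩
    rw [star_one, map_add, map_one, add_mul, one_mul]
    exact (hA i).add (hA i)
  · refine ⟨?_, hfX⟩
    rw [hf, ← two_mul]
    exact mul_ne_zero two_ne_zero hf0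
  · intro u hu
    refine ⟨by rw [hu]; exact one_ne_zero, fun i => ?_⟩
    rw [hu, map_one, one_mul]
    exact hA i
  · intro u hu huc
    have h3 : f * u + star (f * u) = f := by
      have h4 : star u * f = f * star u := by
        have := congrArg star (huc f)
        rw [star_mul, star_mul, hf] at this
        exact this.symm
      rw [star_mul, hf, h4, ← mul_add, hu, mul_one]
    refine ⟨by rw [h3]; exact hf0, fun i => ?_⟩
    rw [h3]
    exact hfpos i

end Vale.Agent.P011.Two2
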