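import Vale.Agent.P011.Two2.StepA
import Vale.Agent.P011.Two2.SigCancel
import Vale.Agent.P011.Two2.StepB
import Vale.Agent.P011.Even.PncSign
import Vale.Agent.P011.Two2.Ineq
import Vale.Agent.P011.Two2.Swap
import Vale.Agent.P011.Three.Defs

/-!
Theorem S: the relation between the values of two lines of a sesquilinear plane, when the first
line of the first flag and the second line of the second flag have isometric lengths.
-/

open Module Matrix NumberField IsDedekindDomain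
open scoped ComplexOrder

namespace Vale.Agent.P011.Two2

open Vale.Agent.P011.Arith Vale.Agent.P011.Even Vale.Agent.P011S
open Vale.Agent.P011.RP (RData Complete Dense HasR2 rowH rowF)
open Vale.Agent.P011.Three (psi)

section nrd

variable {K D : Type} [Field K] [CharZero K] [DivisionRing D] [Algebra K D]
  [FiniteDimensional K D] [Algebra.IsCentral K D] [StarRing K] [StarRing D] {n : ℕ}

/-- The reduced norm of the adjoint. -/
theorem nrd_star (hn : 0 < n) (hdeg : finrank K D = n ^ 2) {Ω : Type} [Field Ω] [Algebra K Ω]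
    (hss : ∀ (c : K), star (algebraMap K D c) = algebraMap K D (star c))
    (f : D →ₐ[K] Matrix (Fin n) (Fin n) Ω) {x : D} {ν : K}
    (hν : (f x).det = algebraMap K Ω ν) : (f (star x)).det = algebraMap K Ω (star ν) := by
  let g0 : D →+* Matrix (Fin n) (Fin n) Ω :=
    { toFun := fun y => (f (star y)).transpose
      map_one' := by rw [star_one, map_one, Matrix.transpose_one]
      map_mul' := fun y z => by rw [star_mul, map_mul, Matrix.transpose_mul]
      map_zero' := by rw [star_zero, map_zero, Matrix.transpose_zero]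
      map_add' := fun y z => by rw [star_add, map_add, Matrix.transpose_add] }
  have hg0 : ∀ c : K, g0 (algebraMap K D c) = Matrix.scalar (Fin n) (algebraMap K Ω (star c)) := by
    intro c
    change (f (star (algebraMap K D c))).transpose = _
    rw [hss, AlgHom.commutes]
    change (Matrix.scalar (Fin n) (algebraMap K Ω (star c))).transpose = _
    simp
  let g : D →ₐ[K] Matrix (Fin n) (Fin n) (Tw K Ω) :=
    { (g0 : D →+* Matrix (Fin n) (Fin n) (Tw K Ω)) with
      commutes' := fun c => hg0 c }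
  have h1 := det_compare hn hdeg f g x hν
  have h2 : (g x).det = (f (star x)).det := by
    change Matrix.det (f (star x)).transpose = _
    rw [Matrix.det_transpose]
  rw [h2, tw_algebraMap] at h1
  exact h1

end nrd

section cls

variable {k K D : Type} [Field k] [NumberField k] [Field K] [NumberField K] [StarRing K]
    [DivisionRing D] [StarRing D] [Algebra k K] [Algebra k D] [Algebra K D] [IsScalarTower k K D]
    {d : kˣ} {s : K} {n : ℕ}

omit [Algebra k D] [IsScalarTower k K D] in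
/-- The norm class of a length does not depend on the vector of the line. -/
theorem cls_conj (hS : Setting k K D d s) (hn : 0 < n) (hdeg : finrank K D = n ^ 2)
    {Ω : Type} [Field Ω] [Algebra K Ω] (f : D →ₐ[K] Matrix (Fin n) (Fin n) Ω) {t c : D}
    {ν ν' : kˣ} (hν : (f c).det = algebraMap K Ω (algebraMap k K ν))
    (hν' : (f (t * c * star t)).det = algebraMap K Ω (algebraMap k K ν')) :
    ν * ν' ∈ NF d := by
  have := hS.fin
  have := hS.cen
  obtain ⟨τ, hτ⟩ := exists_nrd hn hdeg f t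
  have h1 := nrd_star hn hdeg hS.star_alg f hτ
  rw [map_mul, map_mul, Matrix.det_mul, Matrix.det_mul, hν, h1, hτ, ← map_mul, ← map_mul] at hν'
  have h2 := (algebraMap K Ω).injective hν'
  obtain ⟨a, b, hab⟩ := hS.span τ
  have h3 : star τ = algebraMap k K a - algebraMap k K b * s := by
    rw [hab, star_add, star_mul', (hS.fix _).mpr ⟨a, rfl⟩, (hS.fix _).mpr ⟨b, rfl⟩, hS.star_s,
      mul_neg, ← sub_eq_add_neg]
  refine ⟨ν * a, ν * b, (algebraMap k K).injective ?_⟩
  have h4 := hS.sq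
  rw [Units.val_mul, map_mul, ← h2, map_sub, map_mul, map_pow, map_pow, map_mul, map_mul, h3]
  nth_rewrite 1 [hab]
  linear_combination (-(algebraMap k K (ν : k)) ^ 2 * algebraMap k K b ^ 2) * h4

end cls

section main

variable {K D : Type} [Field K] [NumberField K] [StarRing K] [DivisionRing D] [StarRing D]
  [Algebra K D] [StarModule K D] [FiniteDimensional K D] [Algebra.IsCentral K D]

/-- Theorem S, first form. -/
theorem thmS_first (hK : ∃ k : K, star k ≠ k) {n : ℕ} (hn : 2 ≤ n) (hdeg : finrank K D = n ^ 2)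
    {ι : Type} [Fintype ι] {R : ι → RData K D n} (hc : Complete R) (hd : Dense R)
    (hA : ∀ i, (R i).A.PosDef) {H : Matrix (Fin 2) (Fin 2) D} (hH : IsAnisotropicForm H)
    (hH1 : ∀ i, Three.PosDim (R i) H n) {A : Type} [CommGroup A]
    (χ : (Two.Hi.rowA H hH).isom →* A) {z z₂ r : D} (hnd : ND z z₂ r)
    (h1 : ∀ i, (R i).PosAt (z + star z)) (h2 : ∀ i, (R i).PosAt (b₀ z z₂ r))
    {g : D} (hg0 : g ≠ 0) (hg : star r * z₂ + star (star r * z₂) = g * (z + star z) * star g) :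
    psi (Two.Hi.rowA H hH) χ z * psi (Two.Hi.rowA H hH) χ z₂ =
      psi (Two.Hi.rowA H hH) χ (z * r) * psi (Two.Hi.rowA H hH) χ (star r * z₂) := by
  have hn0 : 0 < n := by omega
  have hR2 : HasR2 K D n := hasR2 hK hn0 hdeg
  have hsy : ∀ x : D, star (x + star x) = x + star x := fun x => by
    rw [star_add, star_star, add_comm]
  have hineq := fun i => ineq hn0 (hA i) hnd (h1 i) (h2 i)
  -- the two lines and their complements
  have hanis : ∀ v : Fin 2 → D, rowH H v v = 0 → v = 0 := (Two.Hi.rowA H hH).anis'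
  have hfr : 2 ≤ finrank D (Fin 2 → D) := by rw [Module.finrank_fin_fun]
  obtain ⟨x, hx⟩ := Three.exists_len hn0 hdeg hR2 hc hd le_rfl hH hH1 (hsy z) hnd.1 h1
  obtain ⟨x', hx'⟩ := Three.exists_len hn0 hdeg hR2 hc hd le_rfl hH hH1 (hsy (z * r)) hnd.2.1
    fun i => (hineq i).1
  obtain ⟨y, hy0, hyx⟩ := exists_perp (rowF H hH.1) hfr x
  obtain ⟨y', hy'0, hyx'⟩ := exists_perp (rowF H hH.1) hfr x'
  have hxy : rowH H x y = 0 := by
    have h3 := (rowF H hH.1).star_h y x
    rw [hyx, star_zero] at h3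
    exact h3.symm
  have hxy' : rowH H x' y' = 0 := by
    have h3 := (rowF H hH.1).star_h y' x'
    rw [hyx', star_zero] at h3
    exact h3.symm
  have hx0 : x ≠ 0 := by
    rintro rfl
    apply hnd.1
    rw [← hx]
    exact (Two.Hi.rowA H hH).zero_left 0
  have hx'0 : x' ≠ 0 := by
    rintro rfl
    apply hnd.2.1
    rw [← hx']
    exact (Two.Hi.rowA H hH).zero_left 0
  obtain ⟨r₀, hr₀⟩ : ∃ r₀, r₀ = rowH H y y := ⟨_, rfl⟩
  obtain ⟨r₀', hr₀'⟩ : ∃ r₀', r₀' = rowH H y' y' := ⟨_, rfl⟩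
  have hr₀s : star r₀ = r₀ := by rw [hr₀]; exact (rowF H hH.1).star_h y y
  have hr₀s' : star r₀' = r₀' := by rw [hr₀']; exact (rowF H hH.1).star_h y' y'
  have hr₀0 : r₀ ≠ 0 := by rw [hr₀]; exact fun h => hy0 (hanis y h)
  have hr₀0' : r₀' ≠ 0 := by rw [hr₀']; exact fun h => hy'0 (hanis y' h)
  have hsig : ∀ i, (R i).CongAt r₀ r₀' := by
    intro i
    rw [hr₀, hr₀']
    refine congAt_cancel hn0 hdeg (R i) hH hx0 hy0 hx'0 hy'0 hxy hxy' ?_
    rw [hx, hx']
    exact RP.congAt_of_pos (h1 i) (hineq i).1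
  -- the setting
  have hK' := hK
  obtain ⟨k0, hk0⟩ := hK
  have hθ0 : k0 - star k0 ≠ 0 := sub_ne_zero.mpr (Ne.symm hk0)
  have hθ : star (k0 - star k0) = -(k0 - star k0) := by rw [star_sub, star_star, neg_sub]
  let _ := algFK (K := K) (D := D)
  have _ : IsScalarTower (FK K) K D := IsScalarTower.of_algebraMap_eq fun _ => rfl
  have hS : Setting (FK K) K D (sqU hθ0 hθ) (k0 - star k0) := setting hθ0 hθ
  -- reduced norms
  obtain ⟨f⟩ := Vale.Agent.P011S.exists_split (K := K) (D := D) hdeg (AlgebraicClosure K)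
  have hdet : ∀ x : D, x ≠ 0 → (f x).det ≠ 0 := by
    intro x hx h0
    have h3 : f x * f x⁻¹ = 1 := by rw [← map_mul, mul_inv_cancel₀ hx, map_one]
    have h4 := congrArg Matrix.det h3
    rw [Matrix.det_mul, h0, zero_mul, Matrix.det_one] at h4
    exact zero_ne_one h4
  have hnrd : ∀ x : D, x ≠ 0 → star x = x →
      ∃ ν : (FK K)ˣ, (f x).det = algebraMap K (AlgebraicClosure K) (algebraMap (FK K) K ν) := by
    intro x hx0 hx
    obtain ⟨ν, hν⟩ := exists_nrd hn0 hdeg f x
    obtain ⟨ν', rfl⟩ := (hS.fix ν).mp (star_nrd hn0 hdeg hS.star_alg f hx hν)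
    refine ⟨Units.mk0 ν' ?_, hν⟩
    rintro rfl
    rw [map_zero, map_zero] at hν
    exact hdet x hx0 hν
  obtain ⟨ν0, hν0⟩ := hnrd r₀ hr₀0 hr₀s
  obtain ⟨νb, hνb⟩ := hnrd (b₀ z z₂ r) hnd.2.2.2.2.2 star_b₀
  obtain ⟨V, hV⟩ := exists_ctrl hS.ns (ν0 * νb)
  have hne : V.Nonempty ∨ ∃ φ : FK K →+* ℝ, φ (sqU hθ0 hθ) < 0 := by
    obtain ⟨p, hp, -, hpV⟩ := hV.jet
    rcases p with v | φ
    · exact Or.inl ⟨v, hpV v rfl⟩
    · exact Or.inr ⟨φ, notMem_LSR.mp hp⟩
  -- step a
  obtain ⟨t, p, ht0, hp0, htp, hmr, hnice⟩ := stepA hS hn hdeg hc hd hA star_bb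
    star_mm hr₀s hr₀s' hnd.bb0 hnd.mm0 hr₀0 hr₀0' (fun i => (hineq i).2.1)
    (fun i => (hineq i).2.2.2) hsig hV.fin hV.nonsplit hne
  obtain ⟨q, hq⟩ : ∃ q, q = t * r₀ * star t := ⟨_, rfl⟩
  rw [← hq] at htp hmr hnice
  have hqs : star q = q := by
    rw [hq, star_mul, star_mul, star_star, hr₀s, mul_assoc]
  have hq0 : q ≠ 0 := by
    rw [hq]
    exact mul_ne_zero (mul_ne_zero ht0 hr₀0) (star_ne_zero.mpr ht0)
  obtain ⟨νq, hνq⟩ := hnrd q hq0 hqs
  have hcl : νq * νb * (ν0 * νb) ∈ NF (sqU hθ0 hθ) := by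
    have h3 : ν0 * νq ∈ NF (sqU hθ0 hθ) := by
      refine cls_conj hS hn0 hdeg f (t := t) hν0 ?_
      rw [← hq]
      exact hνq
    have h4 : νb * νb ∈ NF (sqU hθ0 hθ) := ⟨νb, 0, by rw [Units.val_mul]; ring⟩
    have h5 : νq * νb * (ν0 * νb) = ν0 * νq * (νb * νb) := by
      rw [mul_mul_mul_comm, mul_comm νq ν0]
    rw [h5]
    exact mul_mem h3 h4
  -- step b
  obtain ⟨w, c, hc0, hw, hwc⟩ := stepB hS hn hdeg f hc star_mm hqs star_b₀
    hnd.mm0 hq0 hnd.2.2.2.2.2 (fun i => (hineq i).2.2.1) h2 hmr hνq hνb hcl hV hnice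
  -- the path
  have h20 : (2 : D) ≠ 0 := by
    have : CharZero D := charZero_of_injective_algebraMap (algebraMap K D).injective
    exact two_ne_zero
  refine path (H := Two.Hi.rowA H hH) (χ := χ) h20 (w := w) (c := c) (x := x) (y := t • y)
    (x' := x') (y' := p • y') hnd ?_ hx ?_ ?_ hx' ?_ ?_ hg0 hg hc0 ?_
  · rw [hw]; exact hq0
  · rw [(Two.Hi.rowA H hH).smul_left, (Two.Hi.rowA H hH).smul_right, hw, hq, ← mul_assoc]
    rw [hr₀]
    rfl
  · rw [(Two.Hi.rowA H hH).smul_right]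
    change rowH H x y * star t = 0
    rw [hxy, zero_mul]
  · rw [(Two.Hi.rowA H hH).smul_left, (Two.Hi.rowA H hH).smul_right, hw, htp, ← mul_assoc]
    rw [hr₀']
    rfl
  · rw [(Two.Hi.rowA H hH).smul_right]
    change rowH H x' y' * star p = 0
    rw [hxy', zero_mul]
  · rw [hw]
    exact hwc

/-- **Theorem S.** -/
theorem thmS (hK : ∃ k : K, star k ≠ k) {n : ℕ} (hn : 2 ≤ n) (hdeg : finrank K D = n ^ 2)
    {ι : Type} [Fintype ι] {R : ι → RData K D n} (hc : Complete R) (hd : Dense R)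
    (hA : ∀ i, (R i).A.PosDef) {H : Matrix (Fin 2) (Fin 2) D} (hH : IsAnisotropicForm H)
    (hH1 : ∀ i, Three.PosDim (R i) H n) {A : Type} [CommGroup A]
    (χ : (Two.Hi.rowA H hH).isom →* A) {z z₂ r : D} (hnd : ND z z₂ r)
    (h1 : ∀ i, (R i).PosAt (z + star z))
    (h2 : ∀ i, (R i).PosAt (b₀ z z₂ r))
    (h3 : (∃ g : D, g ≠ 0 ∧ star r * z₂ + star (star r * z₂) = g * (z + star z) * star g) ∨
      (∃ g : D, g ≠ 0 ∧ z₂ + star z₂ = g * (z * r + star (z * r)) * star g)) :
    psi (Two.Hi.rowA H hH) χ z * psi (Two.Hi.rowA H hH) χ z₂ =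
      psi (Two.Hi.rowA H hH) χ (z * r) * psi (Two.Hi.rowA H hH) χ (star r * z₂) := by
  have hn0 : 0 < n := by omega
  rcases h3 with ⟨g, hg0, hg⟩ | ⟨g, hg0, hg⟩
  · exact thmS_first hK hn hdeg hc hd hA hH hH1 χ hnd h1 h2 hg0 hg
  · rcases eq_or_ne z₂ (z * r) with rfl | hne
    · have h4 : psi (Two.Hi.rowA H hH) χ (star r * (z * r)) = psi (Two.Hi.rowA H hH) χ z := by
        have h5 := Three.psi_conj' (H := Two.Hi.rowA H hH) (χ := χ) z (star_ne_zero.mpr hnd.r0)
        rwa [star_star, mul_assoc] at h5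
      rw [h4, mul_comm]
    · have hineq := fun i => ineq hn0 (hA i) hnd (h1 i) (h2 i)
      obtain ⟨Z, Q, u, C, G, hu0, hC0, hG0, hZ, hZQ, hC, hND, hZs, hb, hG⟩ := swap hnd hne hg0 hg
      have h4 := thmS_first hK hn hdeg hc hd hA hH hH1 χ hND
        (fun i => by rw [hZs]; exact posAt_conj (hineq i).1 hu0)
        (fun i => by rw [hb]; exact (hineq i).2.1) hG0 hG
      have h5 : psi (Two.Hi.rowA H hH) χ (star r * z₂) =
          psi (Two.Hi.rowA H hH) χ (z₂ * r⁻¹) := by
        have h6 := Three.psi_conj' (H := Two.Hi.rowA H hH) (χ := χ) (z₂ * r⁻¹)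
          (star_ne_zero.mpr hnd.r0)
        rwa [star_star, mul_assoc, mul_assoc, inv_mul_cancel₀ hnd.r0, mul_one] at h6
      rw [hZQ, hC, hZ, Three.psi_conj' _ _ hu0, Three.psi_conj' _ _ hC0, ← h5] at h4
      exact h4.symm

end main

end Vale.Agent.P011.Two2
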